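import Vale.Agent.P114.Block
import Mathlib.Analysis.Complex.ExponentialBounds

/-! # P114: the inverse entropy inequality with a logarithmic constant -/

namespace Vale.Agent.P114.Trans

noncomputable section

open scoped Classical
open Finset

variable {Ω Ω' : Type} [Fintype Ω] [Fintype Ω'] {P : Ω → ℝ} {Q : Ω' → ℝ}

/-- One block of the chain rule, keeping the far probability. -/
private theorem block_far (hP : 0 ≤ P) (hP1 : ∑ a, P a = 1) (hQ : 0 ≤ Q) (hQ1 : ∑ w, Q w = 1)
    (x : Ω → ℤ) (y : Ω' → ℤ) (u l r : ℕ) (hu : 0 < u) (γ : ℝ)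
    (hgain : ∀ d : ℕ, u * 2 ^ r ≤ d →
      ent (prodW Q (unif (Fin (u * 2 ^ r)))) (fun v => y v.1 + (v.2 : ℕ)) + γ ≤
        ent (prodW (prodW Q (unif (Fin (u * 2 ^ r)))) (unif Bool))
          (fun v => (y v.1.1 + (v.1.2 : ℕ)) + if v.2 then (d : ℤ) else 0)) :
    cent (prodW P Q) (fun v => x v.1 / (u : ℤ))
        (fun v => (x v.1 / (u : ℤ) / 2 ^ l, x v.1 + y v.2)) ≤
      cent P (fun a => x a / (u : ℤ)) (fun a => x a / (u : ℤ) / 2 ^ l) -
        γ * farProb P (fun a => x a / (u : ℤ) / 2 ^ l) (fun a => x a / (u : ℤ)) (2 ^ r) +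
        ((1 / 2 : ℝ) ^ r * (l * Real.log 2) + 3 * √((1 / 2 : ℝ) ^ r)) := by
  set W := u * 2 ^ r with hWdef
  have hW : 0 < W := by positivity
  have hu0 : (0 : ℤ) < u := by exact_mod_cast hu
  have hW0 : (0 : ℤ) < W := by exact_mod_cast hW
  have : Nonempty (Fin W) := ⟨⟨0, hW⟩⟩
  let K : Ω → ℤ := fun a => x a / (u : ℤ)
  let c : Ω → ℤ := fun a => x a / (u : ℤ) / 2 ^ l
  let R : Ω → ℤ := fun a => x a % (u : ℤ)
  set Q'' := prodW Q (unif (Fin W))
  let z : Ω' × Fin W → ℤ := fun v => y v.1 + (v.2 : ℕ)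
  have hQ2 : 0 ≤ Q'' := prodW_nonneg hQ unif_nonneg
  have hQ21 : ∑ v, Q'' v = 1 := by rw [sum_prodW, hQ1, sum_unif, one_mul]
  set Λ := prodW P Q''
  have hΛ : 0 ≤ Λ := prodW_nonneg hP hQ2
  have hΛ1 : ∑ v, Λ v = 1 := by rw [sum_prodW, hP1, hQ21, one_mul]
  let A : Ω × (Ω' × Fin W) → ℤ := fun v => x v.1 + z v.2
  let wrap : Ω × (Ω' × Fin W) → Ω × (Ω' × Fin W) := fun v => (v.1, (v.2.1,
    ⟨((R v.1 + (v.2.2 : ℕ)) % (W : ℤ)).toNat, by
      have := Int.emod_lt_of_pos (R v.1 + (v.2.2 : ℕ)) hW0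
      omega⟩))
  have hcoe : ∀ v, (((wrap v).2.2 : ℕ) : ℤ) = (R v.1 + (v.2.2 : ℕ)) % (W : ℤ) := fun v =>
    Int.toNat_of_nonneg (Int.emod_nonneg _ hW0.ne')
  let S : Ω × (Ω' × Fin W) → ℤ := fun v => (u : ℤ) * K v.1 + z v.2
  let E : Ω × (Ω' × Fin W) → Bool := fun v => decide ((W : ℤ) ≤ R v.1 + (v.2.2 : ℕ))
  -- remove the independent smoothing variable
  have h1 : cent (prodW P Q) (fun v => K v.1) (fun v => (c v.1, x v.1 + y v.2)) ≤
      cent Λ (fun v => K v.1) (fun v => (c v.1, A v)) := by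
    have hPQ : 0 ≤ prodW P Q := prodW_nonneg hP hQ
    have e := cent_prod_fst_snd hPQ (unif_nonneg (J := Fin W)) sum_unif (fun v => K v.1)
      (fun v => (c v.1, x v.1 + y v.2))
    rw [← e, ← cent_equiv (P := prodW (prodW P Q) (unif (Fin W))) (Q := Λ)
      (Equiv.prodAssoc Ω Ω' (Fin W)).symm (fun v => by simp [Λ, Q'', prodW, mul_assoc])]
    refine cent_anti_right hΛ fun v w h => ?_
    simp only [Equiv.prodAssoc_symm_apply, Prod.mk.injEq] at h
    obtain ⟨⟨h1, h2⟩, h3⟩ := h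
    simp only [A, z, Prod.mk.injEq]
    refine ⟨h1, ?_⟩
    rw [← add_assoc, h2, h3, add_assoc]
  have hE : ∀ v, E v = false → A v = S (wrap v) := by
    intro v hv
    simp only [E, decide_eq_false_iff_not, not_le] at hv
    have hm := Int.emod_nonneg (x v.1) hu0.ne'
    simp only [A, S, z, hcoe, R] at hv ⊢
    rw [emod_wrap (by positivity) hv]
    have := Int.mul_ediv_add_emod (x v.1) (u : ℤ)
    simp only [K, wrap]
    linarith
  have hEp : ∑ v, (if E v then Λ v else 0) ≤ (1 / 2 : ℝ) ^ r := by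
    have hcard : ∀ a, ((univ.filter fun j : Fin W => (W : ℤ) ≤ R a + (j : ℕ)).card : ℝ) ≤ u := by
      intro a
      have hR := Int.emod_lt_of_pos (x a) hu0
      exact_mod_cast le_trans (card_le_card_of_injOn (t := Finset.range u)
        (fun j : Fin W => W - 1 - (j : ℕ)) (fun j hj => by
          simp only [coe_filter, Set.mem_ofPred_eq, mem_univ, true_and, R] at hj
          have := j.isLt
          simp only [coe_range, Set.mem_Iio]
          omega) (fun i _ j _ hij => by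
          have := i.isLt
          have := j.isLt
          simp only at hij
          exact Fin.ext (by omega))) (le_of_eq (card_range u))
    simp only [Λ, Q'', prodW, E, decide_eq_true_eq, Fintype.sum_prod_type]
    calc ∑ a, ∑ w, ∑ j : Fin W, (if (W : ℤ) ≤ R a + (j : ℕ) then P a * (Q w * unif (Fin W) j)
          else 0)
        = ∑ a, ∑ w, P a * Q w * (((univ.filter fun j : Fin W => (W : ℤ) ≤ R a + (j : ℕ)).card : ℝ) *
            (W : ℝ)⁻¹) := by
          refine sum_congr rfl fun a _ => sum_congr rfl fun w _ => ?_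
          rw [← sum_filter]
          simp [unif]; ring
      _ ≤ ∑ a, ∑ w, P a * Q w * ((u : ℝ) * (W : ℝ)⁻¹) := sum_le_sum fun a _ => sum_le_sum fun w _ =>
          mul_le_mul_of_nonneg_left (mul_le_mul_of_nonneg_right (hcard a) (by positivity))
            (mul_nonneg (hP a) (hQ w))
      _ = (1 / 2 : ℝ) ^ r := by
          simp only [← sum_mul, ← mul_sum, hQ1, hP1, mul_one, one_mul]
          rw [hWdef, div_pow, one_pow]; push_cast
          field_simp
  have h2 := cent_perturb hΛ hΛ1 (fun v => K v.1) (fun v => c v.1) A (fun v => S (wrap v)) E hE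
    (pow_le_one₀ (by norm_num) (by norm_num)) (one_le_pow₀ (by norm_num : (1 : ℝ) ≤ 2) (n := l))
    hEp (fun t => Finset.Ico (t * 2 ^ l) (t * 2 ^ l + 2 ^ l))
    (fun v => by
      simp only [c, K, mem_Ico]
      have h' := Int.mul_ediv_add_emod (x v.1 / u) (2 ^ l)
      have h'' := Int.emod_lt_of_pos (x v.1 / u) (by positivity : (0 : ℤ) < 2 ^ l)
      have h''' := Int.emod_nonneg (x v.1 / u) (by positivity : (2 : ℤ) ^ l ≠ 0)
      constructor <;> linarith)
    (fun v => by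
      rw [Int.card_Ico, add_sub_cancel_left, show (2 : ℤ) ^ l = ((2 ^ l : ℕ) : ℤ) by simp,
        Int.toNat_natCast]
      simp)
  rw [Real.log_pow] at h2
  have h3 : cent Λ (fun v => K v.1) (fun v => (c v.1, S (wrap v))) =
      cent Λ (fun v => K v.1) (fun v => (c v.1, S v)) := by
    refine cent_map (Q := Λ) (P := Λ) wrap (fun v => ?_) (fun v => K v.1) (fun v => (c v.1, S v))
    have hinj : Function.Injective wrap := by
      intro a b h
      have e1 := congrArg Prod.fst h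
      have e2 := congrArg (fun t => t.2.1) h
      have e3 := congrArg (fun t => ((t.2.2 : ℕ) : ℤ)) h
      rw [hcoe, hcoe] at e3
      simp only [wrap] at e1 e2
      rw [e1] at e3
      have h4 : ((a.2.2 : ℕ) : ℤ) % W = ((b.2.2 : ℕ) : ℤ) % W :=
        (Int.emod_add_cancel_left).1 e3
      rw [emod_wrap (by positivity) (by exact_mod_cast a.2.2.isLt),
        emod_wrap (by positivity) (by exact_mod_cast b.2.2.isLt)] at h4
      exact Prod.ext e1 (Prod.ext e2 (Fin.ext (by exact_mod_cast h4)))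
    obtain ⟨t, rfl⟩ := (Finite.injective_iff_surjective.1 hinj) v
    unfold mass
    rw [sum_eq_single t]
    case h₀ => exact fun w _ hw => if_neg fun h => hw (hinj h)
    case h₁ => simp
    rw [if_pos rfl]
    simp [Λ, Q'', prodW, wrap, unif]
  have h4 := mix_gain hP hP1 hQ2 hQ21 c K z u r γ hgain
  change cent (prodW P Q) (fun v => K v.1) (fun v => (c v.1, x v.1 + y v.2)) ≤
    cent P K c - γ * farProb P c K (2 ^ r) + _
  linarith

/-- A variable which, given another, takes at most two values adds at most `log 2`. -/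
private theorem cent_two (hP : 0 ≤ P) (hP1 : ∑ a, P a = 1) {β : Type} (A : Ω → ℤ) (Z : Ω → β)
    (k : Ω → ℤ) (hk : ∀ v w, Z v = Z w → k v = k w) (hA : ∀ v, A v = k v ∨ A v = k v + 1) :
    cent P A Z ≤ Real.log 2 := by
  refine (cent_anti_right hP hk).trans ?_
  refine (cent_le_log hP A k (fun _ => 2) (fun y => {y, y + 1}) (fun v => ?_) (fun v => ?_)).trans
    (le_of_eq (by rw [← sum_mul, hP1, one_mul]))
  · simpa using hA v
  · exact_mod_cast card_le_two

private theorem ediv_shift (x t : ℤ) {d : ℤ} (hd : 0 < d) :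
    (x + t) / d = x / d + t / d ∨ (x + t) / d = x / d + t / d + 1 := by
  have a1 := Int.mul_ediv_add_emod x d
  have a2 := Int.mul_ediv_add_emod t d
  have a3 := Int.emod_lt_of_pos x hd
  have a4 := Int.emod_lt_of_pos t hd
  have a5 := Int.emod_nonneg x hd.ne'
  have a6 := Int.emod_nonneg t hd.ne'
  have b1 : x / d + t / d ≤ (x + t) / d := by
    rw [Int.le_ediv_iff_mul_le hd]; linarith
  have b2 : (x + t) / d < x / d + t / d + 2 := by
    rw [Int.ediv_lt_iff_lt_mul hd]; linarith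
  omega

private theorem ent_shift_le (hP : 0 ≤ P) (hP1 : ∑ a, P a = 1) (x : Ω → ℤ) (t : ℤ) {d : ℤ}
    (hd : 0 < d) : ent P (fun a => (x a + t) / d) ≤ ent P (fun a => x a / d) + Real.log 2 :=
  (ent_le_add hP _ _).trans (add_le_add le_rfl (cent_two hP hP1 _ _ (fun a => x a / d + t / d)
    (fun v w h => by rw [h]) fun a => ediv_shift (x a) t hd))

private theorem ent_shift_ge (hP : 0 ≤ P) (hP1 : ∑ a, P a = 1) (x : Ω → ℤ) (t : ℤ) {d : ℤ}
    (hd : 0 < d) : ent P (fun a => x a / d) ≤ ent P (fun a => (x a + t) / d) + Real.log 2 :=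
  (ent_le_add hP _ _).trans (add_le_add le_rfl (cent_two hP hP1 _ _
    (fun a => (x a + t) / d - t / d - 1)
    (fun v w h => by rw [h]) fun a => by
      have := ediv_shift (x a) t hd; omega))

private theorem window_shift (hQ : 0 ≤ Q) (hQ1 : ∑ w, Q w = 1) (y : Ω' → ℤ) (α C : ℝ)
    (hw : ∀ u L : ℕ, 0 < u → 0 < L → cent Q (fun w => y w / (u : ℤ))
      (fun w => y w / ((u * L : ℕ) : ℤ)) ≤ α * Real.log L + C) (t : ℤ)
    (u L : ℕ) (hu : 0 < u) (hL : 0 < L) :
    cent Q (fun w => (y w + t) / (u : ℤ)) (fun w => (y w + t) / ((u * L : ℕ) : ℤ)) ≤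
      α * Real.log L + (C + 2 * Real.log 2) := by
  have hu0 : (0 : ℤ) < u := by exact_mod_cast hu
  have hL0 : (0 : ℤ) < ((u * L : ℕ) : ℤ) := by exact_mod_cast Nat.mul_pos hu hL
  let X : Ω' → ℤ := fun w => (y w + t) / (u : ℤ)
  let Y : Ω' → ℤ := fun w => (y w + t) / ((u * L : ℕ) : ℤ)
  let X0 : Ω' → ℤ := fun w => y w / (u : ℤ)
  let Y0 : Ω' → ℤ := fun w => y w / ((u * L : ℕ) : ℤ)
  have h1 : cent Q X Y ≤ cent Q Y0 Y + cent Q X (fun v => (Y0 v, Y v)) := cent_le_add hQ _ _ _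
  have h2 : cent Q Y0 Y ≤ Real.log 2 := cent_two hQ hQ1 Y0 Y
    (fun w => Y w - t / ((u * L : ℕ) : ℤ) - 1) (fun v w h => by rw [h]) fun w => by
      have := ediv_shift (y w) t hL0
      simp only [Y0, Y]; omega
  have h3 : cent Q X (fun v => (Y0 v, Y v)) ≤ cent Q X Y0 := cent_pair_right_le hQ _ _ _
  have h4 : cent Q X Y0 ≤ cent Q X0 Y0 + cent Q X (fun v => (X0 v, Y0 v)) := cent_le_add hQ _ _ _
  have h5 : cent Q X (fun v => (X0 v, Y0 v)) ≤ Real.log 2 := cent_two hQ hQ1 X _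
    (fun w => X0 w + t / (u : ℤ)) (fun v w h => by rw [(Prod.mk.inj h).1]) fun w => by
      have := ediv_shift (y w) t hu0
      simp only [X, X0]; omega
  have h6 : cent Q X0 Y0 ≤ α * Real.log L + C := hw u L hu hL
  change cent Q X Y ≤ _
  linarith

private theorem ent_refine_le (hP : 0 ≤ P) (hP1 : ∑ a, P a = 1) (x : Ω → ℤ) (k : ℕ) :
    ent P x ≤ ent P (fun a => x a / 2 ^ k) + k * Real.log 2 := by
  refine (ent_le_add hP x (fun a => x a / 2 ^ k)).trans (add_le_add le_rfl ?_)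
  refine (cent_le_log hP x _ (fun _ => (2 : ℝ) ^ k)
    (fun t => Finset.Ico (t * 2 ^ k) (t * 2 ^ k + 2 ^ k)) (fun v => ?_) (fun v => ?_)).trans
    (le_of_eq (by rw [← sum_mul, hP1, one_mul, Real.log_pow]))
  · simp only [mem_Ico]
    have g1 := Int.mul_ediv_add_emod (x v) (2 ^ k)
    have g2 := Int.emod_lt_of_pos (x v) (by positivity : (0 : ℤ) < 2 ^ k)
    have g3 := Int.emod_nonneg (x v) (by positivity : (2 : ℤ) ^ k ≠ 0)
    constructor <;> linarith
  · rw [Int.card_Ico, add_sub_cancel_left, show (2 : ℤ) ^ k = ((2 ^ k : ℕ) : ℤ) by simp,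
      Int.toNat_natCast]
    simp

private theorem ediv_pow_two (z : ℤ) (i j : ℕ) : z / 2 ^ i / 2 ^ j = z / 2 ^ (i + j) := by
  rw [Int.ediv_ediv_of_nonneg (by positivity), ← pow_add]

private theorem cent_nested (hP : 0 ≤ P) (x : Ω → ℤ) (i j : ℕ) :
    cent P (fun a => x a / 2 ^ i) (fun a => x a / 2 ^ (i + j)) =
      ent P (fun a => x a / 2 ^ i) - ent P (fun a => x a / 2 ^ (i + j)) := by
  have h' : ent P (fun a => (x a / 2 ^ i, x a / 2 ^ (i + j))) = ent P (fun a => x a / 2 ^ i) :=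
    cent_congr_left hP fun v w _ => by
      simp only [Prod.mk.injEq]
      exact ⟨fun h => h.1, fun h => ⟨h, by rw [← ediv_pow_two, ← ediv_pow_two, h]⟩⟩
  rw [← h', ent_pair]; ring

private theorem same_group {K1 K2 R M : ℤ} (hM : 0 < M) (h : |K1 - K2| < R)
    (h1 : R ≤ K1 % M) (h2 : K1 % M < M - R) : K1 / M = K2 / M := by
  have a1 := Int.mul_ediv_add_emod K1 M
  obtain ⟨b1, b2⟩ := abs_lt.1 h
  apply le_antisymm
  · rw [Int.le_ediv_iff_mul_le hM]; linarith
  · rw [← Int.lt_add_one_iff, Int.ediv_lt_iff_lt_mul hM]; linarith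

/-- The probability that `K` is near a boundary of the groups of size `2 ^ (2 r)`. -/
private def edge (P : Ω → ℝ) (K : Ω → ℤ) (r : ℕ) : ℝ :=
  ∑ a, if K a % 2 ^ (2 * r) < 2 ^ r ∨ 2 ^ (2 * r) - 2 ^ r ≤ K a % 2 ^ (2 * r) then P a else 0

private theorem fano_group (hP : 0 ≤ P) (hP1 : ∑ a, P a = 1) (c K : Ω → ℤ) (r : ℕ)
    (hr : 1 ≤ r) (hc : ∀ a, c a = K a / 2 ^ (3 * r)) :
    cent P (fun a => K a / 2 ^ (2 * r)) c ≤
      3 * r * (farProb P c K (2 ^ r) + edge P K r) + (1 / 2 : ℝ) ^ r := by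
  rw [cent_pair_eq hP c]
  set W := pairW P c
  have hW : 0 ≤ W := pairW_nonneg hP c
  have hW1 : ∑ v, W v = 1 := by rw [sum_pairW hP c, hP1]
  set G : Ω → ℤ := fun a => K a / 2 ^ (2 * r) with hG
  let F : Ω × Ω → Bool := fun v => decide (G v.1 ≠ G v.2)
  set p := ∑ v, if G v.1 ≠ G v.2 then W v else 0 with hp
  have hp0 : 0 ≤ p := sum_nonneg fun v _ => by split_ifs; exacts [hW v, le_rfl]
  have h2 : ent W F ≤ 2 * r * p + (1 / 2 : ℝ) ^ r := by
    set e := Real.exp (-(2 * r : ℝ)) with he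
    have he0 : 0 < e := Real.exp_pos _
    let q : Bool → ℝ := fun b => if b then e / (1 + e) else 1 / (1 + e)
    have hg := gibbs hW F q (fun b _ => by cases b <;> simp [q] <;> positivity)
      (fun v _ => by cases F v <;> simp [q] <;> positivity)
      (by
        rw [hW1]
        refine (sum_le_sum_of_subset_of_nonneg (subset_univ _)
          fun b _ _ => by cases b <;> simp [q] <;> positivity).trans (le_of_eq ?_)
        simp only [Fintype.sum_bool, q, Bool.false_eq_true, if_false, if_true]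
        field_simp
        ring)
    have hm : ent W F = ∑ v, W v * -Real.log (mass W F (F v)) := by
      simp only [ent, cent, mass_unit, hW1, Real.log_one, zero_sub]
      refine sum_congr rfl fun v _ => ?_
      rw [mass_congr (Y := F) (b := F v) fun u => by simp]
    have hq : ∀ v, W v * -Real.log (q (F v)) =
        2 * r * (if G v.1 ≠ G v.2 then W v else 0) + Real.log (1 + e) * W v := by
      intro v
      by_cases h : G v.1 ≠ G v.2
      · have hF : F v = true := by simp [F, h]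
        simp only [hF, q, if_true, if_pos h]
        rw [Real.log_div he0.ne' (by positivity), he, Real.log_exp]
        ring
      · have hF : F v = false := by simpa [F] using h
        simp only [hF, q, Bool.false_eq_true, if_false, if_neg h]
        rw [one_div, Real.log_inv]
        ring
    have hee : e ≤ (1 / 2 : ℝ) ^ r := by
      rw [he, show -(2 * r : ℝ) = (r : ℝ) * (-2) by ring, Real.exp_nat_mul]
      refine pow_le_pow_left₀ (Real.exp_pos _).le ?_ r
      rw [Real.exp_neg, one_div]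
      exact inv_anti₀ two_pos (by linarith [Real.add_one_le_exp (2 : ℝ)])
    have hl1 : Real.log (1 + e) ≤ e := by
      have := Real.log_le_sub_one_of_pos (show 0 < 1 + e by positivity)
      linarith
    have hsum := sum_congr rfl fun v (_ : v ∈ (univ : Finset (Ω × Ω))) => hq v
    rw [sum_add_distrib, ← mul_sum, ← mul_sum, hW1, mul_one, ← hp] at hsum
    simp only [mul_sub, sum_sub_distrib] at hg
    simp only [mul_neg, sum_neg_distrib] at hm hsum
    linarith
  let M : Bool × ℤ × Ω → ℝ := fun y => if y.1 then (2 : ℝ) ^ r else 1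
  let S : Bool × ℤ × Ω → Finset ℤ := fun y =>
    if y.1 then Finset.Ico (y.2.1 * 2 ^ r) (y.2.1 * 2 ^ r + 2 ^ r) else {G y.2.2}
  have h3 : cent W (fun v => G v.1) (fun v => (F v, (c v.1, v.2)))
      ≤ ∑ v, W v * Real.log (M (F v, (c v.1, v.2))) := by
    refine cent_le_log hW _ _ M S (fun v => ?_) (fun v => ?_)
    · simp only [S, F]
      split_ifs with h
      · have e : c v.1 = G v.1 / 2 ^ r := by
          simp only [hc, hG, ediv_pow_two]; congr 2; ring
        simp only [mem_Ico, e]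
        have g1 := Int.mul_ediv_add_emod (G v.1) (2 ^ r)
        have g2 := Int.emod_lt_of_pos (G v.1) (by positivity : (0 : ℤ) < 2 ^ r)
        have g3 := Int.emod_nonneg (G v.1) (by positivity : (2 : ℤ) ^ r ≠ 0)
        constructor <;> linarith
      · simp only [decide_eq_true_eq, not_not] at h
        simp [h]
    · simp only [S, M]
      split_ifs
      · rw [Int.card_Ico, add_sub_cancel_left, show (2 : ℤ) ^ r = ((2 ^ r : ℕ) : ℤ) by simp,
          Int.toNat_natCast]
        simp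
      · simp
  have h4 : ∑ v, W v * Real.log (M (F v, (c v.1, v.2))) = (r * Real.log 2) * p := by
    rw [hp, mul_sum]
    refine sum_congr rfl fun v _ => ?_
    simp only [M, F]
    by_cases h : G v.1 ≠ G v.2
    · simp only [h, decide_true, if_true, Real.log_pow, ne_eq, not_false_eq_true]; ring
    · simp [h]
  have h5 : p ≤ farProb P c K (2 ^ r) + edge P K r := by
    have hedge : edge P K r = ∑ v, if K v.1 % 2 ^ (2 * r) < 2 ^ r ∨
        2 ^ (2 * r) - 2 ^ r ≤ K v.1 % 2 ^ (2 * r) then W v else 0 := by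
      rw [edge, Fintype.sum_prod_type]
      refine sum_congr rfl fun a _ => ?_
      split_ifs
      · exact (pairW_fst hP c a).symm
      · simp
    rw [hedge, farProb, ← sum_add_distrib]
    refine sum_le_sum fun v _ => ?_
    have h0 : 0 ≤ W v := hW v
    by_cases hne : G v.1 ≠ G v.2
    · rw [if_pos hne]
      by_cases hf : (2 : ℤ) ^ r ≤ |K v.1 - K v.2|
      · rw [if_pos hf]; split_ifs <;> linarith
      · rw [if_neg hf, zero_add, if_pos]
        by_contra hz
        push Not at hz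
        exact hne (same_group (by positivity) (not_le.1 hf) hz.1 hz.2)
    · rw [if_neg hne]; split_ifs <;> linarith
  have h1 := cent_le_add hW (fun v => G v.1) F (fun v => (c v.1, v.2))
  have h1' := (cent_le_ent hW F (fun v => (c v.1, v.2))).trans h2
  have hl2 : Real.log 2 ≤ 1 := by linarith [Real.log_two_lt_d9]
  have h6 : (r : ℝ) * Real.log 2 * p ≤ r * p :=
    mul_le_mul_of_nonneg_right (mul_le_of_le_one_right (Nat.cast_nonneg _) hl2) hp0
  have h7 := mul_le_mul_of_nonneg_left h5 (by positivity : (0 : ℝ) ≤ 3 * r)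
  linarith

private theorem sum_shift_period (g : ℤ → ℝ) (N : ℕ) (hg : ∀ k, g (k + N) = g k) (x : ℤ) :
    ∑ i ∈ range N, g (x + i) = ∑ i ∈ range N, g i := by
  have step : ∀ z : ℤ, ∑ i ∈ range N, g (z + 1 + i) = ∑ i ∈ range N, g (z + i) := by
    intro z
    have h1 := sum_range_succ (fun i : ℕ => g (z + i)) N
    have h2 := sum_range_succ' (fun i : ℕ => g (z + i)) N
    simp only [Nat.cast_add, Nat.cast_one, Nat.cast_zero, add_zero, hg] at h1 h2
    have e : ∀ i : ℕ, z + 1 + (i : ℤ) = z + ((i : ℤ) + 1) := fun i => by ring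
    simp only [e]
    linarith
  induction x using Int.induction_on with
  | zero => simp
  | succ k ih => rw [step]; exact ih
  | pred k ih =>
    have := step (-(k : ℤ) - 1)
    rw [sub_add_cancel] at this
    rw [← this]; exact ih

private theorem edge_avg (hP : 0 ≤ P) (hP1 : ∑ a, P a = 1) (x : Ω → ℤ) (e r N : ℕ)
    (he : e + 2 * r ≤ N) :
    ∑ t ∈ range (2 ^ N), edge P (fun a => (x a + (t : ℤ)) / 2 ^ e) r ≤
      2 * (1 / 2 : ℝ) ^ r * 2 ^ N := by
  obtain ⟨q, rfl⟩ := Nat.exists_eq_add_of_le he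
  set M : ℕ := 2 ^ (e + 2 * r) with hM
  set g : ℤ → ℝ := fun z => if z / 2 ^ e % 2 ^ (2 * r) < 2 ^ r ∨
    2 ^ (2 * r) - 2 ^ r ≤ z / 2 ^ e % 2 ^ (2 * r) then 1 else 0 with hg
  have hper : ∀ (k : ℤ) (j : ℕ), g (k + (M * j : ℕ)) = g k := by
    intro k j
    have e1 : (k + ((M * j : ℕ) : ℤ)) / 2 ^ e = k / 2 ^ e + 2 ^ (2 * r) * j := by
      rw [show ((M * j : ℕ) : ℤ) = 2 ^ (2 * r) * j * 2 ^ e by
          rw [hM]; push_cast; rw [pow_add]; ring,
        Int.add_mul_ediv_right _ _ (by positivity)]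
    simp only [hg, e1, Int.add_mul_emod_self_left]
  have hcount : ∑ i ∈ range M, g i ≤ 2 * (1 / 2 : ℝ) ^ r * M := by
    have hsub : ∀ i ∈ range M, g i ≤ (if i < 2 ^ (e + r) then (1 : ℝ) else 0) +
        (if M - 2 ^ (e + r) ≤ i then (1 : ℝ) else 0) := by
      intro i hi
      have hi' : (i : ℤ) < 2 ^ e * 2 ^ (2 * r) := by
        rw [← pow_add]; exact_mod_cast mem_range.1 hi
      have hmod : (i : ℤ) / 2 ^ e % 2 ^ (2 * r) = (i : ℤ) / 2 ^ e :=
        Int.emod_eq_of_lt (by positivity)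
          (by rw [Int.ediv_lt_iff_lt_mul (by positivity)]; linarith)
      simp only [hg, hmod]
      by_cases h2 : i < 2 ^ (e + r)
      · rw [if_pos h2]
        split_ifs <;> norm_num
      by_cases h3 : M - 2 ^ (e + r) ≤ i
      · rw [if_pos h3, if_neg h2]
        split_ifs <;> norm_num
      rw [if_neg h2, if_neg h3, if_neg]
      · norm_num
      rintro (h1 | h1)
      · rw [Int.ediv_lt_iff_lt_mul (by positivity)] at h1
        have : (i : ℤ) < ((2 ^ (e + r) : ℕ) : ℤ) := by push_cast; rw [pow_add]; linarith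
        exact h2 (by exact_mod_cast this)
      · rw [Int.le_ediv_iff_mul_le (by positivity)] at h1
        apply h3
        rw [Nat.sub_le_iff_le_add]
        have : ((M : ℕ) : ℤ) ≤ (i : ℤ) + ((2 ^ (e + r) : ℕ) : ℤ) := by
          rw [hM]; push_cast; rw [pow_add, pow_add]; linarith
        exact_mod_cast this
    refine (sum_le_sum hsub).trans ?_
    rw [sum_add_distrib, sum_boole, sum_boole]
    have c1 : ((range M).filter fun i => i < 2 ^ (e + r)).card ≤ 2 ^ (e + r) :=
      (card_le_card fun i hi => mem_range.2 (mem_filter.1 hi).2).trans (le_of_eq (card_range _))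
    have c2 : ((range M).filter fun i => M - 2 ^ (e + r) ≤ i).card ≤ 2 ^ (e + r) := by
      refine (card_le_card (t := Finset.Ico (M - 2 ^ (e + r)) M) fun i hi => ?_).trans ?_
      · rw [mem_Ico]; exact ⟨(mem_filter.1 hi).2, mem_range.1 (mem_filter.1 hi).1⟩
      · rw [Nat.card_Ico]; omega
    have c1' : (((range M).filter fun i => i < 2 ^ (e + r)).card : ℝ) ≤ 2 ^ (e + r) := by
      exact_mod_cast c1
    have c2' : (((range M).filter fun i => M - 2 ^ (e + r) ≤ i).card : ℝ) ≤ 2 ^ (e + r) := by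
      exact_mod_cast c2
    refine (add_le_add c1' c2').trans (le_of_eq ?_)
    rw [hM]; push_cast
    rw [div_pow, one_pow, pow_add, pow_add, two_mul r, pow_add]
    field_simp
    ring
  have hblocks : ∀ j : ℕ, ∑ i ∈ range (M * j), g i = j * ∑ i ∈ range M, g i := by
    intro j
    induction j with
    | zero => simp
    | succ j ih =>
      rw [Nat.mul_succ, sum_range_add, ih]
      push_cast
      rw [add_mul, one_mul]
      congr 1
      refine sum_congr rfl fun i _ => ?_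
      rw [show ((M : ℤ) * j + i) = (i : ℤ) + ((M * j : ℕ) : ℤ) by push_cast; ring, hper]
  have hN : 2 ^ (e + 2 * r + q) = M * 2 ^ q := by rw [hM, pow_add]
  have hx : ∀ a, ∑ t ∈ range (M * 2 ^ q), g (x a + t) ≤
      2 * (1 / 2 : ℝ) ^ r * (M * 2 ^ q : ℕ) := by
    intro a
    rw [sum_shift_period g _ (fun k => hper k _), hblocks]
    push_cast
    calc (2 : ℝ) ^ q * ∑ i ∈ range M, g i ≤ 2 ^ q * (2 * (1 / 2 : ℝ) ^ r * M) :=
          mul_le_mul_of_nonneg_left hcount (by positivity)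
      _ = _ := by ring
  simp only [edge]
  rw [sum_comm, hN]
  calc _ = ∑ a, P a * ∑ t ∈ range (M * 2 ^ q), g (x a + t) := by
        refine sum_congr rfl fun a _ => ?_
        rw [mul_sum]
        refine sum_congr rfl fun t _ => ?_
        simp only [hg, mul_ite, mul_one, mul_zero]
    _ ≤ ∑ a, P a * (2 * (1 / 2 : ℝ) ^ r * (M * 2 ^ q : ℕ)) :=
        sum_le_sum fun a _ => mul_le_mul_of_nonneg_left (hx a) (hP a)
    _ = _ := by
        rw [← sum_mul, hP1, one_mul, hM]; push_cast; rw [pow_add, pow_add, pow_add]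

private theorem class_step (hP : 0 ≤ P) (hP1 : ∑ a, P a = 1) (hQ : 0 ≤ Q) (hQ1 : ∑ w, Q w = 1)
    (x : Ω → ℤ) (y : Ω' → ℤ) (r : ℕ) (hr : 1 ≤ r) (γ : ℝ) (hγ : 0 < γ)
    (hgain : ∀ u d : ℕ, 0 < u → u * 2 ^ r ≤ d →
      ent (prodW Q (unif (Fin (u * 2 ^ r)))) (fun v => y v.1 + (v.2 : ℕ)) + γ ≤
        ent (prodW (prodW Q (unif (Fin (u * 2 ^ r)))) (unif Bool))
          (fun v => (y v.1.1 + (v.1.2 : ℕ)) + if v.2 then (d : ℤ) else 0))
    (s m : ℕ) :
    cent (prodW P Q) (fun v => x v.1 / 2 ^ s) (fun v => x v.1 + y v.2) ≤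
      cent (prodW P Q) (fun v => x v.1 / 2 ^ (s + 3 * r * m)) (fun v => x v.1 + y v.2) +
        (ent P (fun a => x a / 2 ^ s) - ent P (fun a => x a / 2 ^ (s + 3 * r * m))) -
        γ / (3 * r) * ∑ i ∈ range m, (ent P (fun a => x a / 2 ^ (s + 3 * r * i + 2 * r)) -
          ent P (fun a => x a / 2 ^ (s + 3 * r * i + 2 * r + r))) +
        γ * ∑ i ∈ range m, edge P (fun a => x a / 2 ^ (s + 3 * r * i)) r +
        m * (γ * (1 / 2 : ℝ) ^ r +
          ((1 / 2 : ℝ) ^ r * (3 * r * Real.log 2) + 3 * √((1 / 2 : ℝ) ^ r))) := by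
  induction m with
  | zero => simp
  | succ m ih =>
    set PQ := prodW P Q
    have hPQ : 0 ≤ PQ := prodW_nonneg hP hQ
    set b := s + 3 * r * m with hbdef
    have etop : s + 3 * r * (m + 1) = b + 3 * r := by rw [hbdef]; ring
    rw [etop, sum_range_succ, sum_range_succ, ← hbdef]
    have hu : 0 < 2 ^ b := by positivity
    have hb := block_far hP hP1 hQ hQ1 x y (2 ^ b) (3 * r) r hu γ (fun d hd => hgain _ d hu hd)
    push_cast at hb
    simp only [ediv_pow_two] at hb
    have hfg := fano_group hP hP1 (fun a => x a / 2 ^ (b + 3 * r)) (fun a => x a / 2 ^ b) r hr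
      (fun a => by rw [ediv_pow_two])
    simp only [ediv_pow_two] at hfg
    have e1 := cent_nested hP x b (3 * r)
    have e2 : cent P (fun a => x a / 2 ^ (b + 2 * r)) (fun a => x a / 2 ^ (b + 3 * r)) =
        ent P (fun a => x a / 2 ^ (b + 2 * r)) - ent P (fun a => x a / 2 ^ (b + 2 * r + r)) := by
      rw [show b + 3 * r = b + 2 * r + r by ring]; exact cent_nested hP x (b + 2 * r) r
    rw [e1] at hb
    rw [e2] at hfg
    have hr1 : (1 : ℝ) ≤ r := by exact_mod_cast hr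
    have hr0 : (0 : ℝ) < 3 * r := by linarith
    have hγ3 := mul_le_mul_of_nonneg_left hfg (div_nonneg hγ.le hr0.le)
    have e4 : γ / (3 * r) * (3 * r * (farProb P (fun a => x a / 2 ^ (b + 3 * r))
        (fun a => x a / 2 ^ b) (2 ^ r) + edge P (fun a => x a / 2 ^ b) r) + (1 / 2 : ℝ) ^ r) =
        γ * farProb P (fun a => x a / 2 ^ (b + 3 * r)) (fun a => x a / 2 ^ b) (2 ^ r) +
          γ * edge P (fun a => x a / 2 ^ b) r + γ / (3 * r) * (1 / 2 : ℝ) ^ r := by
      field_simp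
    rw [e4] at hγ3
    have h5 : γ / (3 * r) * (1 / 2 : ℝ) ^ r ≤ γ * (1 / 2 : ℝ) ^ r :=
      mul_le_mul_of_nonneg_right (div_le_self hγ.le (by linarith)) (by positivity)
    have hchain : cent PQ (fun v => x v.1 / 2 ^ b) (fun v => x v.1 + y v.2) ≤
        cent PQ (fun v => x v.1 / 2 ^ (b + 3 * r)) (fun v => x v.1 + y v.2) +
          cent PQ (fun v => x v.1 / 2 ^ b) (fun v => (x v.1 / 2 ^ (b + 3 * r), x v.1 + y v.2)) :=
      cent_le_add hPQ _ _ _
    push_cast
    linarith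

private theorem class_total (hP : 0 ≤ P) (hP1 : ∑ a, P a = 1) (hQ : 0 ≤ Q) (hQ1 : ∑ w, Q w = 1)
    (x : Ω → ℤ) (y : Ω' → ℤ) (r : ℕ) (hr : 1 ≤ r) (γ : ℝ) (hγ : 0 < γ)
    (hgain : ∀ u d : ℕ, 0 < u → u * 2 ^ r ≤ d →
      ent (prodW Q (unif (Fin (u * 2 ^ r)))) (fun v => y v.1 + (v.2 : ℕ)) + γ ≤
        ent (prodW (prodW Q (unif (Fin (u * 2 ^ r)))) (unif Bool))
          (fun v => (y v.1.1 + (v.1.2 : ℕ)) + if v.2 then (d : ℤ) else 0))
    (s m N : ℕ) (hN : s + 3 * r * m ≤ N) :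
    ent Q y + ent P (fun a => x a / 2 ^ N) - ent Q (fun w => y w / 2 ^ N) - Real.log 2 +
        γ / (3 * r) * ∑ i ∈ range m, (ent P (fun a => x a / 2 ^ (s + 3 * r * i + 2 * r)) -
          ent P (fun a => x a / 2 ^ (s + 3 * r * i + 2 * r + r))) -
        γ * ∑ i ∈ range m, edge P (fun a => x a / 2 ^ (s + 3 * r * i)) r -
        m * (γ * (1 / 2 : ℝ) ^ r +
          ((1 / 2 : ℝ) ^ r * (3 * r * Real.log 2) + 3 * √((1 / 2 : ℝ) ^ r)))
      ≤ ent (prodW P Q) (fun v => x v.1 + y v.2) := by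
  set PQ := prodW P Q
  have hPQ : 0 ≤ PQ := prodW_nonneg hP hQ
  have hPQ1 : ∑ v, PQ v = 1 := by rw [sum_prodW, hP1, hQ1, one_mul]
  set S : Ω × Ω' → ℤ := fun v => x v.1 + y v.2
  set b := s + 3 * r * m
  obtain ⟨j, rfl⟩ := Nat.exists_eq_add_of_le hN
  have hmid : cent PQ (fun v => x v.1 / 2 ^ s) S ≤ _ :=
    class_step hP hP1 hQ hQ1 x y r hr γ hγ hgain s m
  have hchain : ent Q y + ent P x = ent PQ S + cent PQ (fun v => x v.1) S := by
    rw [← ent_pair]
    have e : ent PQ (fun v => (x v.1, S v)) = ent PQ (fun v => (y v.2, x v.1)) :=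
      cent_congr_left hPQ fun v w _ => by simp [S]; constructor <;> intro h <;> constructor <;>
        linarith [h.1, h.2]
    rw [e, ent_pair]
    have e2 : ent PQ (fun v => x v.1) = ent P x := cent_prod_fst hQ1 P x (fun _ => ())
    have e3 : cent PQ (fun v => y v.2) (fun v => x v.1) = ent Q y :=
      cent_prod_snd_fst hP hP1 hQ hQ1 y x
    rw [e2, e3]; ring
  have hlow : cent PQ (fun v => x v.1) S ≤ cent PQ (fun v => x v.1 / 2 ^ s) S +
      (ent P x - ent P (fun a => x a / 2 ^ s)) := by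
    refine (cent_le_add' hPQ _ _ S).trans (add_le_add le_rfl (le_of_eq ?_))
    rw [cent_prod_fst hQ1 P x (fun a => x a / 2 ^ s)]
    have := cent_nested hP x 0 s
    simpa using this
  have hhigh : cent PQ (fun v => x v.1 / 2 ^ b) S ≤ cent PQ (fun v => x v.1 / 2 ^ (b + j)) S +
      (ent P (fun a => x a / 2 ^ b) - ent P (fun a => x a / 2 ^ (b + j))) := by
    refine (cent_le_add' hPQ _ (fun v => x v.1 / 2 ^ (b + j)) S).trans (add_le_add le_rfl ?_)
    rw [cent_prod_fst hQ1 P (fun a => x a / 2 ^ b) (fun a => x a / 2 ^ (b + j)),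
      cent_nested hP x b j]
  have hlast : cent PQ (fun v => x v.1 / 2 ^ (b + j)) S ≤
      ent Q (fun w => y w / 2 ^ (b + j)) + Real.log 2 := by
    set M : ℤ := 2 ^ (b + j)
    have hM : 0 < M := by positivity
    refine (cent_le_add hPQ _ (fun v => y v.2 / M) S).trans (add_le_add ?_ ?_)
    · refine (cent_le_ent hPQ _ _).trans (le_of_eq ?_)
      exact (cent_prod_snd_fst hP hP1 hQ hQ1 (fun w => y w / M) (fun _ => ()))
    · refine cent_two hPQ hPQ1 _ _ (fun v => S v / M - y v.2 / M - 1)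
        (fun v w h => by
          obtain ⟨h1, h2⟩ := Prod.mk.inj h
          rw [h1, h2]) fun v => ?_
      have := ediv_shift (x v.1) (y v.2) hM
      simp only [S]; omega
  linarith

theorem block_gain2 (α C : ℝ) (hα : α < 1) :
    ∃ c0 : ℝ, 0 < c0 ∧ ∃ C0 : ℝ, ∀ δ : ℝ, 0 < δ → δ ≤ 1 →
      ∃ l : ℕ, 0 < l ∧ (l : ℝ) ≤ C0 * (1 + Real.log (1 / δ)) ∧
      ∃ ε : ℝ, 0 < ε ∧ ε ≤ 1 ∧ c0 ≤ ε * (1 + Real.log (1 / δ)) ∧
      ∀ {Ω Ω' : Type} [Fintype Ω] [Fintype Ω'] (P : Ω → ℝ) (Q : Ω' → ℝ) (x : Ω → ℤ) (y : Ω' → ℤ),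
        0 ≤ P → ∑ a, P a = 1 → 0 ≤ Q → ∑ w, Q w = 1 →
        (∀ u L : ℕ, 0 < u → 0 < L → cent Q (fun w => y w / (u : ℤ))
          (fun w => y w / ((u * L : ℕ) : ℤ)) ≤ α * Real.log L + C) →
        ∀ n : ℕ,
          ent Q y + ent P (fun a => x a / 2 ^ (l * n)) - ent Q (fun w => y w / 2 ^ (l * n)) -
              C0 * (1 + Real.log (1 / δ)) +
              ε * (ent P x - ent P (fun a => x a / 2 ^ (l * n)) - δ * (Real.log 2 * (l * n : ℕ)))
            ≤ ent (prodW P Q) (fun v => x v.1 + y v.2) := by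
  obtain ⟨γ₀, hγ₀, hsg⟩ := shift_gain α (C + 4 * Real.log 2) hα
  set γ := min γ₀ 1 with hγdef
  have hγ : 0 < γ := lt_min hγ₀ one_pos
  have hγ1 : γ ≤ 1 := min_le_right _ _
  have hlog := Real.log_pos (by norm_num : (1 : ℝ) < 2)
  have hl21 : Real.log 2 ≤ 1 := by linarith [Real.log_two_lt_d9]
  set A := |Real.log (36 / (γ * Real.log 2))| + 1 with hA
  set C1 := 2 * ((A + 1) / Real.log 2 + 1) with hC1
  have hA1 : 1 ≤ A := by rw [hA]; linarith [abs_nonneg (Real.log (36 / (γ * Real.log 2)))]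
  have hC1pos : 0 < C1 := by positivity
  refine ⟨γ / (9 * C1), by positivity, 3 * C1 + 5, fun δ hδ hδ1 => ?_⟩
  set Λ := Real.log (1 / δ) with hΛ
  have hΛ0 : 0 ≤ Λ := Real.log_nonneg (by rw [le_div_iff₀ hδ]; linarith)
  set j := ⌈(A + Λ) / Real.log 2⌉₊ with hj
  have hj1 : 1 ≤ j := Nat.ceil_pos.2 (by positivity)
  have hjlow : (A + Λ) / Real.log 2 ≤ j := Nat.le_ceil _
  have hjup : (j : ℝ) ≤ (A + Λ) / Real.log 2 + 1 := (Nat.ceil_lt_add_one (by positivity)).le
  set r := 2 * j with hr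
  have hr1 : 1 ≤ r := by omega
  have hrpos : (0 : ℝ) < r := by exact_mod_cast hr1
  have hrC : (r : ℝ) ≤ C1 * (1 + Λ) := by
    have h1 : (A + Λ) / Real.log 2 ≤ (A + 1) * (1 + Λ) / Real.log 2 :=
      div_le_div_of_nonneg_right
        (by linarith [mul_nonneg (by linarith : (0 : ℝ) ≤ A) hΛ0]) hlog.le
    have h2 : (A + 1) * (1 + Λ) / Real.log 2 = (A + 1) / Real.log 2 * (1 + Λ) := by ring
    rw [hr, hC1]; push_cast
    linarith
  set l := 3 * r with hl
  set ε := γ / (9 * r) with hε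
  have hε0 : 0 < ε := by positivity
  have hr1' : (1 : ℝ) ≤ r := by exact_mod_cast hr1
  have hε1 : ε ≤ 1 := (div_le_one (by positivity)).2 (by linarith)
  have hh : (1 / 2 : ℝ) ^ j ≤ γ * δ * Real.log 2 / 36 := by
    have h1 : Real.log (36 / (γ * Real.log 2)) + Λ ≤ j * Real.log 2 := by
      rw [div_le_iff₀ hlog] at hjlow
      linarith [le_abs_self (Real.log (36 / (γ * Real.log 2)))]
    have h2 : Real.log (1 / (γ * δ * Real.log 2 / 36)) ≤ Real.log (2 ^ j) := by
      rw [Real.log_pow]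
      refine le_trans (le_of_eq ?_) h1
      rw [hΛ, ← Real.log_mul (by positivity) (by positivity)]
      congr 1
      field_simp
    have h3 := (Real.log_le_log_iff (by positivity) (by positivity)).1 h2
    rw [div_pow, one_pow, div_le_iff₀ (by positivity)]
    rw [div_le_iff₀ (by positivity)] at h3
    linarith
  have hsmall : γ * (2 * (1 / 2 : ℝ) ^ r) + (γ * (1 / 2 : ℝ) ^ r +
      ((1 / 2 : ℝ) ^ r * (3 * r * Real.log 2) + 3 * √((1 / 2 : ℝ) ^ r))) ≤
      γ * δ * Real.log 2 / 3 := by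
    set h := (1 / 2 : ℝ) ^ j with hhdef
    have h0 : 0 ≤ h := by positivity
    have hh1 : h ≤ 1 := pow_le_one₀ (by norm_num) (by norm_num)
    have e : (1 / 2 : ℝ) ^ r = h * h := by rw [hr, two_mul, pow_add]
    have hjh : (j : ℝ) * h ≤ 1 := by
      rw [hhdef, div_pow, one_pow, mul_one_div, div_le_one (by positivity)]
      exact_mod_cast (Nat.lt_two_pow_self (n := j)).le
    rw [e, Real.sqrt_mul_self h0, hr]
    push_cast
    have e1 : h * h * (3 * (2 * j) * Real.log 2) ≤ 6 * h := by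
      calc h * h * (3 * (2 * j) * Real.log 2) = 6 * h * ((j * h) * Real.log 2) := by ring
        _ ≤ 6 * h * 1 := mul_le_mul_of_nonneg_left (mul_le_one₀ hjh hlog.le hl21) (by positivity)
        _ = 6 * h := mul_one _
    have e2 : γ * (h * h) ≤ h := by
      calc γ * (h * h) ≤ 1 * (1 * h) :=
            mul_le_mul hγ1 (mul_le_mul_of_nonneg_right hh1 h0) (by positivity) zero_le_one
        _ = h := by ring
    linarith
  refine ⟨l, by omega, ?_, ε, hε0, hε1, ?_, ?_⟩
  · rw [hl]; push_cast; linarith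
  · rw [hε, div_mul_eq_mul_div, div_le_div_iff₀ (by positivity) (by positivity)]
    calc γ * (9 * (r : ℝ)) ≤ γ * (9 * (C1 * (1 + Λ))) := by gcongr
      _ = _ := by ring
  intro Ω Ω' _ _ P Q x y hP hP1 hQ hQ1 hw n
  have hgain : ∀ t : ℤ, ∀ u d : ℕ, 0 < u → u * 2 ^ r ≤ d →
      ent (prodW Q (unif (Fin (u * 2 ^ r)))) (fun v => (y v.1 + t) + (v.2 : ℕ)) + γ ≤
        ent (prodW (prodW Q (unif (Fin (u * 2 ^ r)))) (unif Bool))
          (fun v => ((y v.1.1 + t) + (v.1.2 : ℕ)) + if v.2 then (d : ℤ) else 0) := by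
    intro t u d hu hd
    have hW : 0 < u * 2 ^ r := by positivity
    have : Nonempty (Fin (u * 2 ^ r)) := ⟨⟨0, hW⟩⟩
    have h1 : ∑ v, prodW Q (unif (Fin (u * 2 ^ r))) v = 1 := by
      rw [sum_prodW, hQ1, sum_unif, one_mul]
    refine le_trans (add_le_add le_rfl (min_le_left γ₀ 1)) ?_
    exact hsg (Ω := Ω' × Fin (u * 2 ^ r)) (prodW Q (unif (Fin (u * 2 ^ r))))
      (fun v => (y v.1 + t) + (v.2 : ℕ)) d (prodW_nonneg hQ unif_nonneg) h1
      (lt_of_lt_of_le hW hd)
      fun L hL => (window_smooth hQ hQ1 (fun w => y w + t) α (C + 2 * Real.log 2)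
        (fun u L hu hL => window_shift hQ hQ1 y α C hw t u L hu hL) _ d hW hd L hL).trans
          (le_of_eq (by ring))
  have hΛ1 : 5 * Real.log 2 ≤ (3 * C1 + 5) * (1 + Λ) := by
    linarith [mul_nonneg (by linarith : (0 : ℝ) ≤ 3 * C1 + 5) hΛ0]
  rcases Nat.eq_zero_or_pos n with rfl | hn
  · have h := class_total hP hP1 hQ hQ1 x y r hr1 γ hγ
      (fun u d hu hd => by simpa using hgain 0 u d hu hd) 0 0 0 (by simp)
    simp only [sum_range_zero, Nat.cast_zero, zero_mul, mul_zero, sub_zero, add_zero] at h ⊢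
    simp only [pow_zero, Int.ediv_one] at h ⊢
    linarith
  obtain ⟨m, rfl⟩ : ∃ m, n = m + 1 := ⟨n - 1, by omega⟩
  set N := l * (m + 1) with hN
  set cost : ℕ → ℝ := fun t => ∑ k ∈ range 3, ∑ i ∈ range m,
    edge P (fun a => (x a + (t : ℤ)) / 2 ^ (k * r + 3 * r * i)) r with hcost
  obtain ⟨t, -, ht⟩ : ∃ t ∈ range (2 ^ N), cost t ≤ 3 * m * (2 * (1 / 2 : ℝ) ^ r) := by
    refine exists_le_of_sum_le ⟨0, mem_range.2 (by positivity)⟩ ?_
    rw [sum_const, card_range, nsmul_eq_mul]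
    simp only [hcost]
    rw [sum_comm]
    refine (sum_le_sum (g := fun _ => (m : ℝ) * (2 * (1 / 2 : ℝ) ^ r * 2 ^ N)) fun k hk => ?_).trans
      (le_of_eq ?_)
    · rw [sum_comm]
      refine (sum_le_sum (g := fun _ => 2 * (1 / 2 : ℝ) ^ r * 2 ^ N) fun i hi => ?_).trans
        (le_of_eq (by rw [sum_const, card_range, nsmul_eq_mul]))
      refine edge_avg hP hP1 x _ r N ?_
      rw [mem_range] at hk hi
      rw [hN, hl]
      calc k * r + 3 * r * i + 2 * r ≤ 2 * r + 3 * r * i + 2 * r := by gcongr; omega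
        _ ≤ 3 * r + 3 * r * (i + 1) := by rw [mul_add, mul_one]; omega
        _ ≤ 3 * r + 3 * r * m := by gcongr; omega
        _ = 3 * r * (m + 1) := by ring
    · rw [sum_const, card_range, nsmul_eq_mul]; push_cast; ring
  set x' : Ω → ℤ := fun a => x a + (t : ℤ) with hx'
  set y' : Ω' → ℤ := fun w => y w + -(t : ℤ) with hy'
  have hPQ : 0 ≤ prodW P Q := prodW_nonneg hP hQ
  have es : ent (prodW P Q) (fun v => x' v.1 + y' v.2) =
      ent (prodW P Q) (fun v => x v.1 + y v.2) := by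
    congr 1; funext v; simp only [hx', hy']; ring
  have ex : ent P x' = ent P x := cent_congr_left hP fun v w _ => by simp [hx']
  have ey : ent Q y' = ent Q y := cent_congr_left hQ fun v w _ => by simp [hy']
  have ey2 := ent_shift_le hQ hQ1 y (-(t : ℤ)) (by positivity : (0 : ℤ) < 2 ^ N)
  have ex2 := ent_shift_ge hP hP1 x (t : ℤ) (by positivity : (0 : ℤ) < 2 ^ N)
  have ex3 := ent_shift_le hP hP1 x (t : ℤ) (by positivity : (0 : ℤ) < 2 ^ N)
  set f : ℕ → ℝ := fun q => ent P (fun a => x' a / 2 ^ (r * q + 2 * r)) with hf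
  have hclass : ∀ k ∈ range 3,
      ent Q y' + ent P (fun a => x' a / 2 ^ N) - ent Q (fun w => y' w / 2 ^ N) - Real.log 2 +
        γ / (3 * r) * ∑ i ∈ range m, (f (3 * i + k) - f (3 * i + k + 1)) -
        γ * ∑ i ∈ range m, edge P (fun a => x' a / 2 ^ (k * r + 3 * r * i)) r -
        m * (γ * (1 / 2 : ℝ) ^ r +
          ((1 / 2 : ℝ) ^ r * (3 * r * Real.log 2) + 3 * √((1 / 2 : ℝ) ^ r)))
      ≤ ent (prodW P Q) (fun v => x v.1 + y v.2) := by
    intro k hk
    rw [mem_range] at hk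
    have h := class_total hP hP1 hQ hQ1 x' y' r hr1 γ hγ (hgain (-(t : ℤ))) (k * r) m N (by
      rw [hN, hl, mul_add, mul_one, add_comm]
      gcongr)
    rw [es] at h
    refine le_trans (le_of_eq ?_) h
    congr 4
    refine sum_congr rfl fun i _ => ?_
    simp only [hf]
    congr 4 <;> ring_nf
  have h3 := sum_le_sum hclass
  simp only [sum_add_distrib, sum_sub_distrib, sum_const, card_range, ← mul_sum] at h3
  have htel : ∀ q, ∑ k ∈ range 3, ∑ i ∈ range q, (f (3 * i + k) - f (3 * i + k + 1)) =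
      f 0 - f (3 * q) := by
    intro q
    induction q with
    | zero => simp
    | succ q ih =>
      simp only [sum_range_succ, sum_add_distrib] at ih ⊢
      have e1 : 3 * (q + 1) = 3 * q + 2 + 1 := by ring
      rw [e1]
      simp only [sum_range_zero, add_zero, zero_add] at ih ⊢
      linarith
  have hD := htel m
  simp only [sum_sub_distrib] at hD
  have hf0 : ent P x' ≤ f 0 + (2 * r : ℕ) * Real.log 2 := by
    have := ent_refine_le hP hP1 x' (2 * r)
    simpa [hf] using this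
  have hfm : f (3 * m) ≤ ent P (fun a => x' a / 2 ^ N) + r * Real.log 2 := by
    have := ent_refine_le hP hP1 (fun a => x' a / 2 ^ (r * (3 * m) + 2 * r)) r
    simp only [ediv_pow_two] at this
    rw [show r * (3 * m) + 2 * r + r = N by rw [hN, hl]; ring] at this
    exact this
  have g1 : ε * (ent P x - ent P (fun a => x a / 2 ^ N) - (3 * r + 1) * Real.log 2) ≤
      ε * (f 0 - f (3 * m)) := by
    refine mul_le_mul_of_nonneg_left ?_ hε0.le
    push_cast at hf0
    linarith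
  have g2 : ε * ((3 * r + 1) * Real.log 2) ≤ 2 * Real.log 2 := by
    rw [← mul_assoc]
    refine mul_le_mul_of_nonneg_right ?_ hlog.le
    calc ε * (3 * r + 1) = γ / 3 + ε := by rw [hε]; field_simp; ring
      _ ≤ 2 := by linarith
  have g4 : ε * (δ * (Real.log 2 * (N : ℕ))) = (m + 1) * (γ * δ * Real.log 2 / 3) := by
    rw [hε, hN, hl]; push_cast; field_simp; ring
  have g5 : γ / (3 * r) * (f 0 - f (3 * m)) = 3 * (ε * (f 0 - f (3 * m))) := by
    rw [hε]; field_simp; ring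
  have g6 : γ * cost t ≤ γ * (3 * m * (2 * (1 / 2 : ℝ) ^ r)) := mul_le_mul_of_nonneg_left ht hγ.le
  have g7 := mul_le_mul_of_nonneg_left hsmall (Nat.cast_nonneg (α := ℝ) m)
  have g8 : (0 : ℝ) ≤ γ * δ * Real.log 2 / 3 := by positivity
  simp only [hcost] at g6
  simp only [hx', hy'] at h3 hD hf0 hfm g6 ex ey ex2 ey2 ex3 ⊢
  simp only [nsmul_eq_mul, Nat.cast_ofNat] at h3
  rw [hD, g5] at h3
  linarith

end

end Vale.Agent.P114.Trans
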