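import Vale.Agent.P114.Trans.Claim
import Vale.Agent.P114.Trans.Gain2
import Mathlib.Analysis.PSeries

/-! # P114, transcendental slopes: the entropy formula -/

namespace Vale.Agent.P114.Trans

noncomputable section

open scoped Classical Polynomial Matrix
open Finset Filter

variable {ι : Type} [Fintype ι] {p r' t' : ι → ℝ} {a q T : ℝ}

/-- A linear lower bound of slope `α` for the entropy at scales at least one. -/
def Minorant (p r t : ι → ℝ) (q α β : ℝ) : Prop :=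
  ∀ σ : ℝ, 1 ≤ σ → α * Real.log σ - β ≤ js p r t q σ

theorem dev_sqrt (G : Good p r' t' a q T) : ∃ C, ∀ n : ℕ, 1 ≤ n →
    ∑ w : Fin n → ι, wt p w * |Real.log |slope r' w| + n * lyap p r'| ≤ C * √(n : ℝ) := by
  set χ := lyap p r'
  set f : ι → ℝ := fun i => Real.log |r' i| + χ
  have hf : ∑ i, p i * f i = 0 := by
    simp only [f, χ, mul_add, sum_add_distrib, ← sum_mul, G.sum_one, one_mul]
    rw [lyap, ← sum_add_distrib]
    exact sum_eq_zero fun i _ => by ring
  refine ⟨(∑ i, p i * f i ^ 2 + 1) / 2, fun n hn => ?_⟩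
  have hlog : ∀ w : Fin n → ι, Real.log |slope r' w| + n * χ = ∑ i, f (w i) := fun w => by
    rw [slope, abs_prod, Real.log_prod fun i _ =>
      (lt_of_lt_of_le G.a_pos (G.a_le (w i))).ne']
    simp [f, sum_add_distrib]
  have hs : 0 < √(n : ℝ) := Real.sqrt_pos.2 (by exact_mod_cast hn)
  have hss : √(n : ℝ) * √(n : ℝ) = n := Real.mul_self_sqrt (Nat.cast_nonneg n)
  refine (sum_le_sum (g := fun w : Fin n → ι =>
    wt p w * ((∑ i, f (w i)) ^ 2 / (2 * √(n : ℝ)) + √(n : ℝ) / 2)) fun w _ => ?_).trans (le_of_eq ?_)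
  · rw [hlog]
    refine mul_le_mul_of_nonneg_left ?_ (G.wt_nn w)
    rw [← sq_abs (∑ i, f (w i))]
    set x := |∑ i, f (w i)|
    rw [← sub_nonneg]
    have e : x ^ 2 / (2 * √(n : ℝ)) + √(n : ℝ) / 2 - x = (x - √(n : ℝ)) ^ 2 / (2 * √(n : ℝ)) := by
      field_simp; ring
    rw [e]; positivity
  · simp only [mul_add, sum_add_distrib, ← mul_div_assoc, ← sum_div, ← sum_mul, sum_wt G.sum_one,
      one_mul, (sum_wt_centred G.sum_one hf n).2]
    field_simp
    rw [sq, hss]; ring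

theorem slope_le_dim {D Cw α β : ℝ} (hW : Win p r' t' q D Cw)
    (h : Minorant p r' t' q α β) : α ≤ D := by
  by_contra hlt
  push Not at hlt
  set X := (β + js p r' t' q 1 + Cw) / (α - D)
  set σ := Real.exp (max X 0 + 1)
  have hσ : 1 ≤ σ := Real.one_le_exp (by linarith [le_max_right X 0])
  have h1 := h σ hσ
  have h2 := hW 1 σ one_ne_zero hσ
  rw [mul_one] at h2
  rw [Real.log_exp] at h1 h2
  have h3 : X < max X 0 + 1 := by linarith [le_max_left X 0]
  rw [div_lt_iff₀ (by linarith)] at h3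
  linarith

theorem minor_step (G : Good p r' t' a q T) {n : ℕ} (hn : 1 ≤ n) {σ0 : ℝ}
    (hlarge : ∀ w : Fin n → ι, 1 ≤ σ0 * |slope r' w|) {α : ℝ} (hα : 0 ≤ α)
    (h : ∀ σ, σ0 ≤ σ → α * (n * lyap p r') +
      ∑ w : Fin n → ι, wt p w * js p r' t' q (σ * |slope r' w|) ≤ js p r' t' q σ) :
    Minorant p r' t' q α (α * Real.log σ0) := by
  obtain ⟨i0⟩ := G.nonempty
  have hσ0 : 1 ≤ σ0 := by
    have h1 := hlarge fun _ => i0
    have h2 := G.slope_le_one (fun _ : Fin n => i0)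
    rcases le_or_gt σ0 0 with h0 | h0
    · nlinarith [abs_nonneg (slope r' (fun _ : Fin n => i0))]
    · nlinarith
  have key : ∀ l : ℕ, ∀ σ : ℝ, 1 ≤ σ → σ * q ^ l ≤ σ0 →
      α * Real.log σ - α * Real.log σ0 ≤ js p r' t' q σ := by
    have base : ∀ σ : ℝ, 1 ≤ σ → σ ≤ σ0 → α * Real.log σ - α * Real.log σ0 ≤ js p r' t' q σ := by
      intro σ h1 h2
      have := mul_le_mul_of_nonneg_left (Real.log_le_log (by linarith) h2) hα
      linarith [G.js_nonneg σ]
    intro l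
    induction l with
    | zero => intro σ h1 h2; exact base σ h1 (by simpa using h2)
    | succ l ih =>
      intro σ h1 h2
      rcases le_or_gt σ σ0 with hle | hgt
      · exact base σ h1 hle
      refine le_trans ?_ (h σ hgt.le)
      have hw : ∀ w : Fin n → ι, α * Real.log σ - α * -Real.log |slope r' w| - α * Real.log σ0 ≤
          js p r' t' q (σ * |slope r' w|) := by
        intro w
        have hs := G.slope_pos w
        have h3 : 1 ≤ σ * |slope r' w| :=
          (hlarge w).trans (mul_le_mul_of_nonneg_right hgt.le hs.le)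
        refine le_trans (le_of_eq ?_) (ih _ h3 (le_trans ?_ h2))
        · rw [Real.log_mul (by linarith) hs.ne']; ring
        · rw [mul_assoc, pow_succ']
          refine mul_le_mul_of_nonneg_left (mul_le_mul_of_nonneg_right ?_
            (pow_nonneg G.q_pos.le _)) (by linarith)
          exact (G.slope_le w).trans (pow_le_of_le_one G.q_pos.le G.q_lt.le (by omega))
      have h4 := sum_le_sum fun w (_ : w ∈ univ) => mul_le_mul_of_nonneg_left (hw w) (G.wt_nn w)
      have e7 := sum_wt_log G n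
      simp only [mul_sub, sum_sub_distrib, ← sum_mul, sum_wt G.sum_one, one_mul] at h4
      have e8 : ∑ w : Fin n → ι, wt p w * (α * -Real.log |slope r' w|) = α * (n * lyap p r') := by
        rw [← e7, mul_sum]; exact sum_congr rfl fun w _ => by ring
      rw [e8] at h4
      linarith
  intro σ hσ
  obtain ⟨l, hl⟩ : ∃ l : ℕ, σ * q ^ l ≤ σ0 := by
    have h := (tendsto_pow_atTop_nhds_zero_of_lt_one G.q_pos.le G.q_lt).const_mul σ
    rw [mul_zero] at h
    exact (h.eventually_le_const (by linarith)).exists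
  exact key l σ hσ hl

/-- The level of step `M`. -/
def nM (M : ℕ) : ℕ := 2 ^ (M ^ 2)

theorem nM_facts {M : ℕ} (hM : 4 ≤ M) :
    1 ≤ nM M ∧ M ≤ nM M ∧
    √(nM M : ℝ) ≤ (2 : ℝ) ^ ((M - 1) ^ 2) ∧ Real.log ((nM M : ℝ) + 2) ≤ 3 * (M : ℝ) ^ 2 ∧
    W (nM (M - 1)) ≤ 6 * (M : ℝ) ^ 2 * (2 : ℝ) ^ ((M - 1) ^ 2) := by
  have h1 : 1 ≤ nM M := Nat.one_le_two_pow
  have h2 : M ≤ nM M := (Nat.le_self_pow two_ne_zero M).trans Nat.lt_two_pow_self.le
  have h3 : Real.log ((nM M : ℝ) + 2) ≤ 3 * (M : ℝ) ^ 2 := by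
    have h := Real.log_le_log (by positivity) (show (nM M : ℝ) + 2 ≤ (2 : ℝ) ^ (M ^ 2 + 2) by
      have : (1 : ℝ) ≤ nM M := by exact_mod_cast h1
      rw [pow_add]; simp only [nM] at this ⊢; push_cast at this ⊢; linarith)
    rw [Real.log_pow] at h
    push_cast at h
    have hl : Real.log 2 ≤ 1 := by
      have := Real.log_le_sub_one_of_pos (two_pos (α := ℝ)); linarith
    have hM' : (4 : ℝ) ≤ M := by exact_mod_cast hM
    nlinarith
  refine ⟨h1, h2, ?_, h3, ?_⟩
  · rw [Real.sqrt_le_iff]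
    refine ⟨by positivity, ?_⟩
    rw [nM, ← pow_mul]
    push_cast
    refine pow_le_pow_right₀ (by norm_num) ?_
    obtain ⟨N, rfl⟩ : ∃ N, M = N + 4 := ⟨M - 4, by omega⟩
    simp only [show N + 4 - 1 = N + 3 by omega]
    nlinarith
  · have hmono : nM (M - 1) ≤ nM M :=
      Nat.pow_le_pow_right two_pos (Nat.pow_le_pow_left (by omega) 2)
    have hmono' : (nM (M - 1) : ℝ) ≤ nM M := by exact_mod_cast hmono
    have hP : (1 : ℝ) ≤ nM (M - 1) := by exact_mod_cast Nat.one_le_two_pow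
    have hL : Real.log ((nM (M - 1) : ℝ) + 2) ≤ 3 * (M : ℝ) ^ 2 :=
      (Real.log_le_log (by positivity) (by linarith)).trans h3
    have hP' : (nM (M - 1) : ℝ) = (2 : ℝ) ^ ((M - 1) ^ 2) := by simp [nM]
    rw [W, ← hP']
    calc ((nM (M - 1) : ℝ) + 1) * Real.log ((nM (M - 1) : ℝ) + 2)
        ≤ (2 * (nM (M - 1) : ℝ)) * (3 * (M : ℝ) ^ 2) :=
          mul_le_mul (by linarith) hL (Real.log_nonneg (by linarith)) (by positivity)
      _ = _ := by ring

theorem eventually_room (C : ℝ) {c : ℝ} (hc : 0 < c) :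
    ∃ I : ℕ, 4 ≤ I ∧ ∀ M, I ≤ M → C * (M : ℝ) ^ 2 * (2 : ℝ) ^ ((M - 1) ^ 2) ≤ c / M * nM M := by
  have h1 : Tendsto (fun M : ℕ => 2 * C * ((M : ℝ) ^ 3 / (4 : ℝ) ^ M)) atTop (nhds 0) := by
    simpa using (tendsto_pow_const_div_const_pow_of_one_lt 3 (by norm_num : (1 : ℝ) < 4)).const_mul
      (2 * C)
  obtain ⟨I, hI⟩ := eventually_atTop.1 (h1.eventually_le_const hc)
  refine ⟨max I 4, le_max_right _ _, fun M hM => ?_⟩
  have h := hI M ((le_max_left _ _).trans hM)
  obtain ⟨N, rfl⟩ : ∃ N, M = N + 1 := ⟨M - 1, by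
    have : 4 ≤ M := (le_max_right _ _).trans hM
    omega⟩
  rw [mul_div, div_le_iff₀ (by positivity)] at h
  have e : (nM (N + 1) : ℝ) * 2 = (4 : ℝ) ^ (N + 1) * (2 : ℝ) ^ (N ^ 2) := by
    rw [nM, show (4 : ℝ) = 2 ^ 2 by norm_num, ← pow_mul]
    push_cast
    rw [← pow_succ, ← pow_add]
    ring_nf
  simp only [Nat.add_sub_cancel]
  rw [div_mul_eq_mul_div, le_div_iff₀ (by positivity)]
  refine le_of_mul_le_mul_right ?_ (two_pos (α := ℝ))
  rw [mul_assoc c, e]
  have := mul_le_mul_of_nonneg_right h (by positivity : (0 : ℝ) ≤ (2 : ℝ) ^ (N ^ 2))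
  linarith

variable {k : ℕ} {K : Type} [Field K] {emb : K →+* ℝ} {r : ι → K} {c : ι → Fin k → K}
  {σ : ι → Bool} {e : ι → ℕ} {cP : ι → Fin k → Polynomial ℤ} {jm : Polynomial ℤ →+* K} {J : ℝ}
  {τ : Fin k → ℝ}

theorem log_succ_le (n : ℕ) : Real.log ((n : ℝ) + 1) ≤ 2 * √(n : ℝ) := by
  have hn : (0 : ℝ) ≤ n := Nat.cast_nonneg n
  have a1 := Real.log_le_sub_one_of_pos (Real.sqrt_pos.2 (show (0 : ℝ) < (n : ℝ) + 1 by linarith))
  rw [Real.log_sqrt (by linarith)] at a1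
  have a2 : √((n : ℝ) + 1) ≤ √(n : ℝ) + 1 := by
    rw [Real.sqrt_le_iff]
    exact ⟨by positivity, by nlinarith [Real.sq_sqrt hn, Real.sqrt_nonneg (n : ℝ)]⟩
  linarith

theorem coarse_step (G : Good p r' t' a q T) {Cd α β : ℝ} (hmin : Minorant p r' t' q α β) {n : ℕ}
    (hdev : ∑ w : Fin n → ι, wt p w * |Real.log |slope r' w| + n * lyap p r'| ≤ Cd * √(n : ℝ)) :
    α * (n * lyap p r') - β - ((2 * Fintype.card ι + Cd) * √(n : ℝ) +
        (Good.c0 q T + Real.log (2 * (1 + radius q T) + 3))) ≤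
      cent (wt (n := n) p) (fun w => ⌊trans r' t' w / |slope r' w|⌋) (fun w => slope r' w) := by
  have hχ : 0 ≤ lyap p r' := sum_nonneg fun i _ => mul_nonneg (G.pos i).le (neg_nonneg.2
    (Real.log_nonpos (abs_nonneg _) ((G.le_q i).trans G.q_lt.le)))
  have h1 := hmin (Real.exp (n * lyap p r')) (Real.one_le_exp (by positivity))
  have h2 := js_le_var G n (fun w => ⌊trans r' t' w / |slope r' w|⌋) (fun v w h hs => by
    have hh := Int.abs_sub_lt_one_of_floor_eq_floor h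
    rw [← hs, ← sub_div, abs_div, abs_abs, div_lt_one (G.slope_pos v)] at hh
    exact hh.le) (Real.exp (n * lyap p r')) (Real.exp_pos _)
  simp only [Real.log_exp] at h1 h2
  have h5 := ent_slope_le (fun i => (G.pos i).le) G.sum_one r' n
  have h6 := mul_le_mul_of_nonneg_left (log_succ_le n) (Nat.cast_nonneg (α := ℝ) (Fintype.card ι))
  linarith

/-- The logarithm of the inverse density threshold at step `M`. -/
theorem delta_facts {cδ : ℝ} (hc : 0 < cδ) (hc2 : cδ ≤ Real.log 2) {M : ℕ} (hM : 4 ≤ M) :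
    0 < cδ / Real.log ((nM M : ℝ) + 2) ∧ cδ / Real.log ((nM M : ℝ) + 2) ≤ 1 ∧
      1 + Real.log (1 / (cδ / Real.log ((nM M : ℝ) + 2))) ≤ (5 + |Real.log (1 / cδ)|) * M := by
  obtain ⟨hn1, -, -, hlog, -⟩ := nM_facts hM
  have hn1' : (1 : ℝ) ≤ nM M := by exact_mod_cast hn1
  set Ln := Real.log ((nM M : ℝ) + 2)
  have hLn2 : Real.log 2 ≤ Ln := Real.log_le_log (by norm_num) (by linarith)
  have hLn0 : 0 < Ln := lt_of_lt_of_le (by linarith) hLn2
  refine ⟨div_pos hc hLn0, (div_le_one hLn0).2 (hc2.trans hLn2), ?_⟩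
  have hM1 : (4 : ℝ) ≤ M := by exact_mod_cast hM
  rw [one_div_div, Real.log_div hLn0.ne' hc.ne']
  have a1 : Real.log Ln ≤ Real.log 3 + 2 * (M : ℝ) := by
    refine (Real.log_le_log hLn0 hlog).trans ?_
    rw [Real.log_mul (by norm_num) (by positivity), Real.log_pow]
    have := Real.log_le_sub_one_of_pos (show (0 : ℝ) < M by linarith)
    push_cast
    linarith
  have a2 : Real.log 3 ≤ 2 := by
    have := Real.log_le_sub_one_of_pos (show (0 : ℝ) < 3 by norm_num); linarith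
  have a3 : -Real.log cδ ≤ |Real.log (1 / cδ)| := by
    rw [one_div cδ, Real.log_inv]; exact le_abs_self _
  have a4 := abs_nonneg (Real.log (1 / cδ))
  nlinarith

theorem scale_large (G : Good p (fun i => emb (r i)) (fun i => dotp emb (c i) τ) a q T)
    (hJ : 0 ≤ J) (ha1 : a ≤ 1) {n : ℕ} (w : Fin n → ι) :
    1 ≤ Real.exp (qsmall emb r c a q J * W n) * |slope (fun i => emb (r i)) w| := by
  refine le_trans ?_ (mul_le_mul_of_nonneg_left (slope_ge G w) (Real.exp_nonneg _))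
  rw [← Real.log_nonneg_iff (mul_pos (Real.exp_pos _) (pow_pos G.a_pos _)),
    Real.log_mul (Real.exp_pos _).ne' (pow_pos G.a_pos _).ne', Real.log_exp, Real.log_pow]
  have hB := coordB_nonneg G
  have hl2 := Real.log_pos (by norm_num : (1 : ℝ) < 2)
  have hQ := (qsmall_spec G ha1 hJ).1
  set Q := qsmall emb r c a q J with hQdef
  have hQ2 : -Real.log a ≤ Q * Real.log 2 := by
    have hz : 0 ≤ Real.log ((4 * ((k : ℝ) * coordB emb r c q) + 4) *
        (cramer emb r c q ^ 2 + 1)) :=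
      Real.log_nonneg (one_le_mul_of_one_le_of_one_le
        (by nlinarith [Nat.cast_nonneg (α := ℝ) k])
        (by nlinarith [sq_nonneg (cramer emb r c q)]))
    have hJ0 := mul_nonneg hJ hl2.le
    rw [hQdef, qsmall, add_mul, div_mul_cancel₀ _ hl2.ne']
    linarith
  have a1 := mul_le_mul_of_nonneg_left (W_ge n) (show 0 ≤ Q by linarith)
  have a2 := mul_le_mul_of_nonneg_left hQ2 (Nat.cast_nonneg (α := ℝ) n)
  have := mul_nonneg (show 0 ≤ Q by linarith) hl2.le
  linarith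

theorem fine_step (G : Good p (fun i => emb (r i)) (fun i => dotp emb (c i) τ) a q T) {n : ℕ}
    {Q E : ℝ} (hh : E ≤ hrate p r c (Small2 emb r c τ Q n)) :
    n * E - 2 * Fintype.card ι * √(n : ℝ) ≤
      cent (wt (n := n) p)
        (fun w => ⌊Real.exp (Q * W n) * trans (fun i => emb (r i)) (fun i => dotp emb (c i) τ) w⌋)
        (fun w => slope (fun i => emb (r i)) w) := by
  have hpn : ∀ i, 0 ≤ p i := fun i => (G.pos i).le
  have h1 := floor_lower (emb := emb) (g := τ) hpn (Small2 emb r c τ Q n) n (Real.exp (Q * W n))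
    (fun v w hs hlt => by
      refine Submodule.subset_span ⟨⟨v, w, hs, rfl⟩, ?_⟩
      rw [abs_mul, abs_of_pos (Real.exp_pos _), ← lt_div_iff₀' (Real.exp_pos _), one_div,
        ← Real.exp_neg] at hlt
      exact hlt.le)
  have h2 := mul_hrate_le (r := r) (c := c) hpn (Small2 emb r c τ Q n) n
  have h3 := ent_slope_le hpn G.sum_one r n
  have h4 := mul_le_mul_of_nonneg_left (log_succ_le n) (Nat.cast_nonneg (α := ℝ) (Fintype.card ι))
  have h5 := mul_le_mul_of_nonneg_left hh (Nat.cast_nonneg (α := ℝ) n)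
  linarith

/-- The arithmetic of one step of the chain. -/
theorem step_arith {A F X α β D χ ε ε' n R E1 E2 Z dl : ℝ} (hε0 : 0 ≤ ε') (hε1 : ε' ≤ 1)
    (hn : 0 ≤ n) (hχ : 0 ≤ χ) (hα : α ≤ D) (hβ : 0 ≤ β) (hE1 : 0 ≤ E1) (hE2 : 0 ≤ E2)
    (hA : α * (n * χ) - β - E1 ≤ A) (hF : n * (D * χ + ε) - E2 ≤ F)
    (hd : dl ≤ ε' * ε * n / 4) (hZ : β + E1 + E2 + Z ≤ ε' * ε * n / 4)
    (hR : R * (n * χ) ≤ ε' * ε * n / 2) (hX : (1 - ε') * A + ε' * F - dl - Z ≤ X) :
    (α + R) * (n * χ) ≤ X := by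
  have g1 := mul_le_mul_of_nonneg_left hA (sub_nonneg.2 hε1)
  have g2 := mul_le_mul_of_nonneg_left hF hε0
  have g3 : ε' * (α * (n * χ)) ≤ ε' * (n * (D * χ)) :=
    mul_le_mul_of_nonneg_left (by
      have := mul_le_mul_of_nonneg_right hα (show 0 ≤ n * χ by positivity)
      linarith) hε0
  have g4 : (1 - ε') * β ≤ β := mul_le_of_le_one_left hβ (by linarith)
  have g5 : (1 - ε') * E1 ≤ E1 := mul_le_of_le_one_left hE1 (by linarith)
  have g6 : ε' * E2 ≤ E2 := mul_le_of_le_one_left hE2 hε1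
  linarith

/-- The error of the step `M` fits into a quarter of the gain. -/
theorem step_err {Q C0 Cd C3 C5 c0 ε ε' β card : ℝ} {M : ℕ} (hM : 4 ≤ M) (hQ : 0 ≤ Q)
    (hC5 : 0 < C5) (hε : 0 ≤ ε) (hcard : 0 ≤ card) (hε' : c0 / (C5 * M) ≤ ε') {l : ℝ} (hl : 0 ≤ l)
    (hlM : l ≤ C5 * M) (hβ : β ≤ Q * W (nM (M - 1)))
    (hroom : (6 * Q + |C0| * C5 + |Cd| + 4 * card + |C3|) * (M : ℝ) ^ 2 *
      (2 : ℝ) ^ ((M - 1) ^ 2) ≤ c0 * ε / (4 * C5) / M * nM M) :
    β + ((2 * card + |Cd|) * √(nM M : ℝ) + |C3|) + 2 * card * √(nM M : ℝ) + C0 * l ≤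
      ε' * ε * nM M / 4 := by
  obtain ⟨-, -, hsq, -, hWprev⟩ := nM_facts hM
  set P2 := (2 : ℝ) ^ ((M - 1) ^ 2)
  have hP21 : (1 : ℝ) ≤ P2 := one_le_pow₀ (by norm_num)
  have hM1 : (4 : ℝ) ≤ M := by exact_mod_cast hM
  have hM2 : (1 : ℝ) ≤ (M : ℝ) ^ 2 := one_le_pow₀ (by linarith)
  set V := (M : ℝ) ^ 2 * P2
  have hV1 : P2 ≤ V := le_mul_of_one_le_left (by positivity) hM2
  have hV2 : (M : ℝ) ≤ V :=
    le_trans (by nlinarith : (M : ℝ) ≤ (M : ℝ) ^ 2 * 1) (mul_le_mul_of_nonneg_left hP21 (by positivity))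
  have a1 : β ≤ 6 * Q * V := by
    refine hβ.trans (le_trans (mul_le_mul_of_nonneg_left hWprev hQ) (le_of_eq ?_))
    ring
  have a2 : C0 * l ≤ |C0| * C5 * V := by
    refine (mul_le_mul (le_abs_self C0) hlM hl (abs_nonneg _)).trans ?_
    rw [← mul_assoc]
    exact mul_le_mul_of_nonneg_left hV2 (by positivity)
  have a3 := mul_le_mul_of_nonneg_left (hsq.trans hV1) (show 0 ≤ 4 * card + |Cd| by positivity)
  have a4 : |C3| ≤ |C3| * V := le_mul_of_one_le_right (abs_nonneg _) (hP21.trans hV1)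
  have a5 : c0 * ε / (4 * C5) / M * nM M ≤ ε' * ε * nM M / 4 := by
    have := mul_le_mul_of_nonneg_right hε' (show 0 ≤ ε * (nM M : ℝ) / 4 by positivity)
    have e : c0 / (C5 * M) * (ε * nM M / 4) = c0 * ε / (4 * C5) / M * nM M := by field_simp
    linarith
  have e : (6 * Q + |C0| * C5 + |Cd| + 4 * card + |C3|) * (M : ℝ) ^ 2 * P2 =
      6 * Q * V + |C0| * C5 * V + (4 * card + |Cd|) * V + |C3| * V := by simp only [V]; ring
  linarith

theorem chain_step (S : Sys emb r c σ e cP jm J)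
    (G : Good p (fun i => emb (r i)) (fun i => dotp emb (c i) τ) a q T) (ha1 : a ≤ 1)
    {D Cw : ℝ} (hW : Win p (fun i => emb (r i)) (fun i => dotp emb (c i) τ) q D Cw) (hD : D < 1)
    (hχ : 0 < lyap p (fun i => emb (r i))) {ε : ℝ} (hε : 0 < ε) :
    ∃ rise : ℝ, 0 < rise ∧ ∃ I : ℕ, 4 ≤ I ∧ ∀ M : ℕ, I ≤ M → ∀ α β : ℝ, 0 ≤ α → α ≤ D → 0 ≤ β →
      β ≤ qsmall emb r c a q J * W (nM (M - 1)) →
      Minorant p (fun i => emb (r i)) (fun i => dotp emb (c i) τ) q α β →
      D * lyap p (fun i => emb (r i)) + ε ≤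
        hrate p r c (Small2 emb r c τ (qsmall emb r c a q J) (nM M)) →
      α + rise / M ≤ D ∧
        Minorant p (fun i => emb (r i)) (fun i => dotp emb (c i) τ) q (α + rise / M)
          (qsmall emb r c a q J * W (nM M)) := by
  set rr := fun i => emb (r i)
  set tt := fun i => dotp emb (c i) τ
  set χ := lyap p rr
  have hQJ := (qsmall_spec G ha1 S.J_nonneg).1
  have hlarge' := fun (n : ℕ) (w : Fin n → ι) => scale_large G S.J_nonneg ha1 w
  set Q := qsmall emb r c a q J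
  have hQ0 : 0 ≤ Q := le_trans S.J_nonneg hQJ.le
  obtain ⟨c0, hc0, C0, hkey⟩ := key_gain2 G hD hW
  obtain ⟨Cd, hCd⟩ := dev_sqrt G
  set cδ := min (ε / (8 * (Q + 1))) (Real.log 2)
  have hl2 := Real.log_pos (by norm_num : (1 : ℝ) < 2)
  have hcδ0 : 0 < cδ := lt_min (by positivity) hl2
  set C5 := 5 + |Real.log (1 / cδ)|
  have hC5 : 0 < C5 := by positivity
  set C3 := Good.c0 q T + Real.log (2 * (1 + radius q T) + 3)
  obtain ⟨I, hI, hroom⟩ := eventually_room
    (6 * Q + |C0| * C5 + |Cd| + 4 * (Fintype.card ι : ℝ) + |C3|)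
    (show 0 < c0 * ε / (4 * C5) by positivity)
  refine ⟨c0 * ε / (2 * χ * C5), by positivity, I, hI, fun M hM α β hα0 hαD hβ0 hβ hmin hh => ?_⟩
  have hM4 : 4 ≤ M := hI.trans hM
  obtain ⟨hn1, -, -, -, -⟩ := nM_facts hM4
  obtain ⟨hδ0, hδ1, hlδ⟩ := delta_facts hcδ0 (min_le_right _ _) hM4
  set n := nM M with hn
  have hn1' : (1 : ℝ) ≤ n := by exact_mod_cast hn1
  set δ := cδ / Real.log ((n : ℝ) + 2) with hδ
  obtain ⟨ε', hε'0, hε'1, hε'c, hgain⟩ := hkey δ hδ0 hδ1
  have hl0 : 0 ≤ 1 + Real.log (1 / δ) := by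
    have := Real.log_nonneg ((one_le_div hδ0).2 hδ1); linarith
  have hMp : (0 : ℝ) < M := by exact_mod_cast (by omega : 0 < M)
  have hε'M : c0 / (C5 * M) ≤ ε' := by
    rw [div_le_iff₀ (by positivity)]
    exact hε'c.trans (mul_le_mul_of_nonneg_left hlδ hε'0.le)
  have hA := coarse_step G hmin (hCd n hn1)
  have hF := fine_step G hh
  have herr := step_err (Cd := Cd) (C3 := C3) (C0 := C0) hM4 hQ0 hC5 hε.le
    (Nat.cast_nonneg (Fintype.card ι)) hε'M hl0 hlδ hβ (hroom M hM)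
  have hδσ : ε' * δ * Real.log (Real.exp (Q * W n)) ≤ ε' * ε * n / 4 := by
    rw [Real.log_exp]
    have hL : 0 < Real.log ((n : ℝ) + 2) := Real.log_pos (by linarith)
    have e : δ * (Q * W n) = cδ * Q * ((n : ℝ) + 1) := by
      rw [hδ, W]; field_simp
    have b1 : cδ * Q ≤ ε / 8 := by
      refine (mul_le_mul_of_nonneg_right (min_le_left _ _) hQ0).trans ?_
      rw [div_mul_eq_mul_div, div_le_iff₀ (by positivity)]
      nlinarith
    have b2 := mul_le_mul b1 (show (n : ℝ) + 1 ≤ 2 * n by linarith) (by positivity) (by positivity)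
    have := mul_le_mul_of_nonneg_left (e.le.trans b2) hε'0.le
    linarith
  have hR : c0 * ε / (2 * χ * C5) / M * (n * χ) ≤ ε' * ε * n / 2 := by
    have := mul_le_mul_of_nonneg_right hε'M (show 0 ≤ ε * (n : ℝ) / 2 by positivity)
    have e : c0 / (C5 * M) * (ε * n / 2) = c0 * ε / (2 * χ * C5) / M * (n * χ) := by field_simp
    linarith
  have hCd' : Cd * √(n : ℝ) ≤ |Cd| * √(n : ℝ) :=
    mul_le_mul_of_nonneg_right (le_abs_self _) (Real.sqrt_nonneg _)
  have hC3 := le_abs_self C3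
  have hA' : α * (n * χ) - β - ((2 * Fintype.card ι + |Cd|) * √(n : ℝ) + |C3|) ≤
      cent (wt (n := n) p) (fun w => ⌊trans rr tt w / |slope rr w|⌋) (fun w => slope rr w) :=
    le_trans (by simp only [C3, rr, χ] at hC3 ⊢; linarith) hA
  have hgoal : ∀ s, Real.exp (Q * W n) ≤ s → (α + c0 * ε / (2 * χ * C5) / M) * (n * χ) +
      ∑ w : Fin n → ι, wt p w * js p rr tt q (s * |slope rr w|) ≤ js p rr tt q s := by
    intro s hs
    have h1 := hgain n _ (Real.exp_pos _) (hlarge' n) s hs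
    rw [← le_sub_iff_add_le]
    exact step_arith hε'0.le hε'1 (Nat.cast_nonneg n) hχ.le hαD hβ0 (by positivity) (by positivity)
      hA' hF hδσ herr hR (by linarith)
  have hαn : 0 ≤ α + c0 * ε / (2 * χ * C5) / M := by positivity
  have hmin' := minor_step G hn1 (hlarge' n) hαn hgoal
  have hαD' := slope_le_dim hW hmin'
  refine ⟨hαD', fun s hs => le_trans ?_ (hmin' s hs)⟩
  have hb : (α + c0 * ε / (2 * χ * C5) / M) * (Q * W n) ≤ Q * W n :=
    mul_le_of_le_one_left (mul_nonneg hQ0 (W_pos _).le) (by linarith)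
  rw [Real.log_exp]
  linarith

theorem claim2_false [Nonempty ι] (S : Sys emb r c σ e cP jm J)
    (G : Good p (fun i => emb (r i)) (fun i => dotp emb (c i) τ) a q T) (ha1 : a ≤ 1) {D Cw : ℝ}
    (hW : Win p (fun i => emb (r i)) (fun i => dotp emb (c i) τ) q D Cw) (hD0 : 0 ≤ D)
    (hD1 : D < 1) (hχ : 0 < lyap p (fun i => emb (r i)))
    (h : Claim2 p emb r c τ (qsmall emb r c a q J) D k) : False := by
  obtain ⟨ε, hε, N, hN⟩ := h
  obtain ⟨rise, hrise, I0, hI0, hstep⟩ := chain_step S G ha1 hW hD1 hχ hε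
  have hQ0 : 0 ≤ qsmall emb r c a q J :=
    le_trans S.J_nonneg (qsmall_spec G ha1 S.J_nonneg).1.le
  set I := max I0 N
  have chain : ∀ i : ℕ, ∃ α β : ℝ, ∑ l ∈ range i, rise / ((I : ℝ) + l + 1) ≤ α ∧ α ≤ D ∧ 0 ≤ α ∧
      0 ≤ β ∧ β ≤ qsmall emb r c a q J * W (nM (I + i)) ∧
      Minorant p (fun i => emb (r i)) (fun i => dotp emb (c i) τ) q α β := by
    intro i
    induction i with
    | zero =>
      exact ⟨0, 0, by simp, hD0, le_rfl, le_rfl, mul_nonneg hQ0 (W_pos _).le,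
        fun s _ => by simpa using G.js_nonneg s⟩
    | succ i ih =>
      obtain ⟨α, β, hα, hαD, hα0, hβ0, hβ, hmin⟩ := ih
      have hIM : I0 ≤ I + i + 1 := (le_max_left I0 N).trans (by omega)
      have hnN : N ≤ nM (I + i + 1) := by
        have h1 := (nM_facts (hI0.trans hIM)).2.1
        have h2 := le_max_right I0 N
        omega
      have hh := hN (nM (I + i + 1)) hnN (Small2 emb r c τ _ (nM (I + i + 1)))
        ((Submodule.finrank_le _).trans (le_of_eq (Module.finrank_fin_fun K))) le_rfl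
        (le_antisymm (Submodule.span_mono fun d hd => ⟨hd.1, Submodule.subset_span hd⟩)
          (Submodule.span_le.2 Set.inter_subset_right))
      obtain ⟨h1, h2⟩ := hstep (I + i + 1) hIM α β hα0 hαD hβ0 hβ hmin hh
      refine ⟨_, _, ?_, h1, by positivity, mul_nonneg hQ0 (W_pos _).le, le_rfl, h2⟩
      rw [sum_range_succ]
      push_cast
      linarith
  have hdiv : Tendsto (fun i : ℕ => rise / ((I : ℝ) + 1) * ∑ l ∈ range i, 1 / ((l : ℝ) + 1))
      atTop atTop :=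
    Real.tendsto_sum_range_one_div_nat_succ_atTop.const_mul_atTop (by positivity)
  obtain ⟨i, hi⟩ := (hdiv.eventually_gt_atTop D).exists
  obtain ⟨α, β, hα, hαD, -⟩ := chain i
  have : rise / ((I : ℝ) + 1) * ∑ l ∈ range i, 1 / ((l : ℝ) + 1) ≤
      ∑ l ∈ range i, rise / ((I : ℝ) + l + 1) := by
    rw [mul_sum]
    refine sum_le_sum fun l _ => ?_
    rw [div_mul_div_comm, mul_one]
    refine div_le_div_of_nonneg_left hrise.le (by positivity) ?_
    have := mul_nonneg (Nat.cast_nonneg (α := ℝ) I) (Nat.cast_nonneg (α := ℝ) l)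
    linarith
  linarith

/-- The dimension is at least the minimum of one and the entropy rate over the exponent. -/
theorem entropy_dim_trans [Nonempty ι] (S : Sys emb r c σ e cP jm J) (hp : ∀ i, 0 < p i)
    (hp1 : ∑ i, p i = 1) (hr0 : ∀ i, r i ≠ 0) (hr1 : ∀ i, |emb (r i)| < 1)
    (hτ : ∀ v : Fin k → K, dotp emb v τ = 0 → v = 0) :
    ∃ a q T D : ℝ, Good p (fun i => emb (r i)) (fun i => dotp emb (c i) τ) a q T ∧
      Low p (fun i => emb (r i)) (fun i => dotp emb (c i) τ) q D ∧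
      min (lyap p (fun i => emb (r i))) (hrate p r c ⊥) ≤ D * lyap p (fun i => emb (r i)) := by
  set r' := fun i => emb (r i) with hr'
  set q := univ.sup' univ_nonempty (fun i => |r' i|) with hqdef
  set a := univ.inf' univ_nonempty (fun i => |r' i|) with hadef
  set T := ∑ i, ∑ j, |emb (c i j)| * (|τ j| + 1) with hTdef
  have hq1 : q < 1 := (sup'_lt_iff _).2 fun i _ => hr1 i
  have ha0 : 0 < a := (lt_inf'_iff _).2 fun i _ =>
    abs_pos.2 fun h => hr0 i (emb.injective (h.trans emb.map_zero.symm))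
  have Ggood : ∀ g : Fin k → ℝ, (∀ j, |g j - τ j| ≤ 1) →
      Good p r' (fun i => dotp emb (c i) g) a q T := by
    intro g hg
    refine ⟨hp, hp1, ha0, fun i => inf'_le _ (mem_univ i),
      fun i => le_sup' (fun i => |r' i|) (mem_univ i), hq1,
      sum_nonneg fun i _ => sum_nonneg fun j _ => by positivity, fun i => ?_⟩
    refine le_trans ?_ (single_le_sum (fun i _ => sum_nonneg fun j _ => by positivity) (mem_univ i))
    refine (abs_sum_le_sum_abs _ _).trans (sum_le_sum fun j _ => ?_)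
    rw [abs_mul]
    refine mul_le_mul_of_nonneg_left ?_ (abs_nonneg _)
    have := abs_sub_abs_le_abs_sub (g j) (τ j)
    linarith [hg j]
  have Gτ := Ggood τ fun j => by simp
  obtain ⟨Cw, hdim⟩ := dim_exists p r' a q T
  obtain ⟨D, hD0, hD1, hWin, hLow⟩ := hdim _ Gτ
  refine ⟨a, q, T, D, Gτ, hLow, ?_⟩
  set χ := lyap p r'
  have hχ : 0 < χ := sum_pos (fun i _ => mul_pos (hp i) (neg_pos.2 (Real.log_neg
    (abs_pos.2 fun h => hr0 i (emb.injective (h.trans emb.map_zero.symm))) (hr1 i)))) univ_nonempty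
  by_contra hcon
  push Not at hcon
  obtain ⟨hDχ, hDh⟩ := lt_min_iff.1 hcon
  have hDlt : D < 1 := by
    by_contra h; push Not at h
    have := mul_le_mul_of_nonneg_right h hχ.le
    linarith
  have ha1 : a ≤ 1 := (Gτ.a_le (Classical.arbitrary ι)).trans ((Gτ.le_q _).trans hq1.le)
  exact claim2_false S Gτ ha1 hWin hD0 hDlt hχ (claim2_all S Ggood ha1 hτ hLow hDh k)

end

end Vale.Agent.P114.Trans
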