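import Vale.Agent.P114.Pairs
import Vale.Agent.P114.Words

/-! # P114: digits of an independent sum reveal a definite share of the digits of a summand -/

namespace Vale.Agent.P114.Trans

noncomputable section

open scoped Classical
open Finset

variable {Ω Ω' α β : Type} [Fintype Ω] [Fintype Ω']

/-- The first `i` terms of a sequence. -/
def pre {R : Type*} (f : ℕ → R) (i : ℕ) : Fin i → R := fun k => f k

theorem pre_eq {R : Type*} {f g : ℕ → R} {i : ℕ} : pre f i = pre g i ↔ ∀ k < i, f k = g k := by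
  simp [pre, funext_iff, Fin.forall_iff]

theorem cent_pre_succ (P : Ω → ℝ) (hP : 0 ≤ P) {γ : Type} (f : Ω → ℕ → ℤ) (c : Ω → γ) (i : ℕ) :
    cent P (fun v => pre (f v) (i + 1)) c =
      cent P (fun v => pre (f v) i) c + cent P (fun v => f v i) (fun v => (pre (f v) i, c v)) := by
  rw [← cent_chain]
  refine cent_congr_left hP fun v w _ => ?_
  simp only [pre_eq, Prod.mk.injEq]
  constructor
  · exact fun h => ⟨h i (Nat.lt_succ_self i), fun k hk => h k (Nat.lt_succ_of_lt hk)⟩
  · rintro ⟨h1, h2⟩ k hk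
    rcases Nat.lt_succ_iff_lt_or_eq.1 hk with h | rfl
    exacts [h2 k h, h1]

theorem cent_const_le {γ : Type*} {P : Ω → ℝ} (hP : 0 ≤ P) (X : Ω → α) (Y : Ω → γ) (a : α)
    (h : ∀ v, X v = a) : cent P X Y ≤ 0 :=
  (cent_le_log hP X Y (fun _ => 1) (fun _ => {a}) (fun v => mem_singleton.2 (h v))
    fun v => by simp).trans (le_of_eq (by simp))

theorem ent_pre_succ (P : Ω → ℝ) (hP : 0 ≤ P) (f : Ω → ℕ → ℤ) (i : ℕ) :
    ent P (fun v => pre (f v) (i + 1)) =
      ent P (fun v => pre (f v) i) + cent P (fun v => f v i) (fun v => pre (f v) i) := by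
  rw [ent, cent_pre_succ P hP f _ i, ← ent]
  congr 1
  exact cent_congr_right P fun v w => by simp

theorem ent_pre_zero (P : Ω → ℝ) (hP : 0 ≤ P) (f : Ω → ℕ → ℤ) :
    ent P (fun v => pre (f v) 0) = 0 :=
  le_antisymm (cent_const_le hP _ _ Fin.elim0 fun _ => funext fun k => k.elim0) (ent_nonneg hP _)

theorem sum_cent_restrict' (P : Ω → ℝ) {δ : Type*} (X : Ω → δ) (Y : Ω → β) (U : Ω → α)
    {S : Finset α} (hS : ∀ v, U v ∈ S) :
    ∑ u ∈ S, cent (fun v => if U v = u then P v else 0) X Y =
      cent P X (fun v => (Y v, U v)) := by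
  rw [← sum_cent_restrict P X Y U]
  refine (sum_subset (fun u hu => ?_) fun u _ hu => ?_).symm
  · obtain ⟨v, -, rfl⟩ := mem_image.1 hu; exact hS v
  · have : ∀ v, (if U v = u then P v else 0) = 0 := fun v =>
      if_neg fun h => hu (mem_image.2 ⟨v, mem_univ _, h⟩)
    simp [cent, this]

theorem ent_prod_snd {γ : Type*} {Q : Ω' → ℝ} (hQ : 0 ≤ Q) (P : Ω → ℝ) (Y : Ω' → γ) :
    ent (prodW P Q) (fun v => Y v.2) = (∑ v, P v) * ent Q Y := by
  rw [show (∑ v, P v) * ent Q Y = cent (fun w => (∑ v, P v) * Q w) Y (fun _ => ()) from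
    (cent_smul _ Q hQ Y (fun _ => ())).symm]
  refine cent_map (P := fun w => (∑ v, P v) * Q w) Prod.snd (fun w => ?_) Y (fun _ => ())
  simp [mass, prodW, Fintype.sum_prod_type, sum_mul]

theorem ent_bool_le {P : Ω → ℝ} (hP : 0 ≤ P) (hP1 : ∑ v, P v = 1) (E : Ω → Bool) (K : ℝ) :
    ent P E ≤ K * mass P E true + Real.log (1 + Real.exp (-K)) := by
  set z := 1 + Real.exp (-K) with hz
  have hz0 : 0 < z := by positivity
  let q : Bool → ℝ := fun b => (if b then Real.exp (-K) else 1) / z
  have hq : ∀ b, 0 < q b := fun b => by cases b <;> simp only [q] <;> simp <;> positivity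
  have hg := gibbs hP E q (fun b _ => (hq b).le) (fun v _ => hq _) (by
    rw [hP1]
    refine (sum_le_sum_of_subset_of_nonneg (subset_univ _) fun b _ _ => (hq b).le).trans
      (le_of_eq ?_)
    rw [Fintype.sum_bool]
    simp only [q, if_true, Bool.false_eq_true, if_false]
    rw [← add_div, div_eq_one_iff_eq hz0.ne', hz, add_comm])
  have hl : ∀ b, Real.log (q b) = (if b then -K else 0) - Real.log z := fun b => by
    cases b
    · simp [q, Real.log_inv]
    · simp only [q, if_true]; rw [Real.log_div (Real.exp_pos _).ne' hz0.ne', Real.log_exp]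
  have he : ent P E = ∑ v, P v * -Real.log (mass P E (E v)) := by
    simp only [ent, cent, mass_unit, hP1, Real.log_one, zero_sub]
    exact sum_congr rfl fun v _ => by
      rw [mass_congr (Y := E) (b := E v) fun u => by simp]
  have e2 : ∑ v, P v * (if E v then -K else (0 : ℝ)) = -K * mass P E true := by
    rw [mass, mul_sum]
    exact sum_congr rfl fun v _ => by cases E v <;> simp; ring
  simp only [hl, mul_sub, sum_sub_distrib, ← sum_mul, hP1, one_mul, e2] at hg
  simp only [mul_neg, sum_neg_distrib] at he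
  linarith

theorem ent_le_add_fst {P : Ω → ℝ} (hP : 0 ≤ P) {Q : Ω' → ℝ} (hQ : 0 ≤ Q) (hP1 : ∑ v, P v = 1)
    (hQ1 : ∑ w, Q w = 1) (a : Ω → ℤ) (y : Ω' → ℤ) :
    ent (prodW P Q) (fun v => a v.1 + y v.2) + cent (prodW P Q) (fun v => a v.1)
      (fun v => a v.1 + y v.2) = ent P a + ent Q y := by
  have hPQ : 0 ≤ prodW P Q := prodW_nonneg hP hQ
  rw [← ent_pair]
  have e : ent (prodW P Q) (fun v => (a v.1, a v.1 + y v.2)) =
      ent (prodW P Q) (fun v => (y v.2, a v.1)) :=
    cent_congr_left hPQ fun v w _ => by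
      simp only [Prod.mk.injEq]
      constructor <;> rintro ⟨h1, h2⟩ <;> constructor <;> omega
  rw [e, ent_pair, cent_prod_snd_fst hP hP1 hQ hQ1 y a]
  congr 1
  exact cent_prod_fst hQ1 P a (fun _ => ())

theorem gain_nonneg {P : Ω → ℝ} (hP : 0 ≤ P) {Q : Ω' → ℝ} (hQ : 0 ≤ Q) (hP1 : ∑ v, P v = 1)
    (hQ1 : ∑ w, Q w = 1) (a : Ω → ℤ) (y : Ω' → ℤ) :
    ent Q y ≤ ent (prodW P Q) (fun v => a v.1 + y v.2) := by
  have h := ent_le_add_fst hP hQ hP1 hQ1 a y
  have h2 := cent_le_ent (prodW_nonneg hP hQ) (fun v => a v.1) (fun v => a v.1 + y v.2)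
  have h3 : ent (prodW P Q) (fun v => a v.1) = ent P a := cent_prod_fst hQ1 P a (fun _ => ())
  linarith

/-- One digit: the entropy of `a` is at most a multiple of the gain of `a + y` over `y`. -/
theorem digit_basic (B δ : ℝ) (hB : 0 ≤ B) (hδ : 0 < δ) :
    ∃ κ : ℝ, 0 < κ ∧ κ ≤ 1 ∧ ∀ {Ω Ω' : Type} [Fintype Ω] [Fintype Ω'] (P : Ω → ℝ) (Q : Ω' → ℝ)
      (a : Ω → ℤ) (y : Ω' → ℤ), 0 ≤ P → ∑ v, P v = 1 → 0 ≤ Q → ∑ w, Q w = 1 → ent Q y ≤ B →
        κ * (ent P a - δ) ≤ ent (prodW P Q) (fun v => a v.1 + y v.2) - ent Q y := by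
  obtain ⟨γ, hγ, hgain⟩ := shift_gain 0 B (by norm_num)
  obtain ⟨K, hK0, hK⟩ : ∃ K : ℝ, 0 ≤ K ∧ Real.exp (-K) ≤ δ := by
    refine ⟨max 0 (-Real.log δ), le_max_left _ _, ?_⟩
    calc Real.exp (-max 0 (-Real.log δ)) ≤ Real.exp (Real.log δ) :=
          Real.exp_le_exp.2 (by have := le_max_right 0 (-Real.log δ); linarith)
      _ = δ := Real.exp_log hδ
  refine ⟨γ / (γ + K + B), by positivity, (div_le_one (by positivity)).2 (by linarith),
    fun {Ω Ω'} _ _ P Q a y hP hP1 hQ hQ1 hy => ?_⟩
  have hPQ : 0 ≤ prodW P Q := prodW_nonneg hP hQ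
  have hPQ1 : ∑ v, prodW P Q v = 1 := by rw [sum_prodW, hP1, hQ1, one_mul]
  set g := ent (prodW P Q) (fun v => a v.1 + y v.2) - ent Q y with hg
  set H := cent (prodW P Q) (fun v => a v.1) (fun v => a v.1 + y v.2)
  have hsplit : ent P a = g + H := by
    have := ent_le_add_fst hP hQ hP1 hQ1 a y
    linarith
  have hne : (univ.image a).Nonempty := by
    refine image_nonempty.2 (univ_nonempty_iff.2 ?_)
    by_contra h
    rw [not_nonempty_iff] at h
    simp at hP1
  obtain ⟨a0, -, ha0⟩ := exists_max_image (univ.image a) (mass P a) hne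
  set Pst := 1 - mass P a a0 with hPst
  -- pairs
  have hfar : Pst ≤ farProb P (fun _ => 0) a ((2 : ℤ) ^ 0) := by
    have hsum : ∑ v, P v * (1 - mass P a (a v)) = farProb P (fun _ => 0) a ((2 : ℤ) ^ 0) := by
      have hm : mass P (fun _ => (0 : ℤ)) 0 = 1 := by simpa [mass] using hP1
      simp only [farProb, pairW, if_true, hm, div_one, Fintype.sum_prod_type, pow_zero]
      refine sum_congr rfl fun v _ => ?_
      rw [show (1 : ℝ) - mass P a (a v) = ∑ w, if a w = a v then 0 else P w by
        rw [← hP1, mass, ← sum_sub_distrib]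
        exact sum_congr rfl fun w _ => by split_ifs <;> simp, mul_sum]
      refine sum_congr rfl fun w _ => ?_
      by_cases h : a w = a v
      · simp [h]
      · rw [if_neg h, if_pos (Int.one_le_abs (sub_ne_zero.2 (Ne.symm h)))]
    rw [← hsum]
    calc Pst = ∑ v, P v * Pst := by rw [← sum_mul, hP1, one_mul]
      _ ≤ _ := sum_le_sum fun v _ => mul_le_mul_of_nonneg_left
          (by have := ha0 (a v) (mem_image_of_mem a (mem_univ v)); linarith) (hP v)
  have hmix : γ * farProb P (fun _ => 0) a ((2 : ℤ) ^ 0) ≤ g := by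
    have h := mix_gain hP hP1 hQ hQ1 (fun _ => 0) a y 1 0 γ fun d hd => hgain Q y d hQ hQ1
      (by simpa [Nat.pos_iff_ne_zero, Nat.one_le_iff_ne_zero] using hd) (fun L _ => by
        rw [zero_mul, zero_add]
        refine (cent_le_ent hQ _ _).trans (le_trans ?_ hy)
        exact cent_mono_left hQ fun v w h _ => by rw [h])
    have e1 : cent P a (fun _ => (0 : ℤ)) = ent P a := cent_congr_right P fun v w => by simp
    have e2 : cent (prodW P Q) (fun v => a v.1)
        (fun v => ((0 : ℤ), ((1 : ℕ) : ℤ) * a v.1 + y v.2)) = H :=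
      cent_congr_right _ fun v w => by simp
    rw [e1, e2] at h
    linarith
  have hgP : γ * Pst ≤ g := (mul_le_mul_of_nonneg_left hfar hγ.le).trans hmix
  -- Fano
  have hH : H ≤ K * Pst + δ + Pst * B := by
    let E : Ω × Ω' → Bool := fun v => decide (a v.1 ≠ a0)
    have hE : mass (prodW P Q) E true = Pst := by
      have h0 : mass (prodW P Q) E true = mass P (fun v => decide (a v ≠ a0)) true * 1 := by
        rw [← hQ1]; exact mass_prodW_fst P Q (fun v => decide (a v ≠ a0)) true
      rw [h0, mul_one, hPst, ← hP1, mass, mass, ← sum_sub_distrib]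
      exact sum_congr rfl fun v _ => by by_cases h : a v = a0 <;> simp [h]
    have h1 := cent_le_add hPQ (fun v => a v.1) E (fun v => a v.1 + y v.2)
    have h2 : cent (prodW P Q) E (fun v => a v.1 + y v.2) ≤ K * Pst + δ := by
      refine (cent_le_ent hPQ _ _).trans ((ent_bool_le hPQ hPQ1 E K).trans ?_)
      rw [hE]
      have := Real.log_le_sub_one_of_pos (by positivity : (0 : ℝ) < 1 + Real.exp (-K))
      linarith
    have h3 : cent (prodW P Q) (fun v => a v.1) (fun v => (E v, a v.1 + y v.2)) ≤ Pst * B := by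
      rw [cent_congr_right (Y' := fun v => (a v.1 + y v.2, E v)) _ fun v w => by simp [and_comm],
        ← sum_cent_restrict' (prodW P Q) _ _ E (S := univ) fun v => mem_univ _, Fintype.sum_bool]
      set R : Bool → Ω × Ω' → ℝ := fun b v => if E v = b then prodW P Q v else 0
      have hR : ∀ b, 0 ≤ R b := fun b v => by
        simp only [R, Pi.zero_apply]; split_ifs; exacts [hPQ v, le_rfl]
      have hf : cent (R false) (fun v => a v.1) (fun v => a v.1 + y v.2) ≤ 0 := by
        rw [cent_congr_supp (X' := fun _ => a0) (Y' := fun v => a v.1 + y v.2) fun v hv => ?_]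
        · exact cent_const_le (hR false) _ _ a0 fun _ => rfl
        · refine ⟨?_, rfl⟩
          by_contra h
          exact hv (if_neg (by simp [E, h]))
      set P1 : Ω → ℝ := fun v => if a v ≠ a0 then P v else 0
      have hRt : R true = prodW P1 Q := funext fun v => by
        by_cases h : a v.1 = a0 <;> simp [R, E, P1, prodW, h]
      have hP1sum : ∑ v, P1 v = Pst := by
        rw [hPst, ← hP1, mass, ← sum_sub_distrib]
        exact sum_congr rfl fun v _ => by by_cases h : a v = a0 <;> simp [P1, h]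
      have ht : cent (R true) (fun v => a v.1) (fun v => a v.1 + y v.2) ≤ Pst * B := by
        rw [cent_congr_left (hR true) (X' := fun v => y v.2) fun v w h => by
          constructor <;> intro h' <;> omega]
        refine (cent_le_ent (hR true) _ _).trans ?_
        rw [hRt, ent_prod_snd hQ, hP1sum]
        refine mul_le_mul_of_nonneg_left hy ?_
        rw [← hE]; exact mass_nonneg hPQ _ _
      refine le_trans (le_of_eq (congrArg₂ (fun x y : ℝ => x + y) ?_ ?_))
        ((add_le_add ht hf).trans_eq (add_zero _)) <;>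
      · congr 1; funext v; simp only [R]; split_ifs <;> rfl
    linarith
  rw [div_mul_eq_mul_div, div_le_iff₀ (by positivity)]
  have a1 := mul_le_mul_of_nonneg_left hH hγ.le
  have a2 := mul_le_mul_of_nonneg_left hgP hK0
  have a3 := mul_le_mul_of_nonneg_left hgP hB
  rw [hsplit]
  linarith

theorem normalize {P : Ω → ℝ} (hP : 0 ≤ P) (h : 0 < ∑ v, P v) :
    ∃ P' : Ω → ℝ, 0 ≤ P' ∧ ∑ v, P' v = 1 ∧ P = fun v => (∑ u, P u) * P' v :=
  ⟨fun v => (∑ u, P u)⁻¹ * P v, fun v => mul_nonneg (inv_nonneg.2 h.le) (hP v),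
    by rw [← mul_sum, inv_mul_cancel₀ h.ne'],
    funext fun v => (mul_inv_cancel_left₀ h.ne' (P v)).symm⟩

theorem weights_zero {P : Ω → ℝ} (hP : 0 ≤ P) (h : ∑ v, P v = 0) : P = 0 :=
  funext fun v => (sum_eq_zero_iff_of_nonneg fun u _ => hP u).1 h v (mem_univ v)

/-- One digit, conditionally on independent pasts of bounded digit entropy. -/
theorem digit_gain (L δ : ℝ) (hL : 0 < L) (hδ : 0 < δ) :
    ∃ κ : ℝ, 0 < κ ∧ κ ≤ 1 ∧ ∀ {Ω Ω' α β : Type} [Fintype Ω] [Fintype Ω'] (P : Ω → ℝ)
      (Q : Ω' → ℝ) (a : Ω → ℤ) (y : Ω' → ℤ) (A : Ω → α) (Y : Ω' → β),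
      0 ≤ P → ∑ v, P v = 1 → 0 ≤ Q → ∑ w, Q w = 1 → cent Q y Y ≤ L →
        κ * (cent P a A - δ) ≤
          cent (prodW P Q) (fun v => a v.1 + y v.2) (fun v => (A v.1, Y v.2)) - cent Q y Y := by
  obtain ⟨κ, hκ, hκ1, hb⟩ := digit_basic (2 * L) δ (by linarith) hδ
  refine ⟨κ / 2, half_pos hκ, by linarith,
    fun {Ω Ω' α β} _ _ P Q a y A Y hP hP1 hQ hQ1 hy => ?_⟩
  -- one weight for the first factor
  have hone : ∀ Pw : Ω → ℝ, 0 ≤ Pw → ∑ v, Pw v = 1 →
      cent Q y Y + κ / 2 * (ent Pw a - δ) ≤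
        cent (prodW Pw Q) (fun v => a v.1 + y v.2) (fun v => Y v.2) := by
    intro Pw hPw hPw1
    set S := univ.image Y
    set X := max 0 (κ * (ent Pw a - δ))
    let Qr : β → Ω' → ℝ := fun b w => if Y w = b then Q w else 0
    have hQr : ∀ b, 0 ≤ Qr b := fun b w => by
      simp only [Qr, Pi.zero_apply]; split_ifs; exacts [hQ w, le_rfl]
    have hrow : ∀ b ∈ S, ent (Qr b) y +
        (if ent (Qr b) y ≤ 2 * L * mass Q Y b then mass Q Y b * X else 0) ≤
          ent (prodW Pw (Qr b)) (fun v => a v.1 + y v.2) := by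
      intro b _
      rcases eq_or_lt_of_le (sum_nonneg fun w _ => hQr b w : 0 ≤ ∑ w, Qr b w) with h | h
      · have h0 := weights_zero (hQr b) h.symm
        have hm : mass Q Y b = 0 := h.symm
        have hp : prodW Pw (0 : Ω' → ℝ) = 0 := funext fun v => mul_zero _
        simp [h0, hm, hp, ent, cent]
      · obtain ⟨Q', hQ', hQ'1, he⟩ := normalize (hQr b) h
        have hm : ∑ w, Qr b w = mass Q Y b := rfl
        rw [hm] at h he
        have hp : prodW Pw (Qr b) = fun v => mass Q Y b * prodW Pw Q' v := by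
          rw [he]; funext v; simp only [prodW]; ring
        have e1 : ent (Qr b) y = mass Q Y b * ent Q' y := by
          rw [ent, ent, he, cent_smul _ _ hQ']
        have e2 : ent (prodW Pw (Qr b)) (fun v => a v.1 + y v.2) =
            mass Q Y b * ent (prodW Pw Q') (fun v => a v.1 + y v.2) := by
          rw [ent, ent, hp, cent_smul _ _ (prodW_nonneg hPw hQ')]
        simp only [e1, e2]
        have hg := gain_nonneg hPw hQ' hPw1 hQ'1 a y
        split_ifs with hgood
        · have hyB : ent Q' y ≤ 2 * L := by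
            refine le_of_mul_le_mul_left ?_ h
            linarith
          have := hb Pw Q' a y hPw hPw1 hQ' hQ'1 hyB
          have : X ≤ ent (prodW Pw Q') (fun v => a v.1 + y v.2) - ent Q' y :=
            max_le (by linarith) this
          rw [← mul_add]
          exact mul_le_mul_of_nonneg_left (by linarith) h.le
        · rw [add_zero]; exact mul_le_mul_of_nonneg_left hg h.le
    have hs1 : ∑ b ∈ S, ent (Qr b) y = cent Q y Y := by
      simp only [ent, Qr, S]
      rw [sum_cent_restrict]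
      exact cent_congr_right Q fun v w => by simp
    have hs2 : ∑ b ∈ S, ent (prodW Pw (Qr b)) (fun v => a v.1 + y v.2) =
        cent (prodW Pw Q) (fun v => a v.1 + y v.2) (fun v => Y v.2) := by
      have e : ∀ b, prodW Pw (Qr b) = fun v => if Y v.2 = b then prodW Pw Q v else 0 := fun b =>
        funext fun v => by by_cases h : Y v.2 = b <;> simp [Qr, prodW, h]
      simp only [ent, e]
      rw [sum_cent_restrict' (prodW Pw Q) _ _ (fun v : Ω × Ω' => Y v.2)
        fun v => mem_image_of_mem Y (mem_univ v.2)]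
      exact cent_congr_right _ fun v w => by simp
    have hs3 : ∑ b ∈ S, mass Q Y b = 1 := by rw [sum_mass, hQ1]
    have hgood : 1 / 2 ≤ ∑ b ∈ S, if ent (Qr b) y ≤ 2 * L * mass Q Y b then mass Q Y b else 0 := by
      have : ∀ b ∈ S, mass Q Y b - ent (Qr b) y / (2 * L) ≤
          if ent (Qr b) y ≤ 2 * L * mass Q Y b then mass Q Y b else 0 := fun b _ => by
        split_ifs with h
        · have := div_nonneg (ent_nonneg (hQr b) y) (by linarith : 0 ≤ 2 * L)
          linarith
        · rw [sub_nonpos, le_div_iff₀ (by linarith)]; linarith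
      refine le_trans ?_ (sum_le_sum this)
      rw [sum_sub_distrib, ← sum_div, hs1, hs3]
      have : cent Q y Y / (2 * L) ≤ 1 / 2 := by rw [div_le_iff₀ (by linarith)]; linarith
      linarith
    have h := sum_le_sum hrow
    rw [sum_add_distrib, hs1, hs2] at h
    have h' := mul_le_mul_of_nonneg_right hgood (le_max_left 0 (κ * (ent Pw a - δ)))
    rw [sum_mul] at h'
    simp only [ite_mul, zero_mul] at h'
    have h'' := le_max_right 0 (κ * (ent Pw a - δ))
    linarith
  -- slices of the first factor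
  set T := univ.image A
  let Pr : α → Ω → ℝ := fun u v => if A v = u then P v else 0
  have hPr : ∀ u, 0 ≤ Pr u := fun u v => by
    simp only [Pr, Pi.zero_apply]; split_ifs; exacts [hP v, le_rfl]
  have hrow : ∀ u ∈ T, mass P A u * cent Q y Y + κ / 2 * (ent (Pr u) a - δ * mass P A u) ≤
      cent (prodW (Pr u) Q) (fun v => a v.1 + y v.2) (fun v => Y v.2) := by
    intro u _
    rcases eq_or_lt_of_le (sum_nonneg fun v _ => hPr u v : 0 ≤ ∑ v, Pr u v) with h | h
    · have h0 := weights_zero (hPr u) h.symm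
      have hm : mass P A u = 0 := h.symm
      have hp : prodW (0 : Ω → ℝ) Q = 0 := funext fun v => zero_mul _
      simp [h0, hm, hp, ent, cent]
    · obtain ⟨P', hP', hP'1, he⟩ := normalize (hPr u) h
      have hm : ∑ v, Pr u v = mass P A u := rfl
      rw [hm] at h he
      have hp : prodW (Pr u) Q = fun v => mass P A u * prodW P' Q v := by
        rw [he]; funext v; simp only [prodW]; ring
      rw [hp, ent, cent_smul _ _ (prodW_nonneg hP' hQ), he, cent_smul _ _ hP', ← ent]
      have := mul_le_mul_of_nonneg_left (hone P' hP' hP'1) h.le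
      linarith
  have h := sum_le_sum hrow
  have e1 : ∑ u ∈ T, mass P A u = 1 := by rw [sum_mass, hP1]
  have e2 : ∑ u ∈ T, ent (Pr u) a = cent P a A := by
    simp only [ent, Pr, T]
    rw [sum_cent_restrict]
    exact cent_congr_right P fun v w => by simp
  have e3 : ∑ u ∈ T, cent (prodW (Pr u) Q) (fun v => a v.1 + y v.2) (fun v => Y v.2) =
      cent (prodW P Q) (fun v => a v.1 + y v.2) (fun v => (A v.1, Y v.2)) := by
    have e : ∀ u, prodW (Pr u) Q = fun v => if A v.1 = u then prodW P Q v else 0 := fun u =>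
      funext fun v => by by_cases h : A v.1 = u <;> simp [Pr, prodW, h]
    simp only [e]
    rw [sum_cent_restrict' (prodW P Q) _ _ (fun v : Ω × Ω' => A v.1)
      fun v => mem_image_of_mem A (mem_univ v.1)]
    exact cent_congr_right _ fun v w => by simp [and_comm]
  rw [sum_add_distrib, ← sum_mul, e1, one_mul, ← mul_sum, sum_sub_distrib, ← mul_sum, e1, mul_one,
    e2, e3] at h
  linarith

/-- A word of digits: the sum reveals a share of the digits of the first summand. -/
theorem digits_gain (L δ : ℝ) (hL : 0 < L) (hδ : 0 < δ) :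
    ∃ κ : ℝ, 0 < κ ∧ κ ≤ 1 ∧ ∀ {Ω Ω' : Type} [Fintype Ω] [Fintype Ω'] (P : Ω → ℝ) (Q : Ω' → ℝ)
      (a : Ω → ℕ → ℤ) (y : Ω' → ℕ → ℤ) (N : ℕ), 0 ≤ P → ∑ v, P v = 1 → 0 ≤ Q → ∑ w, Q w = 1 →
      (∀ i < N, cent Q (fun w => y w i) (fun w => pre (y w) i) ≤ L) →
        cent (prodW P Q) (fun v => pre (a v.1) N)
            (fun v => pre (fun i => a v.1 i + y v.2 i) N) ≤
          (1 - κ) * ent P (fun v => pre (a v) N) + κ * δ * N := by
  obtain ⟨κ, hκ, hκ1, hd⟩ := digit_gain L δ hL hδ
  refine ⟨κ, hκ, hκ1, fun {Ω Ω'} _ _ P Q a y N hP hP1 hQ hQ1 hy => ?_⟩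
  have hPQ : 0 ≤ prodW P Q := prodW_nonneg hP hQ
  let z : Ω × Ω' → ℕ → ℤ := fun v i => a v.1 i + y v.2 i
  have hstep : ∀ n, n ≤ N → ent Q (fun w => pre (y w) n) +
      κ * (ent P (fun v => pre (a v) n) - δ * n) ≤ ent (prodW P Q) (fun v => pre (z v) n) := by
    intro n
    induction n with
    | zero => intro _; simp [ent_pre_zero, hP, hQ, hPQ]
    | succ n ih =>
      intro hn
      have h1 := hd P Q (fun v => a v n) (fun w => y w n) (fun v => pre (a v) n)
        (fun w => pre (y w) n) hP hP1 hQ hQ1 (hy n (by omega))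
      have h2 : cent (prodW P Q) (fun v => z v n) (fun v => (pre (a v.1) n, pre (y v.2) n)) ≤
          cent (prodW P Q) (fun v => z v n) (fun v => pre (z v) n) :=
        cent_anti_right hPQ fun v w h => by
          simp only [Prod.mk.injEq, pre_eq] at h ⊢
          exact fun k hk => by simp only [z, h.1 k hk, h.2 k hk]
      have h3 := ih (by omega)
      rw [ent_pre_succ Q hQ y n, ent_pre_succ P hP a n, ent_pre_succ _ hPQ z n]
      simp only [z] at h2 ⊢
      push_cast
      linarith
  have h := hstep N le_rfl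
  have e1 : ent (prodW P Q) (fun v => (pre (a v.1) N, pre (z v) N)) =
      ent P (fun v => pre (a v) N) + ent Q (fun w => pre (y w) N) := by
    rw [ent, cent_congr_left hPQ (X' := fun v => (pre (y v.2) N, pre (a v.1) N)) (fun v w _ => ?_),
      ← ent, ent_pair,
      cent_prod_snd_fst hP hP1 hQ hQ1 (fun w => pre (y w) N) (fun v => pre (a v) N)]
    · congr 1
      exact cent_prod_fst hQ1 P (fun v => pre (a v) N) (fun _ => ())
    · simp only [Prod.mk.injEq, pre_eq, z]
      constructor
      · exact fun h => ⟨fun k hk => by have := h.1 k hk; have := h.2 k hk; omega, h.1⟩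
      · exact fun h => ⟨h.2, fun k hk => by rw [h.1 k hk, h.2 k hk]⟩
  rw [ent_pair] at e1
  linarith

/-- The same, conditionally on a function of the first variable which may steer the second
summand. -/
theorem digits_gain_cond (L δ : ℝ) (hL : 0 < L) (hδ : 0 < δ) :
    ∃ κ : ℝ, 0 < κ ∧ κ ≤ 1 ∧ ∀ {Ω Ω' γ : Type} [Fintype Ω] [Fintype Ω'] (P : Ω → ℝ)
      (Q : Ω' → ℝ) (c : Ω → γ) (a : Ω → ℕ → ℤ) (y : γ → Ω' → ℕ → ℤ) (N : ℕ),
      0 ≤ P → ∑ v, P v = 1 → 0 ≤ Q → ∑ w, Q w = 1 →
      (∀ g, ∀ i < N, cent Q (fun w => y g w i) (fun w => pre (y g w) i) ≤ L) →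
        cent (prodW P Q) (fun v => pre (a v.1) N)
            (fun v => (pre (fun i => a v.1 i + y (c v.1) v.2 i) N, c v.1)) ≤
          (1 - κ) * cent P (fun v => pre (a v) N) c + κ * δ * N := by
  obtain ⟨κ, hκ, hκ1, hd⟩ := digits_gain L δ hL hδ
  refine ⟨κ, hκ, hκ1, fun {Ω Ω' γ} _ _ P Q c a y N hP hP1 hQ hQ1 hy => ?_⟩
  set S := univ.image c
  let Pr : γ → Ω → ℝ := fun u v => if c v = u then P v else 0
  have hPr : ∀ u, 0 ≤ Pr u := fun u v => by
    simp only [Pr, Pi.zero_apply]; split_ifs; exacts [hP v, le_rfl]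
  have hrow : ∀ u ∈ S, cent (prodW (Pr u) Q) (fun v => pre (a v.1) N)
      (fun v => pre (fun i => a v.1 i + y (c v.1) v.2 i) N) ≤
      (1 - κ) * ent (Pr u) (fun v => pre (a v) N) + κ * δ * N * mass P c u := by
    intro u _
    rcases eq_or_lt_of_le (sum_nonneg fun v _ => hPr u v : 0 ≤ ∑ v, Pr u v) with h | h
    · have h0 := weights_zero (hPr u) h.symm
      have hm : mass P c u = 0 := h.symm
      have hp : prodW (0 : Ω → ℝ) Q = 0 := funext fun v => zero_mul _
      simp [h0, hm, hp, ent, cent]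
    · obtain ⟨P', hP', hP'1, he⟩ := normalize (hPr u) h
      have hm : ∑ v, Pr u v = mass P c u := rfl
      rw [hm] at h he
      have hp : prodW (Pr u) Q = fun v => mass P c u * prodW P' Q v := by
        rw [he]; funext v; simp only [prodW]; ring
      rw [cent_congr_supp (P := prodW (Pr u) Q) (X' := fun v => pre (a v.1) N)
        (Y' := fun v => pre (fun i => a v.1 i + y u v.2 i) N) fun v hv => ?_]
      · rw [hp, cent_smul _ _ (prodW_nonneg hP' hQ), ent, he, cent_smul _ _ hP', ← ent]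
        have := mul_le_mul_of_nonneg_left (hd P' Q a (y u) N hP' hP'1 hQ hQ1 (hy u)) h.le
        linarith
      · have : c v.1 = u := by by_contra hc; exact hv (by simp [prodW, Pr, hc])
        simp [this]
  have h := sum_le_sum hrow
  have e1 : ∑ u ∈ S, mass P c u = 1 := by rw [sum_mass, hP1]
  have e2 : ∑ u ∈ S, ent (Pr u) (fun v => pre (a v) N) = cent P (fun v => pre (a v) N) c := by
    simp only [ent, Pr, S]
    rw [sum_cent_restrict]
    exact cent_congr_right P fun v w => by simp
  have e3 : ∑ u ∈ S, cent (prodW (Pr u) Q) (fun v => pre (a v.1) N)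
      (fun v => pre (fun i => a v.1 i + y (c v.1) v.2 i) N) =
      cent (prodW P Q) (fun v => pre (a v.1) N)
        (fun v => (pre (fun i => a v.1 i + y (c v.1) v.2 i) N, c v.1)) := by
    have e : ∀ u, prodW (Pr u) Q = fun v => if c v.1 = u then prodW P Q v else 0 := fun u =>
      funext fun v => by by_cases h : c v.1 = u <;> simp [Pr, prodW, h]
    simp only [e]
    exact sum_cent_restrict' (prodW P Q) _ _ (fun v : Ω × Ω' => c v.1)
      fun v => mem_image_of_mem c (mem_univ v.1)
  rw [sum_add_distrib, ← mul_sum, ← mul_sum, e1, mul_one, e2, e3] at h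
  exact h

end

end Vale.Agent.P114.Trans
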