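import Vale.Agent.P114.Trans.Defs
import Vale.Agent.P114.Trans.FormalDigits

/-! # P114: coefficient entropy of formal translations (renewal bound) -/

namespace Vale.Agent.P114.Trans

noncomputable section

open scoped Classical
open Finset Polynomial

variable {ι : Type} [Fintype ι]

omit [Fintype ι] in
theorem pslope_eq (σ : ι → Bool) (e : ι → ℕ) (he : ∀ i, 0 < e i) :
    ∀ {n : ℕ} (w : Fin n → ι), ∃ (u : ℤ) (E : ℕ), n ≤ E ∧
      slope (pslope σ e) w = C u * X ^ E
  | 0, w => ⟨1, 0, le_rfl, by simp [slope]⟩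
  | n + 1, w => by
    obtain ⟨u, E, hE, h⟩ := pslope_eq σ e he (Fin.tail w)
    refine ⟨(if σ (w 0) then 1 else -1) * u, e (w 0) + E, by have := he (w 0); omega, ?_⟩
    rw [slope_succ, h, C_mul, pow_add]
    simp only [pslope]
    cases σ (w 0) <;> simp <;> ring

theorem coeff_shift (u : ℤ) (E i : ℕ) (P : Polynomial ℤ) :
    (C u * X ^ E * P).coeff i = if E ≤ i then u * P.coeff (i - E) else 0 := by
  rw [mul_assoc, coeff_C_mul, coeff_X_pow_mul']
  split_ifs <;> simp

/-- A shifted and translated family has no larger digit entropy. -/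
theorem shift_digit {Ω : Type} [Fintype Ω] {Q : Ω → ℝ} (hQ : 0 ≤ Q) (T : Ω → Polynomial ℤ)
    (c0 : Polynomial ℤ) (u : ℤ) (E i : ℕ) {B : ℝ} (hB : 0 ≤ B)
    (h : ∀ j, j + E = i → cent Q (fun w => (T w).coeff j) (fun w => pre (T w).coeff j) ≤ B) :
    cent Q (fun w => (c0 + C u * X ^ E * T w).coeff i)
      (fun w => pre (c0 + C u * X ^ E * T w).coeff i) ≤ B := by
  rcases lt_or_ge i E with hi | hi
  · refine (cent_const_le hQ _ _ (c0.coeff i) fun w => ?_).trans hB
    rw [coeff_add, coeff_shift, if_neg (by omega), add_zero]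
  · rcases eq_or_ne u 0 with rfl | hu
    · exact (cent_const_le hQ _ _ (c0.coeff i) fun w => by simp).trans hB
    refine le_trans (cent_mono_left hQ (X := fun w => (T w).coeff (i - E)) fun v w hX _ => ?_)
      (le_trans (cent_anti_right hQ fun v w hp => ?_) (h (i - E) (by omega)))
    · rw [coeff_add, coeff_add, coeff_shift, coeff_shift, if_pos hi, if_pos hi, hX]
    · simp only [pre_eq] at hp ⊢
      intro k hk
      have := hp (k + E) (by omega)
      rw [coeff_add, coeff_add, coeff_shift, coeff_shift, if_pos (by omega), if_pos (by omega),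
        Nat.add_sub_cancel] at this
      exact mul_left_cancel₀ hu (by linarith)

omit [Fintype ι] in
/-- The coefficient `j` of a formal translation only depends on the first letters. -/
theorem coef_join (σ : ι → Bool) (e : ι → ℕ) (he : ∀ i, 0 < e i) (ψ : ι → Polynomial ℤ) {N k : ℕ}
    (u : Fin k → ι) (v : Fin N → ι) {j : ℕ} (hj : j < k) :
    (trans (pslope σ e) ψ (joinEquiv ι N k (u, v))).coeff j = (trans (pslope σ e) ψ u).coeff j := by
  obtain ⟨c, E, hE, hs⟩ := pslope_eq σ e he u
  rw [trans_join, smul_eq_mul, hs, coeff_add, coeff_shift, if_neg (by omega), add_zero]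

/-- The entropy of coefficient `j` of the formal translation given the lower ones. -/
def coefEnt (p : ι → ℝ) (σ : ι → Bool) (e : ι → ℕ) (ψ : ι → Polynomial ℤ) (n j : ℕ) : ℝ :=
  cent (wt (n := n) p) (fun w => (trans (pslope σ e) ψ w).coeff j)
    (fun w => pre (trans (pslope σ e) ψ w).coeff j)

theorem coefEnt_stable {p : ι → ℝ} (hp1 : ∑ i, p i = 1) (σ : ι → Bool)
    (e : ι → ℕ) (he : ∀ i, 0 < e i) (ψ : ι → Polynomial ℤ) (N : ℕ) {k j : ℕ} (hj : j < k) :
    coefEnt p σ e ψ (N + k) j = coefEnt p σ e ψ k j := by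
  rw [coefEnt, ← cent_join p N k]
  have h1 : (fun v : (Fin k → ι) × (Fin N → ι) =>
      (trans (pslope σ e) ψ (joinEquiv ι N k v)).coeff j) =
      fun v => (trans (pslope σ e) ψ v.1).coeff j :=
    funext fun v => coef_join σ e he ψ v.1 v.2 hj
  have h2 : (fun v : (Fin k → ι) × (Fin N → ι) =>
      pre (trans (pslope σ e) ψ (joinEquiv ι N k v)).coeff j) =
      fun v => pre (trans (pslope σ e) ψ v.1).coeff j :=
    funext fun v => pre_eq.2 fun i hi => coef_join σ e he ψ v.1 v.2 (hi.trans hj)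
  rw [h1, h2]
  exact cent_prod_fst (sum_wt hp1 N) _ (fun u => (trans (pslope σ e) ψ u).coeff j)
    (fun u => pre (trans (pslope σ e) ψ u).coeff j)

/-- Renewal: every coefficient carries at most the entropy of one letter. -/
theorem coefEnt_le {p : ι → ℝ} (hp : ∀ i, 0 ≤ p i) (hp1 : ∑ i, p i = 1) (σ : ι → Bool)
    (e : ι → ℕ) (he : ∀ i, 0 < e i) (ψ : ι → Polynomial ℤ) {n j : ℕ} (hj : j < n) :
    coefEnt p σ e ψ n j ≤ Real.log (Fintype.card ι) := by
  obtain ⟨m, rfl⟩ : ∃ m, n = m + 1 := ⟨n - 1, by omega⟩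
  set W := wt (n := m + 1) p
  have hW : 0 ≤ W := wt_nonneg hp
  have hW1 : ∑ w, W w = 1 := sum_wt hp1 _
  set T : (Fin (m + 1) → ι) → Polynomial ℤ := trans (pslope σ e) ψ
  set F : ℕ → ℝ := fun i => cent W (fun w => w 0) (fun w => pre (T w).coeff i)
  have hF : ∀ i, F (i + 1) ≤ F i := fun i =>
    cent_anti_right hW fun v w h => pre_eq.2 fun k hk => pre_eq.1 h k (Nat.lt_succ_of_lt hk)
  have hF0 : F 0 ≤ Real.log (Fintype.card ι) := by
    refine (cent_le_log hW _ _ (fun _ => ((Fintype.card ι : ℕ) : ℝ)) (fun _ => univ)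
      (fun w => mem_univ _) (fun w => by simp)).trans (le_of_eq ?_)
    rw [← sum_mul, hW1, one_mul]
  suffices h : ∀ i, i < m + 1 → coefEnt p σ e ψ (m + 1) i ≤ F 0 - F (i + 1) by
    have := h j hj
    have : 0 ≤ F (j + 1) := cent_nonneg hW _ _
    linarith
  intro i
  induction i using Nat.strong_induction_on with
  | _ i ih =>
  intro hi
  set c : (Fin (m + 1) → ι) → ℤ := fun w => (T w).coeff i
  set pr : (Fin (m + 1) → ι) → Fin i → ℤ := fun w => pre (T w).coeff i
  have hc1 := cent_chain W c (fun w => w 0) pr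
  have hc2 := cent_chain W (fun w => w 0) c pr
  have hc3 : cent W (fun v => (c v, v 0)) pr = cent W (fun v => (v 0, c v)) pr :=
    cent_congr_left hW fun v w _ => by simp [and_comm]
  have hc4 : cent W (fun w => w 0) (fun v => (c v, pr v)) = F (i + 1) :=
    cent_congr_right W fun v w => by
      simp only [c, pr, Prod.mk.injEq, pre_eq]
      exact ⟨fun h k hk => by
          rcases Nat.lt_succ_iff_lt_or_eq.1 hk with h' | rfl
          exacts [h.2 k h', h.1],
        fun h => ⟨h i (Nat.lt_succ_self i), fun k hk => h k (Nat.lt_succ_of_lt hk)⟩⟩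
  have hmono : ∀ a b, a ≤ b → F b ≤ F a := fun a b hab => antitone_nat_of_succ_le hF hab
  have hc5 : cent W c (fun v => (v 0, pr v)) ≤ F 0 - F i := by
    rw [← cent_cons p m c (fun v => (v 0, pr v))]
    simp only [Fin.cons_zero]
    rw [cent_congr_right (Y' := fun v : ι × (Fin m → ι) => (pr (Fin.cons v.1 v.2), v.1)) _
      fun v w => by simp [and_comm], cent_slice (fun a => hp a) (wt_nonneg hp)]
    calc ∑ a, p a * cent (wt (n := m) p) (fun w => c (Fin.cons a w))
          (fun w => pr (Fin.cons a w))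
        ≤ ∑ a, p a * (F 0 - F i) := sum_le_sum fun a _ => mul_le_mul_of_nonneg_left ?_ (hp a)
      _ = F 0 - F i := by rw [← sum_mul, hp1, one_mul]
    obtain ⟨u, hu⟩ : ∃ u : ℤ, pslope σ e a = C u * X ^ e a :=
      ⟨if σ a then 1 else -1, by simp only [pslope]; cases σ a <;> simp⟩
    have eT : ∀ w : Fin m → ι, T (Fin.cons a w) =
        ψ a + C u * X ^ e a * trans (pslope σ e) ψ w := fun w => by
      simp only [T]; rw [trans, Fin.cons_zero, Fin.tail_cons, smul_eq_mul, hu]
    simp only [c, pr, eT]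
    refine shift_digit (wt_nonneg hp) _ (ψ a) u (e a) i (sub_nonneg.2 (hmono 0 i (Nat.zero_le i)))
      fun k hk => ?_
    have hea := he a
    have e1 := ih k (by omega) (by omega)
    rw [show m + 1 = (m - k) + (k + 1) by omega,
      coefEnt_stable hp1 σ e he ψ (m - k) (Nat.lt_succ_self k)] at e1
    have e2 := coefEnt_stable hp1 σ e he ψ (m - (k + 1)) (Nat.lt_succ_self k)
    rw [show m - (k + 1) + (k + 1) = m by omega] at e2
    rw [← e2] at e1
    refine e1.trans ?_
    have := hmono (k + 1) i (by omega)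
    linarith
  change cent W c pr ≤ _
  have hFi : cent W (fun w => w 0) pr = F i := rfl
  linarith

/-- Coefficients of a slope times the formal translation. -/
theorem digit_hyp {p : ι → ℝ} (hp : ∀ i, 0 ≤ p i) (hp1 : ∑ i, p i = 1) (σ : ι → Bool)
    (e : ι → ℕ) (he : ∀ i, 0 < e i) (ψ : ι → Polynomial ℤ) (u : ℤ) (E : ℕ) {n i : ℕ}
    (hi : i < n) {L : ℝ} (hL0 : 0 ≤ L) (hL : Real.log (Fintype.card ι) ≤ L) :
    cent (wt (n := n) p) (fun w => (C u * X ^ E * trans (pslope σ e) ψ w).coeff i)
      (fun w => pre (C u * X ^ E * trans (pslope σ e) ψ w).coeff i) ≤ L := by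
  have := shift_digit (wt_nonneg hp) (fun w : Fin n → ι => trans (pslope σ e) ψ w) 0 u E i hL0
    fun k hk => (coefEnt_le hp hp1 σ e he ψ (n := n) (j := k) (by omega)).trans hL
  simpa using this

end

end Vale.Agent.P114.Trans
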