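import Vale.Agent.P114.Trans.Defs
import Vale.Agent.P114.Trans.FormalCoef
import Vale.Agent.P114.Gain

/-! # P114, transcendental slopes: the linear gain of a formal place -/

namespace Vale.Agent.P114.Trans

noncomputable section

open scoped Classical
open Finset Polynomial

variable {ι : Type} [Fintype ι]

/-- Slopes of the successive blocks of length `m`. -/
def blockSlopes (r : ι → ℝ) (m : ℕ) : (K : ℕ) → (Fin (m * K) → ι) → List ℝ
  | 0, _ => []
  | K + 1, w =>
    slope r ((joinEquiv ι (m * K) m).symm w).1 ::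
      blockSlopes r m K ((joinEquiv ι (m * K) m).symm w).2

omit [Fintype ι] in
theorem pslope_ne (σ : ι → Bool) (e : ι → ℕ) {n : ℕ} (w : Fin n → ι) :
    slope (pslope σ e) w ≠ 0 :=
  prod_ne_zero_iff.2 fun i _ => by
    simp only [pslope]
    cases σ (w i) <;> simp

/-- Formal and real translation part. -/
def pairT (σ : ι → Bool) (e : ι → ℕ) (ψ : ι → Polynomial ℤ) (r t : ι → ℝ) {n : ℕ}
    (w : Fin n → ι) : Polynomial ℤ × ℝ := (trans (pslope σ e) ψ w, trans r t w)

/-- Formal slope, formal translation and real translation. -/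
def triple (σ : ι → Bool) (e : ι → ℕ) (ψ : ι → Polynomial ℤ) (r t : ι → ℝ) {n : ℕ}
    (w : Fin n → ι) : Polynomial ℤ × Polynomial ℤ × ℝ :=
  (slope (pslope σ e) w, trans (pslope σ e) ψ w, trans r t w)

theorem triple_sub {p r t : ι → ℝ} (hp : ∀ i, 0 ≤ p i) (hp1 : ∑ i, p i = 1) (σ : ι → Bool)
    (e : ι → ℕ) (ψ : ι → Polynomial ℤ)
    (hsl : ∀ (n : ℕ) (v w : Fin n → ι),
      slope r v = slope r w ↔ slope (pslope σ e) v = slope (pslope σ e) w) (N m : ℕ) :
    ent (wt (n := N + m) p) (triple σ e ψ r t) ≤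
      ent (wt (n := m) p) (triple σ e ψ r t) + ent (wt (n := N) p) (triple σ e ψ r t) := by
  set PQ := prodW (wt (n := m) p) (wt (n := N) p)
  have hPQ : 0 ≤ PQ := prodW_nonneg (wt_nonneg hp) (wt_nonneg hp)
  have e1 : ent (wt (n := N + m) p) (triple σ e ψ r t) =
      ent PQ (fun v => triple σ e ψ r t (joinEquiv ι N m v)) :=
    (cent_join p N m (triple σ e ψ r t) (fun _ => ())).symm
  have e2 : ent PQ (fun v => (triple σ e ψ r t v.2, triple σ e ψ r t v.1)) =
      ent (wt (n := m) p) (triple σ e ψ r t) + ent (wt (n := N) p) (triple σ e ψ r t) := by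
    rw [ent_pair]
    have a1 : ent PQ (fun v : (Fin m → ι) × (Fin N → ι) => triple σ e ψ r t v.1) =
        ent (wt (n := m) p) (triple σ e ψ r t) :=
      cent_prod_fst (sum_wt hp1 N) _ (triple σ e ψ r t) (fun _ => ())
    have a2 : cent PQ (fun v : (Fin m → ι) × (Fin N → ι) => triple σ e ψ r t v.2)
        (fun v => triple σ e ψ r t v.1) = ent (wt (n := N) p) (triple σ e ψ r t) :=
      cent_prod_snd_fst (wt_nonneg hp) (sum_wt hp1 m) (wt_nonneg hp) (sum_wt hp1 N)
        (triple σ e ψ r t) (triple σ e ψ r t)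
    rw [a1, a2]
  rw [e1, ← e2]
  refine cent_mono_left hPQ fun v w h _ => ?_
  obtain ⟨v1, v2⟩ := v
  obtain ⟨w1, w2⟩ := w
  simp only [triple, Prod.mk.injEq] at h
  obtain ⟨⟨a1, a2, a3⟩, b1, b2, b3⟩ := h
  simp only [triple, slope_join, trans_join, smul_eq_mul, Prod.mk.injEq]
  have := (hsl m v1 w1).2 b1
  exact ⟨by rw [a1, b1], by rw [b2, b1, a2], by rw [b3, this, a3]⟩

theorem triple_mul {p r t : ι → ℝ} (hp : ∀ i, 0 ≤ p i) (hp1 : ∑ i, p i = 1) (σ : ι → Bool)
    (e : ι → ℕ) (ψ : ι → Polynomial ℤ)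
    (hsl : ∀ (n : ℕ) (v w : Fin n → ι),
      slope r v = slope r w ↔ slope (pslope σ e) v = slope (pslope σ e) w) (M : ℕ) :
    ∀ j : ℕ, ent (wt (n := M * (j + 1)) p) (triple σ e ψ r t) ≤
      ((j : ℝ) + 1) * ent (wt (n := M) p) (triple σ e ψ r t) := by
  intro j
  induction j with
  | zero => rw [Nat.zero_add, Nat.mul_one]; simp
  | succ j ih =>
    have h2 := triple_sub (t := t) hp hp1 σ e ψ hsl M (M * (j + 1))
    rw [show M * (j + 1 + 1) = M + M * (j + 1) by ring]
    push_cast
    linarith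

/-- The first block of a long word keeps a share of its information. -/
theorem block_step (L δ : ℝ) (hL : 0 < L) (hLι : Real.log (Fintype.card ι) ≤ L) (hδ : 0 < δ) :
    ∃ κ : ℝ, 0 < κ ∧ κ ≤ 1 ∧ ∀ (p r t : ι → ℝ) (a q T : ℝ), Good p r t a q T →
      ∀ (σ : ι → Bool) (e : ι → ℕ), (∀ i, 0 < e i) →
      (∀ (n : ℕ) (v w : Fin n → ι),
        slope r v = slope r w ↔ slope (pslope σ e) v = slope (pslope σ e) w) →
      ∀ (ψ : ι → Polynomial ℤ) (m n N : ℕ), N ≤ n →
        (∀ v w : Fin m → ι, slope (pslope σ e) v = slope (pslope σ e) w →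
          (trans (pslope σ e) ψ v - trans (pslope σ e) ψ w).natDegree < N) →
        ∀ {β : Type} (B : (Fin n → ι) → β),
          (1 - κ) * cent (wt (n := m) p)
                (fun w => ⌊trans r t w / |slope r w|⌋) (fun w => slope r w) +
              κ * cent (wt (n := m) p) (fun w => trans (pslope σ e) ψ w) (fun w => slope r w) -
              κ * δ * N - Real.log (1 + 2 * radius q T + 3) +
              cent (wt (n := n) p) (pairT σ e ψ r t) B ≤
            cent (prodW (wt (n := m) p) (wt (n := n) p))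
              (fun v => pairT σ e ψ r t (joinEquiv ι n m v)) (fun v => (slope r v.1, B v.2)) := by
  obtain ⟨κ, hκ, hκ1, hd⟩ := digits_gain_cond L δ hL hδ
  refine ⟨κ, hκ, hκ1, fun p r t a q T G σ e he hsl ψ m n N hN hdeg β B => ?_⟩
  set P := wt (n := m) p
  set Q := wt (n := n) p
  have hP : 0 ≤ P := G.wt_nn
  have hQ : 0 ≤ Q := G.wt_nn
  have hP1 : ∑ v, P v = 1 := sum_wt G.sum_one m
  have hQ1 : ∑ v, Q v = 1 := sum_wt G.sum_one n
  set PQ := prodW P Q
  have hPQ : 0 ≤ PQ := prodW_nonneg hP hQ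
  have hPQ1 : ∑ v, PQ v = 1 := by rw [sum_prodW, hP1, hQ1, one_mul]
  let ps := pslope σ e
  let s : (Fin m → ι) → ℝ := fun u => slope r u
  let A : (Fin m → ι) → Polynomial ℤ × ℝ := pairT σ e ψ r t
  let TT : (Fin m → ι) × (Fin n → ι) → Polynomial ℤ × ℝ :=
    fun v => pairT σ e ψ r t (joinEquiv ι n m v)
  let cl : (Fin m → ι) → ℤ := fun u => ⌊trans r t u / |slope r u|⌋
  let c : (Fin m → ι) → ℤ × ℝ := fun u => (cl u, s u)
  let ref : ℝ → Polynomial ℤ := fun x =>
    if h : ∃ w : Fin m → ι, slope r w = x then trans ps ψ h.choose else 0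
  let fs : ℝ → Polynomial ℤ := fun x =>
    if h : ∃ w : Fin m → ι, slope r w = x then slope ps h.choose else 0
  have hfs : ∀ u, fs (s u) = slope ps u := fun u => by
    have h : ∃ w : Fin m → ι, slope r w = s u := ⟨u, rfl⟩
    simp only [fs, dif_pos h]
    exact (hsl m _ _).1 h.choose_spec
  let av : (Fin m → ι) → ℕ → ℤ := fun u i => (trans ps ψ u - ref (s u)).coeff i
  let yv : ℤ × ℝ → (Fin n → ι) → ℕ → ℤ := fun g w i => (fs g.2 * trans ps ψ w).coeff i
  -- the tail digits
  have hy : ∀ g, ∀ i < N, cent Q (fun w => yv g w i) (fun w => pre (yv g w) i) ≤ L := by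
    intro g i hi
    obtain ⟨z, E, hzE⟩ : ∃ (z : ℤ) (E : ℕ), fs g.2 = C z * X ^ E := by
      simp only [fs]
      split_ifs with h
      · obtain ⟨z, E, -, hzE⟩ := pslope_eq σ e he h.choose
        exact ⟨z, E, hzE⟩
      · exact ⟨0, 0, by simp⟩
    simp only [yv, hzE]
    exact digit_hyp (fun a => (G.pos a).le) G.sum_one σ e he ψ z E (by omega) hL.le hLι
  have hdig := hd P Q c av yv N hP hP1 hQ hQ1 hy
  -- the formal part is determined by its digits
  have hinj : cent P (fun u => trans ps ψ u) c = cent P (fun u => pre (av u) N) c :=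
    cent_congr_left hP fun v w h => by
      obtain ⟨-, h2⟩ := Prod.mk.inj h
      simp only [pre_eq, av, h2, coeff_sub, sub_left_inj]
      refine ⟨fun h k _ => by rw [h], fun h => sub_eq_zero.1 (Polynomial.ext fun k => ?_)⟩
      rw [coeff_zero]
      by_cases hk : k < N
      · rw [coeff_sub, h k hk, sub_self]
      · exact coeff_eq_zero_of_natDegree_lt
          (lt_of_lt_of_le (hdeg v w ((hsl m v w).1 h2)) (not_lt.1 hk))
  -- chain rule of the first block
  have c1 := cent_chain P A cl s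
  have c2 : cent P (fun u => (A u, cl u)) s = cent P A s :=
    cent_congr_left hP fun v w h => by
      refine ⟨fun h' => (Prod.mk.inj h').1, fun h' => Prod.ext h' ?_⟩
      have h3 := (Prod.mk.inj h').2
      change slope r v = slope r w at h
      simp only [cl, h, h3]
  have c3 := cent_chain P A (fun u => pre (av u) N) c
  have c4 : cent P (fun u => (A u, pre (av u) N)) c = cent P A c :=
    cent_congr_left hP fun v w h => by
      refine ⟨fun h' => (Prod.mk.inj h').1, fun h' => Prod.ext h' ?_⟩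
      have hA : A v = A w := h'
      have h1 : trans ps ψ v = trans ps ψ w := congrArg Prod.fst hA
      obtain ⟨-, h2⟩ := Prod.mk.inj h
      change pre (av v) N = pre (av w) N
      exact pre_eq.2 fun k _ => by simp only [av, h1, h2]
  have c5 : cent P A (fun u => (cl u, s u)) = cent P A c := rfl
  -- the whole word
  have d1 := cent_le_add hPQ (fun v => A v.1) (fun v => cl v.1) (fun v => (TT v, (s v.1, B v.2)))
  have d2 : cent PQ (fun v => cl v.1) (fun v => (TT v, (s v.1, B v.2))) ≤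
      Real.log (1 + 2 * radius q T + 3) := by
    refine le_trans (cent_anti_right hPQ (Y := fun v => ⌊(TT v).2 / |s v.1|⌋) fun v w h => ?_) ?_
    · simp only [Prod.mk.injEq] at h
      rw [h.1, h.2.1]
    refine (cent_floor_le hPQ (fun v => trans r t v.1 / |s v.1|) (fun v => (TT v).2 / |s v.1|)
      1 0 (radius q T) fun v => ?_).trans (le_of_eq (by rw [hPQ1, one_mul, abs_one]))
    obtain ⟨u, w⟩ := v
    simp only [TT, s, pairT, trans_join, smul_eq_mul, one_mul, add_zero]
    rw [← sub_div, sub_add_cancel_left, abs_div, abs_neg, abs_mul, abs_abs,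
      mul_div_cancel_left₀ _ (G.slope_pos u).ne']
    exact G.trans_le w
  have d3 : cent PQ (fun v => A v.1) (fun v => (cl v.1, (TT v, (s v.1, B v.2)))) ≤
      cent PQ (fun v => pre (av v.1) N) (fun v => (cl v.1, (TT v, (s v.1, B v.2)))) +
        cent PQ (fun v => A v.1)
          (fun v => (pre (av v.1) N, (cl v.1, (TT v, (s v.1, B v.2))))) :=
    cent_le_add hPQ _ _ _
  have d4 : cent PQ (fun v => pre (av v.1) N) (fun v => (cl v.1, (TT v, (s v.1, B v.2)))) ≤
      cent PQ (fun v => pre (av v.1) N)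
        (fun v => (pre (fun i => av v.1 i + yv (c v.1) v.2 i) N, c v.1)) := by
    refine cent_anti_right hPQ fun v w h => ?_
    obtain ⟨v1, v2⟩ := v
    obtain ⟨w1, w2⟩ := w
    simp only [TT, pairT, trans_join, smul_eq_mul, Prod.mk.injEq] at h
    obtain ⟨h1, ⟨h2, -⟩, h3, -⟩ := h
    simp only [c, Prod.mk.injEq, pre_eq]
    refine ⟨fun k _ => ?_, h1, h3⟩
    have := congrArg (fun f : Polynomial ℤ => f.coeff k) h2
    simp only [av, yv, hfs, coeff_add, coeff_sub, ps] at this ⊢
    rw [h3]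
    linarith
  have d5 : cent PQ (fun v => A v.1)
      (fun v => (pre (av v.1) N, (cl v.1, (TT v, (s v.1, B v.2))))) ≤
      cent P A (fun u => (pre (av u) N, c u)) :=
    (cent_anti_right hPQ (Y := fun v => (pre (av v.1) N, c v.1)) fun v w h => by
      simp only [Prod.mk.injEq] at h
      simp [c, h.1, h.2.1, h.2.2.2.1]).trans
        (le_of_eq (cent_prod_fst hQ1 P A (fun u => (pre (av u) N, c u))))
  -- peeling the first block off
  have f1 := cent_chain PQ (fun v => A v.1) TT (fun v => (s v.1, B v.2))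
  have f2 := cent_chain PQ TT (fun v => A v.1) (fun v => (s v.1, B v.2))
  have f3 : cent PQ (fun v => (A v.1, TT v)) (fun v => (s v.1, B v.2)) =
      cent PQ (fun v => (TT v, A v.1)) (fun v => (s v.1, B v.2)) :=
    cent_congr_left hPQ fun v w _ => by simp [and_comm]
  have f4 : cent P A s ≤ cent PQ (fun v => A v.1) (fun v => (s v.1, B v.2)) := by
    rw [← cent_prod_fst_snd hP hQ hQ1 A s]
    exact cent_anti_right hPQ fun v w h => by simp only [Prod.mk.injEq] at h ⊢; simp [h]
  have f5 : cent Q (pairT σ e ψ r t) B ≤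
      cent PQ TT (fun v => (A v.1, (s v.1, B v.2))) := by
    refine le_trans ?_ (cent_anti_right hPQ (Y' := fun v => (B v.2, v.1)) fun v w h => ?_)
    · rw [cent_slice hP hQ]
      calc cent Q (pairT σ e ψ r t) B = ∑ u, P u * cent Q (pairT σ e ψ r t) B := by
            rw [← sum_mul, hP1, one_mul]
        _ ≤ _ := sum_le_sum fun u _ => mul_le_mul_of_nonneg_left
            (cent_mono_left hQ fun v w h _ => ?_) (hP u)
      simp only [TT, pairT, trans_join, smul_eq_mul, Prod.mk.injEq, add_right_inj] at h ⊢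
      exact ⟨mul_left_cancel₀ (pslope_ne σ e u) h.1,
        mul_left_cancel₀ (abs_pos.1 (G.slope_pos u)) h.2⟩
    · simp only [Prod.mk.injEq] at h
      simp [h.1, h.2]
  -- the formal place against the cell
  have g1 : cent P (fun u => trans ps ψ u) s ≤ cent P cl s + cent P (fun u => trans ps ψ u) c :=
    cent_le_add hP _ cl s
  have g2 := mul_le_mul_of_nonneg_left g1 hκ.le
  rw [hinj] at g2
  change (1 - κ) * cent P cl s + κ * cent P (fun u => trans ps ψ u) s - _ - _ + _ ≤
    cent PQ TT (fun v => (s v.1, B v.2))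
  rw [c2] at c1
  rw [c4] at c3
  linarith

theorem formal_gain (p : ι → ℝ) (σ : ι → Bool) (e : ι → ℕ) (he : ∀ i, 0 < e i) (q0 : ℕ)
    (q T δ : ℝ) (hδ : 0 < δ) :
    ∃ κ : ℝ, 0 < κ ∧ κ ≤ 1 ∧ ∃ C : ℝ, ∀ (r t : ι → ℝ) (a : ℝ), Good p r t a q T →
      (∀ (n : ℕ) (v w : Fin n → ι),
        slope r v = slope r w ↔ slope (pslope σ e) v = slope (pslope σ e) w) →
      ∀ ψ : ι → Polynomial ℤ, ∀ m : ℕ, 0 < m →
        (∀ v w : Fin m → ι, slope (pslope σ e) v = slope (pslope σ e) w →
          (trans (pslope σ e) ψ v - trans (pslope σ e) ψ w).natDegree < q0 * (m + 1)) →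
        ∀ M : ℕ, 0 < M →
          (M : ℝ) * ((1 - κ) * cent (wt (n := m) p)
                (fun w => ⌊trans r t w / |slope r w|⌋) (fun w => slope r w) +
              κ * cent (wt (n := m) p) (fun w => trans (pslope σ e) ψ w) (fun w => slope r w) -
              κ * δ * ((m : ℝ) + 1) - C) ≤
            (m : ℝ) * ent (wt (n := M) p)
              (fun w => (slope (pslope σ e) w, trans (pslope σ e) ψ w, trans r t w)) := by
  obtain ⟨L, hL, hLι⟩ : ∃ L : ℝ, 0 < L ∧ Real.log (Fintype.card ι) ≤ L :=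
    ⟨max 1 (Real.log (Fintype.card ι)), lt_max_of_lt_left one_pos, le_max_right _ _⟩
  obtain ⟨κ, hκ, hκ1, hstep⟩ := block_step L (δ / ((q0 : ℝ) + 1)) hL hLι (by positivity)
  refine ⟨κ, hκ, hκ1, Real.log (1 + 2 * radius q T + 3),
    fun r t a G hsl ψ m hm hdeg M hM => ?_⟩
  have hp : ∀ i, 0 ≤ p i := fun i => (G.pos i).le
  set N := q0 * (m + 1)
  set per := (1 - κ) * cent (wt (n := m) p)
        (fun w => ⌊trans r t w / |slope r w|⌋) (fun w => slope r w) +
      κ * cent (wt (n := m) p) (fun w => trans (pslope σ e) ψ w) (fun w => slope r w) -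
      κ * δ * ((m : ℝ) + 1) - Real.log (1 + 2 * radius q T + 3)
  set E := ent (wt (n := M) p) (triple σ e ψ r t)
  change (M : ℝ) * per ≤ (m : ℝ) * E
  -- the information of the blocks
  let Φ : ℕ → ℝ := fun K =>
    cent (wt (n := m * K) p) (pairT σ e ψ r t) (blockSlopes r m K)
  have hΦ : ∀ K, N ≤ m * K → per + Φ K ≤ Φ (K + 1) := fun K hK => by
    have h := hstep p r t a q T G σ e he hsl ψ m (m * K) N hK hdeg (blockSlopes r m K)
    have e1 : Φ (K + 1) = cent (prodW (wt (n := m) p) (wt (n := m * K) p))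
        (fun v => pairT σ e ψ r t (joinEquiv ι (m * K) m v))
        (fun v => (slope r v.1, blockSlopes r m K v.2)) := by
      simp only [Φ]
      rw [← cent_join p (m * K) m (pairT σ e ψ r t) (blockSlopes r m (K + 1))]
      refine cent_congr_right _ fun v w => ?_
      simp only [blockSlopes, Equiv.symm_apply_apply, List.cons.injEq, Prod.mk.injEq]
    have e2 : δ / ((q0 : ℝ) + 1) * N ≤ δ * ((m : ℝ) + 1) := by
      rw [div_mul_eq_mul_div, div_le_iff₀ (by positivity)]
      simp only [N]; push_cast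
      nlinarith [mul_nonneg hδ.le (by positivity : (0 : ℝ) ≤ (m : ℝ) + 1)]
    have := mul_le_mul_of_nonneg_left e2 hκ.le
    simp only [Φ] at e1 h ⊢
    linarith
  have hsum : ∀ j : ℕ, (j : ℝ) * per ≤ Φ (N + j) := by
    intro j
    induction j with
    | zero => simpa [Φ] using cent_nonneg (wt_nonneg hp) _ _
    | succ j ih =>
      have := hΦ (N + j) ((Nat.le_mul_of_pos_left N hm).trans
        (Nat.mul_le_mul_left m (Nat.le_add_right N j)))
      push_cast
      rw [← Nat.add_assoc]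
      linarith
  have hEnn : 0 ≤ E := ent_nonneg (wt_nonneg hp) _
  rcases le_or_gt per 0 with hper | hper
  · nlinarith [mul_nonneg (Nat.cast_nonneg (α := ℝ) m) hEnn, Nat.cast_nonneg (α := ℝ) M]
  by_contra hlt
  push Not at hlt
  obtain ⟨j, hj⟩ := exists_nat_gt ((N : ℝ) * per / ((M : ℝ) * per - (m : ℝ) * E))
  rw [div_lt_iff₀ (by linarith)] at hj
  set K' := M * (j + N + 1)
  have hK' : N ≤ K' := (by omega : N ≤ j + N + 1).trans (Nat.le_mul_of_pos_left _ hM)
  have h1 := hsum (K' - N)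
  rw [Nat.add_sub_cancel' hK', Nat.cast_sub hK'] at h1
  have h2 : Φ K' ≤ ent (wt (n := m * K') p) (triple σ e ψ r t) :=
    (cent_le_ent (wt_nonneg hp) _ _).trans
      (cent_mono_left (wt_nonneg hp) fun v w h _ => (Prod.mk.inj h).2)
  have h3 : ent (wt (n := m * K') p) (triple σ e ψ r t) ≤ (m : ℝ) * ((j : ℝ) + N + 1) * E := by
    obtain ⟨b, hb⟩ : ∃ b, m * (j + N + 1) = b + 1 :=
      ⟨m * (j + N + 1) - 1, (Nat.sub_add_cancel (Nat.mul_pos hm (Nat.succ_pos _))).symm⟩
    rw [show m * K' = M * (b + 1) by rw [← hb]; simp only [K']; ring]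
    refine (triple_mul hp G.sum_one σ e ψ hsl M b).trans (le_of_eq ?_)
    have : (m : ℝ) * ((j : ℝ) + N + 1) = (b : ℝ) + 1 := by exact_mod_cast hb
    rw [this]
  simp only [K'] at h1
  push_cast at h1
  nlinarith [mul_nonneg (by linarith : (0 : ℝ) ≤ (M : ℝ) * per - (m : ℝ) * E)
    (by positivity : (0 : ℝ) ≤ (N : ℝ) + 1)]

end

end Vale.Agent.P114.Trans
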