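import Vale.Agent.P114.Trans.Perturb
import Vale.Agent.P114.Trans.Formal

/-! # P114, transcendental slopes: small spans lose no entropy rate -/

namespace Vale.Agent.P114.Trans

noncomputable section

open scoped Classical Polynomial Matrix
open Finset Filter

variable {ι : Type} [Fintype ι] {k : ℕ} {K : Type} [Field K] {emb : K →+* ℝ} {r : ι → K}
  {c : ι → Fin k → K} {σ : ι → Bool} {e : ι → ℕ} {cP : ι → Fin k → Polynomial ℤ}
  {jm : Polynomial ℤ →+* K} {J : ℝ} {p : ι → ℝ} {τ : Fin k → ℝ} {a q T : ℝ}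

/-- The rate of the small scale. -/
def qsmall (emb : K →+* ℝ) (r : ι → K) (c : ι → Fin k → K) (a q J : ℝ) : ℝ :=
  2 * J + (-Real.log a +
    Real.log ((4 * ((k : ℝ) * coordB emb r c q) + 4) * (cramer emb r c q ^ 2 + 1))) / Real.log 2

omit [Fintype ι] in
theorem trans_lin (r : ι → Polynomial ℤ) (c : ι → Fin k → Polynomial ℤ)
    (φ : (Fin k → Polynomial ℤ) →ₗ[Polynomial ℤ] Polynomial ℤ) :
    ∀ {n : ℕ} (w : Fin n → ι), trans r (fun i => φ (c i)) w = φ (trans r c w)
  | 0, w => by simp [trans]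
  | n + 1, w => by rw [trans, trans, trans_lin r c φ (Fin.tail w), map_add, map_smul]

theorem coordB_nonneg (G : Good p (fun i => emb (r i)) (fun i => dotp emb (c i) τ) a q T) :
    0 ≤ coordB emb r c q :=
  div_nonneg (sum_nonneg fun i _ => sum_nonneg fun j _ => abs_nonneg _) (by linarith [G.q_lt])

theorem cramer_nonneg : 0 ≤ cramer emb r c q := by
  have : 0 ≤ rowB emb r c q := le_trans zero_le_one one_le_rowB
  rw [cramer]; positivity

/-- The two parts of the small rate. -/
theorem qsmall_spec (G : Good p (fun i => emb (r i)) (fun i => dotp emb (c i) τ) a q T)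
    (ha1 : a ≤ 1) (hJ : 0 ≤ J) :
    J < qsmall emb r c a q J ∧ ∀ m : ℕ,
      cramer emb r c q * (Real.exp (J * W (m + 1)) *
          (cramer emb r c q * Real.exp (-((qsmall emb r c a q J - J) * W (m + 1))))) ≤
        a ^ (m + 1) / (4 * ((k : ℝ) * coordB emb r c q) + 4) := by
  set Cr := cramer emb r c q
  set U := 4 * ((k : ℝ) * coordB emb r c q) + 4
  set Q := qsmall emb r c a q J with hQ
  have hB := coordB_nonneg G
  have hU : 4 ≤ U := by simp only [U]; nlinarith [Nat.cast_nonneg (α := ℝ) k]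
  set Z0 := U * (Cr ^ 2 + 1)
  have hX : 1 < Z0 := by
    simp only [Z0]; nlinarith [sq_nonneg Cr]
  have hlX : 0 < Real.log Z0 := Real.log_pos hX
  have hla : Real.log a ≤ 0 := Real.log_nonpos G.a_pos.le ha1
  have hl2 := Real.log_pos (by norm_num : (1 : ℝ) < 2)
  have hQ1 : (Q - 2 * J) * Real.log 2 = -Real.log a + Real.log Z0 := by
    rw [show Q = 2 * J + (-Real.log a + Real.log Z0) / Real.log 2 from rfl]
    field_simp; ring
  have hpos : 0 < Q - 2 * J := by
    have : 0 < (Q - 2 * J) * Real.log 2 := by rw [hQ1]; linarith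
    exact (mul_pos_iff_of_pos_right hl2).1 this
  refine ⟨by linarith, fun m => ?_⟩
  have h1 : Real.exp (J * W (m + 1)) * Real.exp (-((Q - J) * W (m + 1))) ≤ a ^ (m + 1) / Z0 := by
    rw [← Real.exp_add, ← Real.le_log_iff_exp_le (div_pos (pow_pos G.a_pos _) (by linarith)),
      Real.log_div (pow_pos G.a_pos _).ne' (by linarith), Real.log_pow]
    have h2 := mul_le_mul_of_nonneg_left (W_ge (m + 1)) hpos.le
    have h3 : ((m : ℝ) + 2) * (-Real.log a + Real.log Z0) ≤ (Q - 2 * J) * W (m + 1) := by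
      rw [← hQ1]; push_cast at h2; linarith
    push_cast
    have : (0 : ℝ) ≤ m := Nat.cast_nonneg m
    nlinarith
  calc Cr * (Real.exp (J * W (m + 1)) * (Cr * Real.exp (-((Q - J) * W (m + 1)))))
      = Cr ^ 2 * (Real.exp (J * W (m + 1)) * Real.exp (-((Q - J) * W (m + 1)))) := by ring
    _ ≤ (Cr ^ 2 + 1) * (a ^ (m + 1) / Z0) :=
        mul_le_mul (by linarith) h1 (by positivity) (by positivity)
    _ = a ^ (m + 1) / U := by
        simp only [Z0]
        field_simp

theorem avoid2 (S : Sys emb r c σ e cP jm J)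
    (G : Good p (fun i => emb (r i)) (fun i => dotp emb (c i) τ) a q T)
    (hτ : ∀ v : Fin k → K, dotp emb v τ = 0 → v = 0) {Q : ℝ} (hQ : J < Q) (M0 : ℕ) :
    ∀ᶠ n : ℕ in atTop, ∀ (m : Fin M0) (v w : Fin m.1 → ι), slope r v = slope r w →
      trans r c v - trans r c w ∈ Small2 emb r c τ Q n → trans r c v - trans r c w = 0 := by
  rw [eventually_all]; intro m
  rw [eventually_all]; intro v
  rw [eventually_all]; intro w
  by_cases hd : trans r c v - trans r c w = 0
  · exact Eventually.of_forall fun n _ _ => hd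
  have hne : 0 < |dotp emb (trans r c v - trans r c w) τ| := abs_pos.2 fun h => hd (hτ _ h)
  have hW : Tendsto W atTop atTop :=
    tendsto_atTop_mono W_ge ((tendsto_atTop_add_const_right _ 1
      tendsto_natCast_atTop_atTop).atTop_mul_const (Real.log_pos (by norm_num)))
  have hlim : Tendsto (fun n => cramer emb r c q * Real.exp (-((Q - J) * W n))) atTop (nhds 0) := by
    simpa using ((Real.tendsto_exp_neg_atTop_nhds_zero.comp
      (hW.const_mul_atTop (sub_pos.2 hQ))).const_mul (cramer emb r c q))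
  filter_upwards [hlim.eventually (gt_mem_nhds hne)] with n hn hs hS
  have := small2_bound S G Q ⟨v, w, hs, rfl⟩ hS
  linarith

/-- The statement proved by induction on the dimension. -/
def Claim2 (p : ι → ℝ) (emb : K →+* ℝ) (r : ι → K) (c : ι → Fin k → K) (τ : Fin k → ℝ)
    (Q D : ℝ) (j : ℕ) : Prop :=
  ∃ ε > 0, ∃ N : ℕ, ∀ n ≥ N, ∀ L : Submodule K (Fin k → K), Module.finrank K L ≤ j →
    L ≤ Small2 emb r c τ Q n → L = Submodule.span K (Diff r c n ∩ ↑L) →
      D * lyap p (fun i => emb (r i)) + ε ≤ hrate p r c L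

theorem claim2_step [Nonempty ι] (S : Sys emb r c σ e cP jm J)
    (hG : ∀ g : Fin k → ℝ, (∀ i, |g i - τ i| ≤ 1) →
      Good p (fun i => emb (r i)) (fun i => dotp emb (c i) g) a q T)
    (ha1 : a ≤ 1) (hτ : ∀ v : Fin k → K, dotp emb v τ = 0 → v = 0) {D : ℝ}
    (hlow : Low p (fun i => emb (r i)) (fun i => dotp emb (c i) τ) q D)
    (hDh : D * lyap p (fun i => emb (r i)) < hrate p r c ⊥)
    {j : ℕ} (ih : Claim2 p emb r c τ (qsmall emb r c a q J) D j) :
    Claim2 p emb r c τ (qsmall emb r c a q J) D (j + 1) := by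
  obtain ⟨εj, hεj, Nj, hclaim⟩ := ih
  have G := hG τ fun i => by simp
  set r' := fun i => emb (r i) with hr'
  set χ := lyap p r'
  set Q := qsmall emb r c a q J
  obtain ⟨hQJ, hQg⟩ := qsmall_spec G ha1 S.J_nonneg
  set q0 := (k + 2) * degD k e cP
  obtain ⟨κ, hκ0, hκ1, C, hkey⟩ := formal_gain p σ e S.e_pos q0 q T (εj / 16) (by positivity)
  obtain ⟨C1, hC1⟩ := coarse_lower G hlow (show 0 < κ * εj / 8 by positivity)
  obtain ⟨C4, hC4⟩ := log_le_linear (show 0 < εj / 8 / ((Fintype.card ι : ℝ) + 1) by positivity)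
  obtain ⟨M0, hM0⟩ := exists_nat_ge ((|C| + |C1| + |(Fintype.card ι : ℝ) * C4|) / (κ * εj / 8))
  rw [div_le_iff₀ (by positivity)] at hM0
  obtain ⟨N1, hN1⟩ := eventually_atTop.1 (avoid2 S G hτ hQJ (M0 + 3))
  refine ⟨min (hrate p r c ⊥ - D * χ) (κ * εj / 2), lt_min (by linarith) (by positivity), max Nj N1,
    fun n hn L hdimL hLs hLspan => ?_⟩
  have hnNj : Nj ≤ n := (le_max_left _ _).trans hn
  have hnN1 : N1 ≤ n := (le_max_right _ _).trans hn
  by_cases hLbot : L = ⊥
  · rw [hLbot]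
    linarith [min_le_left (hrate p r c ⊥ - D * χ) (κ * εj / 2)]
  have hex : ∃ m, Submodule.span K (Diff r c m ∩ ↑L) = L := ⟨n, hLspan.symm⟩
  set n0 := Nat.find hex
  have hn0 : Submodule.span K (Diff r c n0 ∩ ↑L) = L := Nat.find_spec hex
  have hn0n : n0 ≤ n := Nat.find_min' hex hLspan.symm
  have hn0big : M0 + 3 ≤ n0 := by
    by_contra hlt
    push Not at hlt
    refine hLbot ?_
    rw [← hn0, Submodule.span_eq_bot]
    rintro d ⟨⟨v, w, hs, rfl⟩, hdL⟩
    exact hN1 n hnN1 ⟨n0, hlt⟩ v w hs (hLs hdL)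
  obtain ⟨m, hm⟩ : ∃ m, n0 = m + 1 := ⟨n0 - 1, by omega⟩
  have hr0 : ∀ i, r i ≠ 0 := fun i h => by
    have := G.a_le i
    simp only [r', h, map_zero, abs_zero] at this
    linarith [G.a_pos]
  set L1 := Submodule.span K (Diff r c m ∩ ↑L) with hL1
  have hL1L : L1 ≤ L := Submodule.span_le.2 Set.inter_subset_right
  have hL1ne : L1 ≠ L := Nat.find_min hex (show m < n0 by omega)
  have hfin : Module.finrank K L1 ≤ j := by
    have := Submodule.finrank_lt_finrank_of_lt (lt_of_le_of_ne hL1L hL1ne)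
    omega
  have hL1span : L1 = Submodule.span K (Diff r c n ∩ ↑L1) := by
    refine le_antisymm (le_trans (Submodule.span_mono ?_)
      (span_diff_mono r hr0 c L1 (show m ≤ n by omega))) (Submodule.span_le.2 Set.inter_subset_right)
    exact fun d hd => ⟨hd.1, Submodule.subset_span hd⟩
  have hh1 := hclaim n hnNj L1 hfin (hL1L.trans hLs) hL1span
  obtain ⟨g, hg0, hgΔ, φ, hφ0, hφsep⟩ := perturb2 S G L m (by rw [← hm, hn0])
    (cramer emb r c q * Real.exp (-((Q - J) * W (m + 1)))) (mul_nonneg cramer_nonneg (Real.exp_nonneg _))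
    fun l hl hlL => by
      refine (small2_bound S G Q hl (hLs hlL)).trans (mul_le_mul_of_nonneg_left
        (Real.exp_le_exp.2 ?_) cramer_nonneg)
      have := mul_le_mul_of_nonneg_left (W_mono (show m + 1 ≤ n by omega)) (sub_nonneg.2 hQJ.le)
      linarith
  have hΔ : ∀ i, |g i - τ i| ≤ a ^ (m + 1) / (4 * ((k : ℝ) * coordB emb r c q) + 4) := fun i =>
    (hgΔ i).trans (hQg m)
  have hB := coordB_nonneg G
  have Gg := hG g fun i => (hΔ i).trans (by
    rw [div_le_one (by positivity)]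
    exact (pow_le_one₀ G.a_pos.le ha1).trans (by nlinarith [Nat.cast_nonneg (α := ℝ) k]))
  have hp : ∀ i, 0 ≤ p i := fun i => (G.pos i).le
  set rP := pslope σ e
  set ψ : ι → Polynomial ℤ := fun i => φ (cP i)
  have hsl : ∀ (l : ℕ) (v w : Fin l → ι),
      slope r v = slope r w ↔ slope rP v = slope rP w := fun l v w => by
    rw [S.r_eq, slope_map, slope_map]; exact S.inj.eq_iff
  have hiff : ∀ (l : ℕ) (v w : Fin l → ι),
      slope r' v = slope r' w ↔ slope rP v = slope rP w := fun l v w => by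
    rw [slope_emb, slope_emb, emb.injective.eq_iff]; exact hsl l v w
  have hψ : ∀ {l : ℕ} (v w : Fin l → ι),
      trans rP ψ v - trans rP ψ w = φ (trans rP cP v - trans rP cP w) := fun v w => by
    rw [map_sub, trans_lin, trans_lin]
  have hvm : ∀ {l : ℕ} (v w : Fin l → ι),
      vmap jm (trans rP cP v - trans rP cP w) = trans r c v - trans r c w := fun v w => by
    conv_rhs => rw [S.r_eq, S.c_eq, trans_map, trans_map]
    funext b
    simp [vmap, rP]
  have hdeg : ∀ v w : Fin m → ι, slope rP v = slope rP w →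
      (trans rP ψ v - trans rP ψ w).natDegree < q0 * (m + 1) := fun v w hs => by
    rw [hψ]; exact (hφsep _ ⟨v, w, hs, rfl⟩).1
  have hk := hkey r' (fun i => dotp emb (c i) g) a Gg hiff ψ m (by omega) hdeg
  set A := cent (wt (n := m) p)
    (fun w => ⌊trans r' (fun i => dotp emb (c i) g) w / |slope r' w|⌋) (fun w => slope r' w)
  set F := cent (wt (n := m) p) (fun w => trans rP ψ w) (fun w => slope r' w)
  have hper : (1 - κ) * A + κ * F - κ * (εj / 16) * ((m : ℝ) + 1) - C ≤ m * hrate p r c L := by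
    rw [← div_le_iff₀' (by exact_mod_cast (show 0 < m by omega))]
    refine le_ciInf fun M => ?_
    rw [div_le_div_iff₀ (by exact_mod_cast (show 0 < m by omega)) (by positivity)]
    have h1 := hk (M + 1) (by omega)
    have h2 : ent (wt (n := M + 1) p) (fun w => (slope rP w, trans rP ψ w,
        trans r' (fun i => dotp emb (c i) g) w)) ≤ hent p r c L (M + 1) := by
      refine cent_mono_left (wt_nonneg hp) fun v w h _ => ?_
      simp only [cls, Prod.mk.injEq, Submodule.Quotient.eq] at h ⊢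
      refine ⟨(hsl _ v w).1 h.1, sub_eq_zero.1 ?_, sub_eq_zero.1 ?_⟩
      · rw [hψ]; exact hφ0 _ (by rw [hvm]; exact h.2)
      · rw [trans_dotp, trans_dotp, ← dotp_sub]; exact hg0 _ h.2
    have := mul_le_mul_of_nonneg_left h2 (Nat.cast_nonneg (α := ℝ) m)
    push_cast at h1 this ⊢
    linarith
  have hA : (m : ℝ) * (D * χ * 1 - κ * εj / 8) - C1 ≤ A := by
    rw [mul_one]; exact hC1 m g fun v w _ => close_of_small G ha1 hΔ v w
  have hF : (m : ℝ) * (D * χ * 1 + εj - εj / 8) - (Fintype.card ι : ℝ) * C4 ≤ F := by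
    have h1 := mul_hrate_le (r := r) (c := c) hp L1 m
    have h2 : hent p r c L1 m - ent (wt (n := m) p) (fun w => slope r w) ≤ F := by
      rw [hent_eq hp, add_sub_cancel_left]
      refine le_trans ?_ (le_of_eq (cent_congr_right (Y := fun w => slope r w) _ fun v w => by
        simp [r', slope_emb, emb.injective.eq_iff]))
      refine cent_mono_left (wt_nonneg hp) fun v w h hs => ?_
      rw [Submodule.Quotient.eq]
      have hd : trans rP cP v - trans rP cP w ∈ DiffP rP cP m := ⟨v, w, (hsl _ v w).1 hs, rfl⟩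
      refine Submodule.subset_span ⟨⟨v, w, hs, rfl⟩, ?_⟩
      rw [← hvm]
      exact (hφsep _ hd).2 (by rw [← hψ, h, sub_self])
    have hS := ent_slope_le hp G.sum_one r m
    have hS' := mul_le_mul_of_nonneg_left (hC4 m) (Nat.cast_nonneg (α := ℝ) (Fintype.card ι))
    have h8 : (Fintype.card ι : ℝ) * (εj / 8 / ((Fintype.card ι : ℝ) + 1) * m) ≤ εj / 8 * m := by
      rw [← mul_assoc, ← mul_div_assoc]
      refine mul_le_mul_of_nonneg_right ?_ (Nat.cast_nonneg m)
      rw [div_le_iff₀ (by positivity)]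
      linarith
    have := mul_le_mul_of_nonneg_left hh1 (Nat.cast_nonneg (α := ℝ) m)
    linarith
  have hm1 : (1 : ℝ) ≤ m := by exact_mod_cast (by omega : 1 ≤ m)
  have hbig : |C| + |C1| + |(Fintype.card ι : ℝ) * C4| ≤ κ * εj / 8 * m := by
    have hmM : (M0 : ℝ) ≤ m := by exact_mod_cast (by omega : M0 ≤ m)
    have := mul_le_mul_of_nonneg_left hmM (show 0 ≤ κ * εj / 8 by positivity)
    linarith
  have := combine (E := hrate p r c L) (L := κ * (εj / 16) * ((m : ℝ) + 1)) hκ0 hκ1 hεj hm1 hA hF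
    (le_of_eq (by ring)) (by linarith) hbig
  linarith [min_le_right (hrate p r c ⊥ - D * χ) (κ * εj / 2)]

theorem claim2_all [Nonempty ι] (S : Sys emb r c σ e cP jm J)
    (hG : ∀ g : Fin k → ℝ, (∀ i, |g i - τ i| ≤ 1) →
      Good p (fun i => emb (r i)) (fun i => dotp emb (c i) g) a q T)
    (ha1 : a ≤ 1) (hτ : ∀ v : Fin k → K, dotp emb v τ = 0 → v = 0) {D : ℝ}
    (hlow : Low p (fun i => emb (r i)) (fun i => dotp emb (c i) τ) q D)
    (hDh : D * lyap p (fun i => emb (r i)) < hrate p r c ⊥) :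
    ∀ j, Claim2 p emb r c τ (qsmall emb r c a q J) D j
  | 0 => ⟨hrate p r c ⊥ - D * lyap p (fun i => emb (r i)), by linarith, 0, fun n _ L hL _ _ => by
      rw [Submodule.finrank_eq_zero.1 (Nat.le_zero.1 hL)]; linarith⟩
  | j + 1 => claim2_step S hG ha1 hτ hlow hDh (claim2_all S hG ha1 hτ hlow hDh j)

end

end Vale.Agent.P114.Trans
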