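import Vale.Agent.P114.Words
import Mathlib.Algebra.Polynomial.AlgebraMap
import Mathlib.LinearAlgebra.Matrix.Determinant.Basic
import Mathlib.Analysis.SpecialFunctions.Log.Basic

/-! # P114, transcendental slopes: minors and well separated parameters -/

namespace Vale.Agent.P114.Trans

noncomputable section

open Polynomial

variable {ι : Type} {k : ℕ}

/-- The scale exponent of level `n`. -/
def W (n : ℕ) : ℝ := ((n : ℝ) + 1) * Real.log ((n : ℝ) + 2)

/-- The formal slope `± X ^ e`. -/
def pslope (σ : ι → Bool) (e : ι → ℕ) (i : ι) : Polynomial ℤ :=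
  (if σ i then 1 else -1) * X ^ e i

/-- Differences of formal translation vectors of two words with equal formal slopes. -/
def DiffP (r : ι → Polynomial ℤ) (c : ι → Fin k → Polynomial ℤ) (n : ℕ) :
    Set (Fin k → Polynomial ℤ) :=
  {d | ∃ v w : Fin n → ι, slope r v = slope r w ∧ d = trans r c v - trans r c w}

/-- Determinants with rows taken from the level `n` differences and the unit vectors. -/
def Minor (r : ι → Polynomial ℤ) (c : ι → Fin k → Polynomial ℤ) (n : ℕ) : Set (Polynomial ℤ) :=
  {P | ∃ B : Matrix (Fin k) (Fin k) (Polynomial ℤ),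
    (∀ a, B a ∈ DiffP r c n ∨ ∃ j, B a = Pi.single j 1) ∧ P = B.det}

/-- The nonzero minors of every level are not too small at `lam`. -/
def GoodLam (r : ι → Polynomial ℤ) (c : ι → Fin k → Polynomial ℤ) (lam : ℝ) : Prop :=
  ∃ J : ℝ, 0 ≤ J ∧ ∀ n : ℕ, ∀ P ∈ Minor r c n, P ≠ 0 →
    Real.exp (-(J * W n)) ≤ |aeval lam P|

end

end Vale.Agent.P114.Trans
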