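import Vale.Agent.P114.Trans.Defs
import Mathlib.Topology.MetricSpace.HausdorffDimension
import Mathlib.RingTheory.RootsOfUnity.Complex
import Mathlib.RingTheory.Polynomial.Tower
import Mathlib.Analysis.SpecificLimits.Basic

/-! # P114, transcendental slopes: the exceptional parameters have dimension zero

A nonzero integer polynomial bounded by `H` on the unit circle is not small at `j` separated
points of `[η, b]` once `b ^ j H` is small: divide by the Blaschke factors one at a time. So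
the sublevel set of each minor is covered by few tiny intervals.
-/

namespace Vale.Agent.P114.Trans

noncomputable section

open Polynomial MeasureTheory Filter Topology
open scoped ENNReal NNReal

/-- The complex value of an integer polynomial is bounded by `H` on the unit circle. -/
def CircleBound (P : Polynomial ℤ) (H : ℝ) : Prop :=
  ∀ z : ℂ, ‖z‖ = 1 → ‖aeval z P‖ ≤ H

/-- The constant coefficient is at most the maximum on the unit circle. -/
theorem norm_eval_zero_le (Q : Polynomial ℂ) {H : ℝ} (hH : ∀ z : ℂ, ‖z‖ = 1 → ‖Q.eval z‖ ≤ H) :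
    ‖Q.eval 0‖ ≤ H := by
  set N := Q.natDegree + 1
  have hw := Complex.isPrimitiveRoot_exp N (Nat.succ_ne_zero _)
  set w := Complex.exp (2 * Real.pi * Complex.I / N)
  have hN : (0 : ℝ) < N := by positivity
  have hsum : ∑ m ∈ Finset.range N, Q.eval (w ^ m) = (N : ℂ) * Q.eval 0 := by
    simp only [eval_eq_sum_range, ← pow_mul]
    rw [Finset.sum_comm, Finset.sum_eq_single 0]
    · rw [Finset.mul_sum, Finset.sum_eq_single (a := 0) (f := fun i => (N : ℂ) * (Q.coeff i * (0 : ℂ) ^ i))]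
      · simp
      · intro i _ hi; simp [zero_pow hi]
      · simp
    · intro i hi hi0
      have hne : w ^ i ≠ 1 := hw.pow_ne_one_of_pos_of_lt hi0 (Finset.mem_range.1 hi)
      have h1 : (w ^ i) ^ N = 1 := by rw [← pow_mul, mul_comm, pow_mul, hw.pow_eq_one, one_pow]
      rw [← Finset.mul_sum]
      simp only [mul_comm _ i, pow_mul]
      rw [geom_sum_eq hne, h1]
      simp
    · simp
  have h := norm_sum_le (Finset.range N) fun m => Q.eval (w ^ m)
  have hb : ∑ m ∈ Finset.range N, ‖Q.eval (w ^ m)‖ ≤ N * H := by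
    refine (Finset.sum_le_sum fun m _ => hH _ ?_).trans (by simp)
    rw [norm_pow, Complex.norm_eq_one_of_pow_eq_one hw.pow_eq_one (Nat.succ_ne_zero _), one_pow]
  rw [hsum, norm_mul, Complex.norm_natCast] at h
  exact le_of_mul_le_mul_left (h.trans hb) hN

/-- Small values at separated points of `[0, b]` force a small value at `0`. -/
theorem interp {ρ b : ℝ} (hρ : 0 < ρ) (hρ1 : ρ ≤ 1) (hb1 : b ≤ 1) :
    ∀ (j : ℕ) (x : Fin j → ℝ) (Q : Polynomial ℂ) (H δ : ℝ), 0 ≤ δ →
      (∀ a, 0 ≤ x a ∧ x a ≤ b) → (∀ a a', a ≠ a' → ρ ≤ |x a - x a'|) →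
      (∀ z : ℂ, ‖z‖ = 1 → ‖Q.eval z‖ ≤ H) → (∀ a, ‖Q.eval (x a : ℂ)‖ ≤ δ) →
      ‖Q.eval 0‖ ≤ b ^ j * H + (4 / ρ) ^ j * δ := by
  intro j
  induction j with
  | zero =>
    intro x Q H δ hδ _ _ hH _
    simp only [pow_zero, one_mul]
    linarith [norm_eval_zero_le Q hH]
  | succ j ih =>
    intro x Q H δ hδ hx hsep hH hval
    set x₀ : ℂ := (x 0 : ℂ)
    have hb0 : 0 ≤ b := (hx 0).1.trans (hx 0).2
    set S := Q /ₘ (X - C x₀)
    have hS : ∀ z : ℂ, (z - x₀) * S.eval z = Q.eval z - Q.eval x₀ := fun z => by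
      have h := congrArg (Polynomial.eval z) (modByMonic_add_div Q (X - C x₀))
      rw [modByMonic_X_sub_C_eq_C_eval] at h
      simp only [eval_add, eval_C, eval_mul, eval_sub, eval_X] at h
      linear_combination h
    set R := S * (1 - C x₀ * X)
    have hR : ∀ z : ℂ, R.eval z = S.eval z * (1 - x₀ * z) := fun z => by simp [R]
    have hxle : ∀ a, ‖((x a : ℝ) : ℂ)‖ ≤ b := fun a => by
      rw [Complex.norm_real, Real.norm_eq_abs, abs_of_nonneg (hx a).1]; exact (hx a).2
    have hH' : ∀ z : ℂ, ‖z‖ = 1 → ‖R.eval z‖ ≤ H + δ := fun z hz => by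
      have hsw : ‖1 - x₀ * z‖ = ‖z - x₀‖ := by
        have hc : (starRingEnd ℂ) z * z = 1 := by
          rw [mul_comm, Complex.mul_conj, Complex.normSq_eq_norm_sq, hz]; simp
        have : (1 - x₀ * z) = ((starRingEnd ℂ) z - x₀) * z := by rw [sub_mul, hc]
        rw [this, norm_mul, hz, mul_one, ← Complex.norm_conj (z - x₀), map_sub]
        congr 2
        simp [x₀]
      rw [hR, norm_mul, hsw, mul_comm, ← norm_mul, hS]
      exact (norm_sub_le _ _).trans (add_le_add (hH z hz) (hval 0))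
    have hval' : ∀ a : Fin j, ‖R.eval (x a.succ : ℂ)‖ ≤ 2 * δ / ρ := fun a => by
      have hd : ρ ≤ ‖(x a.succ : ℂ) - x₀‖ := by
        rw [← Complex.ofReal_sub, Complex.norm_real, Real.norm_eq_abs]
        exact hsep _ _ (Fin.succ_ne_zero a)
      have h1 : ‖(x a.succ : ℂ) - x₀‖ * ‖S.eval (x a.succ : ℂ)‖ ≤ 2 * δ := by
        rw [← norm_mul, hS]
        exact (norm_sub_le _ _).trans (by linarith [hval a.succ, hval 0])
      have h2 : ρ * ‖S.eval (x a.succ : ℂ)‖ ≤ 2 * δ :=
        (mul_le_mul_of_nonneg_right hd (norm_nonneg _)).trans h1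
      have h3 : ‖1 - x₀ * (x a.succ : ℂ)‖ ≤ 1 := by
        rw [← Complex.ofReal_mul, ← Complex.ofReal_one, ← Complex.ofReal_sub, Complex.norm_real,
          Real.norm_eq_abs, abs_le]
        have h4 := mul_nonneg (hx 0).1 (hx a.succ).1
        have h5 := mul_le_one₀ ((hx 0).2.trans hb1) (hx a.succ).1 ((hx a.succ).2.trans hb1)
        constructor <;> linarith
      rw [hR, norm_mul, le_div_iff₀ hρ]
      calc ‖S.eval (x a.succ : ℂ)‖ * ‖1 - x₀ * (x a.succ : ℂ)‖ * ρ
          ≤ ‖S.eval (x a.succ : ℂ)‖ * 1 * ρ :=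
            mul_le_mul_of_nonneg_right (mul_le_mul_of_nonneg_left h3 (norm_nonneg _)) hρ.le
        _ ≤ 2 * δ := by linarith
    have hi := ih (fun a => x a.succ) R (H + δ) (2 * δ / ρ) (by positivity) (fun a => hx _)
      (fun a a' h => hsep _ _ fun hh => h (Fin.succ_inj.1 hh)) hH' hval'
    rw [hR, mul_zero, sub_zero, mul_one] at hi
    have h0 : Q.eval 0 = Q.eval x₀ - x₀ * S.eval 0 := by linear_combination -(hS 0)
    have hT : (4 : ℝ) ≤ (4 / ρ) ^ (j + 1) := by
      have h4 : (4 : ℝ) ≤ 4 / ρ := by rw [le_div_iff₀ hρ]; linarith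
      exact h4.trans (le_self_pow₀ (by linarith) (Nat.succ_ne_zero j))
    calc ‖Q.eval 0‖ ≤ δ + b * (b ^ j * (H + δ) + (4 / ρ) ^ j * (2 * δ / ρ)) := by
          rw [h0]
          refine (norm_sub_le _ _).trans (add_le_add (hval 0) ?_)
          rw [norm_mul]
          exact mul_le_mul (hxle 0) hi (norm_nonneg _) hb0
      _ = b ^ (j + 1) * H + (δ + b ^ (j + 1) * δ + b * ((4 / ρ) ^ (j + 1) * δ / 2)) := by ring
      _ ≤ b ^ (j + 1) * H + (4 / ρ) ^ (j + 1) * δ := by
          have hp : b ^ (j + 1) * δ ≤ δ := mul_le_of_le_one_left hδ (pow_le_one₀ hb0 hb1)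
          have hq : b * ((4 / ρ) ^ (j + 1) * δ / 2) ≤ (4 / ρ) ^ (j + 1) * δ / 2 :=
            mul_le_of_le_one_left (by positivity) hb1
          have hw : 4 * δ ≤ (4 / ρ) ^ (j + 1) * δ := mul_le_mul_of_nonneg_right hT hδ
          linarith

/-- A set without `j` separated points is covered by `j` intervals. -/
theorem exists_centres {ρ : ℝ} (hρ : 0 ≤ ρ) : ∀ (j : ℕ) (S : Set ℝ),
    (∀ x : Fin j → ℝ, (∀ a, x a ∈ S) → ∃ a a', a ≠ a' ∧ |x a - x a'| < ρ) →
    ∃ c : Fin j → ℝ, ∀ y ∈ S, ∃ a, |y - c a| ≤ ρ := by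
  intro j
  induction j with
  | zero =>
    intro S h
    obtain ⟨a, -⟩ := h (fun a => a.elim0) fun a => a.elim0
    exact a.elim0
  | succ j ih =>
    intro S h
    rcases S.eq_empty_or_nonempty with hS | ⟨x₀, hx₀⟩
    · exact ⟨fun _ => 0, fun y hy => absurd hy (hS ▸ Set.notMem_empty y)⟩
    obtain ⟨c, hc⟩ := ih {y ∈ S | ρ ≤ |y - x₀|} fun x hx => by
      obtain ⟨a, a', hne, hlt⟩ := h (Fin.cons x₀ x) (Fin.cases hx₀ fun i => (hx i).1)
      induction a using Fin.cases with
      | zero =>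
        induction a' using Fin.cases with
        | zero => exact absurd rfl hne
        | succ a' =>
          rw [Fin.cons_zero, Fin.cons_succ, abs_sub_comm] at hlt
          exact absurd (hx a').2 (not_le.2 hlt)
      | succ a =>
        induction a' using Fin.cases with
        | zero =>
          rw [Fin.cons_zero, Fin.cons_succ] at hlt
          exact absurd (hx a).2 (not_le.2 hlt)
        | succ a' =>
          rw [Fin.cons_succ, Fin.cons_succ] at hlt
          exact ⟨a, a', fun h' => hne (h' ▸ rfl), hlt⟩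
    refine ⟨Fin.cons x₀ c, fun y hy => ?_⟩
    by_cases hd : ρ ≤ |y - x₀|
    · obtain ⟨a, ha⟩ := hc y ⟨hy, hd⟩
      exact ⟨a.succ, by simpa using ha⟩
    · exact ⟨0, by simpa using (not_le.1 hd).le⟩

/-- The sublevel set of a nonzero integer polynomial on `[η, b]` is covered by `j` intervals. -/
theorem sublevel {P : Polynomial ℤ} (hP : P ≠ 0) {H : ℝ} (hH : CircleBound P H) {D : ℕ}
    (hD : P.natDegree ≤ D) {η b ρ δ : ℝ} (hη : 0 < η) (hη1 : η ≤ 1) (hb1 : b ≤ 1) (hρ : 0 < ρ)
    (hρ1 : ρ ≤ 1) (hδ : 0 ≤ δ) {j : ℕ} (hsmall : b ^ j * H + (4 / ρ) ^ j * (δ / η ^ D) < 1) :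
    ∃ c : Fin j → ℝ, ∀ x ∈ Set.Icc η b, |aeval x P| < δ → ∃ a, |x - c a| ≤ ρ := by
  obtain ⟨Q, hPQ, hQ⟩ := P.exists_eq_pow_rootMultiplicity_mul_and_not_dvd hP 0
  rw [C_0, sub_zero] at hPQ hQ
  set v := P.rootMultiplicity 0
  have hQ0 : Q.coeff 0 ≠ 0 := fun h => hQ (X_dvd_iff.2 h)
  have hQn : Q ≠ 0 := fun h => hQ0 (by rw [h]; simp)
  have hv : v ≤ D := by
    refine le_trans ?_ hD
    rw [hPQ, natDegree_mul (pow_ne_zero _ X_ne_zero) hQn, natDegree_X_pow]
    omega
  set q : Polynomial ℂ := Q.map (Int.castRingHom ℂ)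
  have hq : ∀ z : ℂ, q.eval z = aeval z Q := fun z => by
    simp [q, aeval_def, eval_map]
  obtain ⟨c, hc⟩ := exists_centres hρ.le j {x | x ∈ Set.Icc η b ∧ |aeval x P| < δ} fun x hx => by
    by_contra hne
    push Not at hne
    have h := interp hρ hρ1 hb1 j x q H (δ / η ^ D) (by positivity)
      (fun a => ⟨hη.le.trans (hx a).1.1, (hx a).1.2⟩) hne (fun z hz => ?_) fun a => ?_
    · have h1 : (1 : ℝ) ≤ ‖q.eval 0‖ := by
        have : q.eval 0 = ((Q.coeff 0 : ℤ) : ℂ) := by simp [q, ← coeff_zero_eq_eval_zero]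
        rw [this, Complex.norm_intCast, ← Int.cast_abs]
        exact_mod_cast Int.one_le_abs hQ0
      linarith
    · have := hH z hz
      rw [hPQ, map_mul, map_pow, aeval_X, norm_mul, norm_pow, hz, one_pow, one_mul] at this
      rwa [hq]
    · have e : q.eval (x a : ℂ) = ((aeval (x a) Q : ℝ) : ℂ) := by
        rw [hq]
        exact aeval_algebraMap_apply ℂ (x a) Q
      rw [e, Complex.norm_real, Real.norm_eq_abs, le_div_iff₀ (by positivity)]
      have h2 := (hx a).2
      rw [hPQ, map_mul, map_pow, aeval_X, abs_mul, abs_of_pos (pow_pos (hη.trans_le (hx a).1.1) v)] at h2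
      have h3 : η ^ D ≤ x a ^ v :=
        (pow_le_pow_of_le_one hη.le hη1 hv).trans (pow_le_pow_left₀ hη.le (hx a).1.1 v)
      have h4 := mul_le_mul_of_nonneg_left h3 (abs_nonneg (aeval (x a) Q))
      linarith
  exact ⟨c, fun x hx hlt => hc x ⟨hx, hlt⟩⟩

theorem CircleBound.one_pow (e : ℕ) : CircleBound ((X : Polynomial ℤ) ^ e) 1 := fun z hz => by
  rw [map_pow, aeval_X, norm_pow, hz, _root_.one_pow]

theorem circleBound_exists (P : Polynomial ℤ) :
    ∃ H, 0 ≤ H ∧ CircleBound P H := by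
  refine ⟨∑ i ∈ Finset.range (P.natDegree + 1), |(P.coeff i : ℝ)|,
    Finset.sum_nonneg fun _ _ => abs_nonneg _, fun z hz => ?_⟩
  rw [aeval_eq_sum_range]
  refine (norm_sum_le _ _).trans (le_of_eq (Finset.sum_congr rfl fun i _ => ?_))
  rw [zsmul_eq_mul, norm_mul, norm_pow, hz, _root_.one_pow, mul_one, Complex.norm_intCast]

variable {ι : Type} {k : ℕ}

theorem slope_bound (σ : ι → Bool) (e : ι → ℕ) {E : ℕ} (hE : ∀ i, e i ≤ E) {n : ℕ} (w : Fin n → ι) :
    (slope (pslope σ e) w).natDegree ≤ n * E ∧ CircleBound (slope (pslope σ e) w) 1 := by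
  have hd : ∀ i, (pslope σ e i).natDegree ≤ E := fun i => by
    refine natDegree_mul_le.trans ?_
    have : ((if σ i then 1 else -1 : Polynomial ℤ)).natDegree = 0 := by split <;> simp
    rw [this, natDegree_X_pow, zero_add]
    exact hE i
  refine ⟨(natDegree_prod_le _ _).trans ((Finset.sum_le_sum fun a _ => hd (w a)).trans (by simp)),
    fun z hz => ?_⟩
  simp only [slope, map_prod, norm_prod]
  refine Finset.prod_le_one (fun a _ => norm_nonneg _) fun a _ => ?_
  rw [pslope, map_mul, norm_mul, map_pow, aeval_X, norm_pow, hz, one_pow, mul_one]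
  split <;> simp

theorem trans_bound (σ : ι → Bool) (e : ι → ℕ) (c : ι → Fin k → Polynomial ℤ) {E T : ℕ} {B : ℝ}
    (hE : ∀ i, e i ≤ E) (hT : ∀ i a, (c i a).natDegree ≤ T) (hB : ∀ i a, CircleBound (c i a) B) :
    ∀ {n : ℕ} (w : Fin n → ι) (a : Fin k), (trans (pslope σ e) c w a).natDegree ≤ n * E + T ∧
      CircleBound (trans (pslope σ e) c w a) (n * B) := by
  intro n
  induction n with
  | zero => intro w a; refine ⟨by simp [trans], fun z _ => by simp [trans]⟩
  | succ n ih =>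
    intro w a
    simp only [trans, Pi.add_apply, Pi.smul_apply, smul_eq_mul]
    obtain ⟨h1, h2⟩ := ih (Fin.tail w) a
    obtain ⟨h3, h4⟩ := slope_bound σ e hE (fun _ : Fin 1 => w 0)
    simp only [slope, Fin.prod_univ_one, one_mul] at h3 h4
    refine ⟨(natDegree_add_le _ _).trans (max_le ((hT _ _).trans (Nat.le_add_left _ _)) ?_),
      fun z hz => ?_⟩
    · refine natDegree_mul_le.trans ?_
      rw [add_mul, one_mul]
      omega
    · rw [map_add, map_mul]
      refine (norm_add_le _ _).trans ?_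
      rw [norm_mul, Nat.cast_add, Nat.cast_one, add_mul, one_mul, add_comm]
      exact add_le_add ((mul_le_of_le_one_left (norm_nonneg _) (h4 z hz)).trans (h2 z hz)) (hB _ _ z hz)

variable [Fintype ι]

/-- Choices of rows. -/
abbrev RowsIdx (ι : Type) (k n : ℕ) : Type := Fin k → ((Fin n → ι) × (Fin n → ι)) ⊕ Fin k

/-- The determinant of chosen rows. -/
def idxDet (r : ι → Polynomial ℤ) (c : ι → Fin k → Polynomial ℤ) {n : ℕ} (q : RowsIdx ι k n) :
    Polynomial ℤ :=
  (Matrix.of fun a => Sum.elim (fun vw => trans r c vw.1 - trans r c vw.2)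
    (fun j => Pi.single j 1) (q a)).det

omit [Fintype ι] in
theorem minor_subset (r : ι → Polynomial ℤ) (c : ι → Fin k → Polynomial ℤ) {n : ℕ} {P : Polynomial ℤ}
    (hP : P ∈ Minor r c n) : ∃ q : RowsIdx ι k n, idxDet r c q = P := by
  obtain ⟨B, hB, rfl⟩ := hP
  have hrow : ∀ a, ∃ o : ((Fin n → ι) × (Fin n → ι)) ⊕ Fin k,
      Sum.elim (fun vw => trans r c vw.1 - trans r c vw.2) (fun j => Pi.single j 1) o = B a := fun a => by
    rcases hB a with ⟨v, w, -, h⟩ | ⟨j, h⟩
    · exact ⟨Sum.inl (v, w), h.symm⟩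
    · exact ⟨Sum.inr j, h.symm⟩
  choose q hq using hrow
  refine ⟨q, ?_⟩
  unfold idxDet
  congr 1
  funext a b
  simp only [Matrix.of_apply]
  rw [hq]

omit [Fintype ι] in
theorem det_bound (σ : ι → Bool) (e : ι → ℕ) (c : ι → Fin k → Polynomial ℤ) {E T : ℕ} {B : ℝ}
    (hB0 : 0 ≤ B) (hE : ∀ i, e i ≤ E) (hT : ∀ i a, (c i a).natDegree ≤ T)
    (hB : ∀ i a, CircleBound (c i a) B) {n : ℕ} (q : RowsIdx ι k n) :
    (idxDet (pslope σ e) c q).natDegree ≤ k * (n * E + T) ∧
      CircleBound (idxDet (pslope σ e) c q) (k.factorial * ((2 * B + 1) * ((n : ℝ) + 1)) ^ k) := by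
  set M : Matrix (Fin k) (Fin k) (Polynomial ℤ) := Matrix.of fun a =>
    Sum.elim (fun vw => trans (pslope σ e) c vw.1 - trans (pslope σ e) c vw.2)
      (fun j => Pi.single j 1) (q a)
  have hent : ∀ a b, (M a b).natDegree ≤ n * E + T ∧ CircleBound (M a b) ((2 * B + 1) * ((n : ℝ) + 1)) := by
    intro a b
    simp only [M, Matrix.of_apply]
    rcases q a with ⟨v, w⟩ | j
    · simp only [Sum.elim_inl, Pi.sub_apply]
      obtain ⟨h1, h2⟩ := trans_bound σ e c hE hT hB v b
      obtain ⟨h3, h4⟩ := trans_bound σ e c hE hT hB w b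
      refine ⟨(natDegree_sub_le _ _).trans (max_le h1 h3), fun z hz => ?_⟩
      rw [map_sub]
      refine ((norm_sub_le _ _).trans (add_le_add (h2 z hz) (h4 z hz))).trans ?_
      have hn : (0 : ℝ) ≤ n := n.cast_nonneg
      nlinarith
    · simp only [Sum.elim_inr]
      refine ⟨?_, fun z hz => ?_⟩
      · rw [Pi.single_apply]; split <;> simp
      · have hn : (0 : ℝ) ≤ n := n.cast_nonneg
        have h1 : (1 : ℝ) ≤ (2 * B + 1) * ((n : ℝ) + 1) := one_le_mul_of_one_le_of_one_le (by linarith) (by linarith)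
        rw [Pi.single_apply]
        split
        · simpa using h1
        · simp only [map_zero, norm_zero]; linarith
  change M.det.natDegree ≤ _ ∧ CircleBound M.det _
  rw [Matrix.det_apply]
  refine ⟨natDegree_sum_le_of_forall_le _ _ fun g _ => ?_, fun z hz => ?_⟩
  · refine (natDegree_smul_le _ _).trans ((natDegree_prod_le _ _).trans ?_)
    exact (Finset.sum_le_sum fun a _ => (hent (g a) a).1).trans (by simp)
  · rw [map_sum]
    refine (norm_sum_le _ _).trans ((Finset.sum_le_sum fun g _ => ?_).trans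
      (show ∑ _g : Equiv.Perm (Fin k), ((2 * B + 1) * ((n : ℝ) + 1)) ^ k ≤ _ by
        simp [Fintype.card_perm]))
    rw [Units.smul_def, map_zsmul, zsmul_eq_mul, norm_mul, Complex.norm_intCast]
    have h1 : |((Equiv.Perm.sign g : ℤ) : ℝ)| = 1 := by
      rcases Int.units_eq_one_or (Equiv.Perm.sign g) with h | h <;> simp [h]
    rw [h1, one_mul, map_prod, norm_prod]
    exact (Finset.prod_le_prod (fun a _ => norm_nonneg _) fun a _ => (hent (g a) a).2 z hz).trans (by simp)

/-- The bad parameters in a compact window have Hausdorff measure zero in every positive dimension. -/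
theorem window_null (σ : ι → Bool) (e : ι → ℕ) (c : ι → Fin k → Polynomial ℤ) {η : ℝ} (hη : 0 < η)
    (hη2 : η < 1 / 2) {s : ℝ} (hs : 0 < s) :
    μH[s] {x : ℝ | x ∈ Set.Icc η (1 - η) ∧ ¬ GoodLam (pslope σ e) c x} = 0 := by
  classical
  set E := Finset.univ.sup e
  set T := Finset.univ.sup fun p : ι × Fin k => (c p.1 p.2).natDegree
  choose Bc hBc0 hBc using fun p : ι × Fin k => circleBound_exists (c p.1 p.2)
  set B := ∑ p : ι × Fin k, Bc p
  have hB0 : 0 ≤ B := Finset.sum_nonneg fun p _ => hBc0 p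
  have hB : ∀ i a, CircleBound (c i a) B := fun i a z hz =>
    (hBc (i, a) z hz).trans (Finset.single_le_sum (fun p _ => hBc0 p) (Finset.mem_univ (i, a)))
  have hE : ∀ i, e i ≤ E := fun i => Finset.le_sup (Finset.mem_univ i)
  have hT : ∀ i a, (c i a).natDegree ≤ T := fun i a =>
    Finset.le_sup (f := fun p : ι × Fin k => (c p.1 p.2).natDegree) (Finset.mem_univ (i, a))
  set b := 1 - η
  have hb0 : 0 < b := by simp only [b]; linarith
  have hb1 : b < 1 := by simp only [b]; linarith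
  set A := (k.factorial : ℝ) * (2 * B + 1) ^ k
  have hA : 1 ≤ A := one_le_mul_of_one_le_of_one_le (by exact_mod_cast Nat.factorial_pos k)
    (one_le_pow₀ (by linarith))
  set Hn : ℕ → ℝ := fun n => A * ((n : ℝ) + 1) ^ k
  have hHn : ∀ n, 1 ≤ Hn n := fun n => one_le_mul_of_one_le_of_one_le hA (one_le_pow₀ (by linarith [n.cast_nonneg (α := ℝ)]))
  set lb := -Real.log b
  have hlb : 0 < lb := neg_pos.2 (Real.log_neg hb0 hb1)
  set j : ℕ → ℕ := fun n => ⌈Real.log (4 * Hn n) / lb⌉₊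
  have hbj : ∀ n, b ^ j n * Hn n ≤ 1 / 4 := fun n => by
    have h1 : Real.log (4 * Hn n) ≤ j n * lb := (div_le_iff₀ hlb).1 (Nat.le_ceil _)
    have h2 : b ^ j n = Real.exp (-((j n : ℝ) * lb)) := by
      rw [← Real.exp_log hb0, ← Real.exp_nat_mul]; congr 1; simp only [lb, Real.log_exp]; ring
    have hH : (0 : ℝ) < Hn n := zero_lt_one.trans_le (hHn n)
    rw [h2]
    calc Real.exp (-((j n : ℝ) * lb)) * Hn n ≤ Real.exp (-Real.log (4 * Hn n)) * Hn n :=
          mul_le_mul_of_nonneg_right (Real.exp_le_exp.2 (neg_le_neg h1)) hH.le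
      _ = 1 / 4 := by rw [Real.exp_neg, Real.exp_log (by positivity)]; field_simp
  set L : ℕ → ℝ := fun n => Real.log ((n : ℝ) + 2)
  set l2 := Real.log 2
  have hl2 : 0 < l2 := Real.log_pos one_lt_two
  have hL : ∀ n, l2 ≤ L n := fun n =>
    Real.log_le_log two_pos (by linarith [n.cast_nonneg (α := ℝ)])
  set a₀ := (Real.log (4 * A) / l2 + k) / lb + 1 / l2
  have hj : ∀ n, (j n : ℝ) ≤ a₀ * L n := fun n => by
    have hn : (0 : ℝ) ≤ n := n.cast_nonneg
    have hlA : 0 ≤ Real.log (4 * A) := Real.log_nonneg (by linarith)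
    have hq : 0 ≤ Real.log (4 * Hn n) / lb := div_nonneg (Real.log_nonneg (by linarith [hHn n])) hlb.le
    have h1 : Real.log (4 * Hn n) ≤ (Real.log (4 * A) / l2 + k) * L n := by
      have e1 : Real.log (4 * Hn n) = Real.log (4 * A) + k * Real.log ((n : ℝ) + 1) := by
        simp only [Hn]; rw [← mul_assoc, Real.log_mul (by linarith) (by positivity), Real.log_pow]
      have h2 : Real.log (4 * A) ≤ Real.log (4 * A) / l2 * L n := by
        rw [div_mul_eq_mul_div, le_div_iff₀ hl2]; exact mul_le_mul_of_nonneg_left (hL n) hlA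
      have h3 : Real.log ((n : ℝ) + 1) ≤ L n := Real.log_le_log (by linarith) (by linarith)
      rw [e1, add_mul]
      exact add_le_add h2 (mul_le_mul_of_nonneg_left h3 k.cast_nonneg)
    have h4 : (1 : ℝ) ≤ 1 / l2 * L n := by
      rw [div_mul_eq_mul_div, one_mul, le_div_iff₀ hl2, one_mul]; exact hL n
    calc (j n : ℝ) ≤ Real.log (4 * Hn n) / lb + 1 := (Nat.ceil_lt_add_one hq).le
      _ ≤ (Real.log (4 * A) / l2 + k) / lb * L n + 1 / l2 * L n := by
          refine add_le_add ?_ h4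
          rw [div_mul_eq_mul_div]; exact div_le_div_of_nonneg_right h1 hlb.le
      _ = _ := by simp only [a₀]; ring
  have ha₀ : 0 ≤ a₀ := by
    have hlA : 0 ≤ Real.log (4 * A) := Real.log_nonneg (by linarith)
    positivity
  set K₁ := (Fintype.card ι : ℝ) ^ 2 + k + 1
  have hK₁ : 1 ≤ K₁ := by
    have : (0 : ℝ) ≤ k := k.cast_nonneg
    simp only [K₁]; nlinarith [sq_nonneg (Fintype.card ι : ℝ)]
  set G := k * Real.log K₁ + a₀ + 1
  have hG : ∀ n, (Fintype.card (RowsIdx ι k n × Fin (j n)) : ℝ) ≤ Real.exp (G * ((n : ℝ) + 1)) := fun n => by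
    have hn : (0 : ℝ) ≤ n := n.cast_nonneg
    have hc : ((Fintype.card ι : ℝ) ^ n * (Fintype.card ι : ℝ) ^ n + k) ≤ K₁ ^ (n + 1) := by
      have h1 : (Fintype.card ι : ℝ) ^ n * (Fintype.card ι : ℝ) ^ n ≤ K₁ ^ n := by
        rw [← mul_pow, ← sq]
        exact pow_le_pow_left₀ (sq_nonneg _) (by simp only [K₁]; linarith [k.cast_nonneg (α := ℝ)]) n
      have h2 : (1 : ℝ) ≤ K₁ ^ n := one_le_pow₀ hK₁
      have h3 : (k : ℝ) + 1 ≤ K₁ := by simp only [K₁]; nlinarith [sq_nonneg (Fintype.card ι : ℝ)]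
      calc _ ≤ K₁ ^ n * 1 + K₁ ^ n * (k : ℝ) := by
            refine add_le_add (by rwa [mul_one]) ?_
            exact le_mul_of_one_le_left k.cast_nonneg h2
        _ = K₁ ^ n * ((k : ℝ) + 1) := by ring
        _ ≤ K₁ ^ n * K₁ := mul_le_mul_of_nonneg_left h3 (by positivity)
        _ = _ := (pow_succ _ _).symm
    have hj' : (j n : ℝ) ≤ Real.exp ((a₀ + 1) * ((n : ℝ) + 1)) := by
      refine (hj n).trans ?_
      have h1 : L n ≤ (n : ℝ) + 1 := (Real.log_le_sub_one_of_pos (by linarith)).trans (by linarith)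
      have h2 := mul_le_mul_of_nonneg_left h1 ha₀
      have h3 := Real.add_one_le_exp ((a₀ + 1) * ((n : ℝ) + 1))
      linarith
    simp only [Fintype.card_prod, Fintype.card_fun, Fintype.card_sum, Fintype.card_fin, Nat.cast_mul,
      Nat.cast_pow, Nat.cast_add]
    refine (mul_le_mul (pow_le_pow_left₀ (by positivity) hc k) hj' (Nat.cast_nonneg _) (by positivity)).trans ?_
    rw [← pow_mul, ← Real.exp_log (show 0 < K₁ by linarith), ← Real.exp_nat_mul, ← Real.exp_add,
      Real.exp_le_exp]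
    simp only [G]
    push_cast
    linarith
  -- covers at every target exponent
  set J' : ℕ → ℝ := fun m => (G + m) / s
  have hG0 : 0 ≤ G := by
    have := Real.log_nonneg hK₁
    positivity
  have hJ' : ∀ m, 0 ≤ J' m := fun m => div_nonneg (by linarith [m.cast_nonneg (α := ℝ)]) hs.le
  set ρ : ℕ → ℕ → ℝ := fun m n => Real.exp (-(J' m * ((n : ℝ) + 1)))
  have hρ1 : ∀ m n, ρ m n ≤ 1 := fun m n => Real.exp_le_one_iff.2
    (neg_nonpos.2 (mul_nonneg (hJ' m) (by linarith [n.cast_nonneg (α := ℝ)])))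
  set Dk := (k : ℝ) * ((E : ℝ) + T)
  set J : ℕ → ℝ := fun m => a₀ * (Real.log 4 + J' m) + (Dk * (-Real.log η) + Real.log 4) / l2
  have hηl : 0 ≤ -Real.log η := neg_nonneg.2 (Real.log_nonpos hη.le (by linarith))
  have hl4 : 0 ≤ Real.log 4 := Real.log_nonneg (by norm_num)
  have hcen : ∀ (m n : ℕ) (q : RowsIdx ι k n), ∃ cc : Fin (j n) → ℝ,
      idxDet (pslope σ e) c q ≠ 0 → ∀ x ∈ Set.Icc η b,
        |aeval x (idxDet (pslope σ e) c q)| < Real.exp (-(J m * W n)) → ∃ a, |x - cc a| ≤ ρ m n := by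
    intro m n q
    by_cases hP : idxDet (pslope σ e) c q = 0
    · exact ⟨0, fun h => absurd hP h⟩
    obtain ⟨hdeg, hcirc⟩ := det_bound σ e c hB0 hE hT hB q
    have hcirc' : CircleBound (idxDet (pslope σ e) c q) (Hn n) := fun z hz =>
      (hcirc z hz).trans (le_of_eq (by simp only [Hn, A, mul_pow]; ring))
    have hsmall : b ^ j n * Hn n + (4 / ρ m n) ^ j n
        * (Real.exp (-(J m * W n)) / η ^ (k * (n * E + T))) < 1 := by
      have hn : (0 : ℝ) ≤ n := n.cast_nonneg
      have hdegR : ((k * (n * E + T) : ℕ) : ℝ) ≤ Dk * ((n : ℝ) + 1) := by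
        simp only [Dk]
        push_cast
        nlinarith [mul_nonneg k.cast_nonneg (E.cast_nonneg (α := ℝ)),
          mul_nonneg (mul_nonneg k.cast_nonneg (T.cast_nonneg (α := ℝ))) hn]
      have e1 : (4 / ρ m n) ^ j n * (Real.exp (-(J m * W n)) / η ^ (k * (n * E + T)))
          = Real.exp ((j n : ℝ) * (Real.log 4 + J' m * ((n : ℝ) + 1)) - J m * W n
            + ((k * (n * E + T) : ℕ) : ℝ) * (-Real.log η)) := by
        rw [sub_eq_add_neg, Real.exp_add, Real.exp_add, Real.exp_nat_mul, Real.exp_nat_mul,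
          Real.exp_add, Real.exp_log (by norm_num : (0:ℝ) < 4), Real.exp_neg (Real.log η),
          Real.exp_log hη, inv_pow]
        simp only [ρ]
        rw [Real.exp_neg (J' m * ((n : ℝ) + 1)), div_inv_eq_mul]
        ring
      have e2 : (4 / ρ m n) ^ j n * (Real.exp (-(J m * W n)) / η ^ (k * (n * E + T))) ≤ 1 / 4 := by
        rw [e1, show (1 / 4 : ℝ) = Real.exp (-Real.log 4) by rw [Real.exp_neg, Real.exp_log] <;> norm_num,
          Real.exp_le_exp]
        have hLn : 0 ≤ L n := hl2.le.trans (hL n)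
        have h1 : (j n : ℝ) * (Real.log 4 + J' m * ((n : ℝ) + 1))
            ≤ a₀ * L n * ((Real.log 4 + J' m) * ((n : ℝ) + 1)) := by
          refine mul_le_mul (hj n) ?_ (add_nonneg hl4 (mul_nonneg (hJ' m) (by linarith))) (by positivity)
          nlinarith [mul_nonneg hl4 hn]
        have h2 : ((k * (n * E + T) : ℕ) : ℝ) * (-Real.log η) + Real.log 4
            ≤ (Dk * (-Real.log η) + Real.log 4) / l2 * (((n : ℝ) + 1) * L n) := by
          have h3 := mul_le_mul_of_nonneg_right hdegR hηl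
          have h4 : 1 ≤ L n / l2 := (one_le_div hl2).2 (hL n)
          calc _ ≤ (Dk * (-Real.log η) + Real.log 4) * ((n : ℝ) + 1) * 1 := by
                nlinarith [mul_nonneg hl4 hn]
            _ ≤ (Dk * (-Real.log η) + Real.log 4) * ((n : ℝ) + 1) * (L n / l2) :=
                mul_le_mul_of_nonneg_left h4 (by positivity)
            _ = _ := by ring
        have hW : J m * W n = a₀ * L n * ((Real.log 4 + J' m) * ((n : ℝ) + 1))
            + (Dk * (-Real.log η) + Real.log 4) / l2 * (((n : ℝ) + 1) * L n) := by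
          simp only [J, W, L]; ring
        linarith
      linarith [hbj n]
    obtain ⟨cc, hcc⟩ := sublevel hP hcirc' hdeg hη (by linarith) hb1.le (Real.exp_pos _) (hρ1 m n)
      (Real.exp_pos (-(J m * W n))).le hsmall
    exact ⟨cc, fun _ => hcc⟩
  choose cen hcen' using hcen
  -- the covering family
  set t : ∀ m : ℕ, (Σ n, RowsIdx ι k n × Fin (j n)) → Set ℝ := fun m p =>
    Set.Icc (cen m p.1 p.2.1 p.2.2 - ρ m p.1) (cen m p.1 p.2.1 p.2.2 + ρ m p.1)
  set S := {x : ℝ | x ∈ Set.Icc η b ∧ ¬ GoodLam (pslope σ e) c x}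
  have hJ0 : ∀ m, 0 ≤ J m := fun m => by
    have := hJ' m
    positivity
  have hcover : ∀ m, S ⊆ ⋃ p, t m p := fun m x hx => by
    obtain ⟨hxI, hbad⟩ := hx
    simp only [GoodLam, not_exists, not_and, not_forall, not_le] at hbad
    obtain ⟨n, P, hP, hP0, hlt⟩ := hbad (J m) (hJ0 m)
    obtain ⟨q, rfl⟩ := minor_subset _ _ hP
    obtain ⟨a, ha⟩ := hcen' m n q hP0 x hxI hlt
    refine Set.mem_iUnion.2 ⟨⟨n, q, a⟩, ?_⟩
    rw [abs_le] at ha
    exact ⟨by linarith, by linarith⟩
  have hdiam : ∀ m p, Metric.ediam (t m p) = ENNReal.ofReal (2 * ρ m p.1) := fun m p => by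
    simp only [t, Real.ediam_Icc]; congr 1; ring
  have hlim0 : Tendsto (fun m : ℕ => ENNReal.ofReal (2 * Real.exp (-J' m))) atTop (𝓝 0) := by
    rw [← ENNReal.ofReal_zero]
    refine (ENNReal.continuous_ofReal.tendsto 0).comp ?_
    rw [← mul_zero (2 : ℝ)]
    refine (Real.tendsto_exp_atBot.comp (tendsto_neg_atTop_atBot.comp ?_)).const_mul 2
    exact (tendsto_atTop_add_const_left _ G tendsto_natCast_atTop_atTop).atTop_div_const hs
  set K₂ := (2 : ℝ) ^ s
  have hsum : ∀ᶠ m : ℕ in atTop, ∑' p, Metric.ediam (t m p) ^ s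
      ≤ ENNReal.ofReal (2 * K₂ * Real.exp (-(m : ℝ))) := by
    filter_upwards [eventually_ge_atTop 1] with m hm
    rw [ENNReal.tsum_sigma (fun n (x : RowsIdx ι k n × Fin (j n)) => Metric.ediam (t m ⟨n, x⟩) ^ s)]
    set r := Real.exp (-(m : ℝ))
    have hr : r ≤ 1 / 2 := by
      have h1 : r ≤ Real.exp (-1) := Real.exp_le_exp.2 (neg_le_neg (by exact_mod_cast hm))
      have h2 : Real.exp (-1) ≤ 1 / 2 := by
        rw [Real.exp_neg, one_div]
        exact inv_anti₀ two_pos (by linarith [Real.add_one_le_exp (1 : ℝ)])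
      linarith
    have hterm : ∀ n, ∑' x : RowsIdx ι k n × Fin (j n), Metric.ediam (t m ⟨n, x⟩) ^ s
        ≤ ENNReal.ofReal (K₂ * r * r ^ n) := fun n => by
      simp only [hdiam, tsum_fintype, Finset.sum_const, Finset.card_univ, nsmul_eq_mul]
      rw [ENNReal.ofReal_rpow_of_pos (by positivity), ← ENNReal.ofReal_natCast,
        ← ENNReal.ofReal_mul (Nat.cast_nonneg _)]
      refine ENNReal.ofReal_le_ofReal ?_
      rw [Real.mul_rpow two_pos.le (Real.exp_pos _).le, ← Real.exp_mul]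
      have e : K₂ * r * r ^ n = Real.exp (G * ((n : ℝ) + 1)) * (K₂ * Real.exp (-(J' m * ((n : ℝ) + 1)) * s)) := by
        rw [mul_left_comm, ← Real.exp_add, mul_assoc, ← pow_succ', ← Real.exp_nat_mul]
        congr 2
        simp only [J']
        push_cast
        field_simp
        ring
      rw [e]
      exact mul_le_mul_of_nonneg_right (hG n) (by positivity)
    refine (ENNReal.tsum_le_tsum hterm).trans ?_
    rw [← ENNReal.ofReal_tsum_of_nonneg (fun n => by positivity)
      ((summable_geometric_of_lt_one (by positivity) (by linarith)).mul_left _), tsum_mul_left,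
      tsum_geometric_of_lt_one (by positivity) (by linarith)]
    refine ENNReal.ofReal_le_ofReal ?_
    have hi : (1 - r)⁻¹ ≤ 2 := by
      rw [inv_le_comm₀ (by linarith) two_pos]; linarith
    calc K₂ * r * (1 - r)⁻¹ ≤ K₂ * r * 2 := mul_le_mul_of_nonneg_left hi (by positivity)
      _ = _ := by ring
  refine le_antisymm ?_ bot_le
  refine (Measure.hausdorffMeasure_le_liminf_tsum s S _ hlim0 t (Eventually.of_forall fun m p => ?_)
    (Eventually.of_forall hcover)).trans ?_
  · rw [hdiam]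
    refine ENNReal.ofReal_le_ofReal (mul_le_mul_of_nonneg_left (Real.exp_le_exp.2 ?_) two_pos.le)
    have := mul_le_mul_of_nonneg_left (show (1 : ℝ) ≤ (p.1 : ℝ) + 1 by
      linarith [p.1.cast_nonneg (α := ℝ)]) (hJ' m)
    linarith
  · have hz : Tendsto (fun m : ℕ => ENNReal.ofReal (2 * K₂ * Real.exp (-(m : ℝ)))) atTop (𝓝 0) := by
      rw [← ENNReal.ofReal_zero]
      refine (ENNReal.continuous_ofReal.tendsto 0).comp ?_
      rw [← mul_zero (2 * K₂)]
      exact ((Real.tendsto_exp_atBot.comp (tendsto_neg_atTop_atBot.comp tendsto_natCast_atTop_atTop))).const_mul _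
    exact (liminf_le_liminf hsum).trans_eq hz.liminf_eq

theorem dimH_bad (σ : ι → Bool) (e : ι → ℕ) (c : ι → Fin k → Polynomial ℤ) :
    dimH {lam : ℝ | lam ∈ Set.Ioo (0 : ℝ) 1 ∧ ¬ GoodLam (pslope σ e) c lam} = 0 := by
  refine le_antisymm ?_ bot_le
  set S : ℕ → Set ℝ := fun m => {x : ℝ | x ∈ Set.Icc (1 / ((m : ℝ) + 3)) (1 - 1 / ((m : ℝ) + 3))
    ∧ ¬ GoodLam (pslope σ e) c x}
  have hsub : {lam : ℝ | lam ∈ Set.Ioo (0 : ℝ) 1 ∧ ¬ GoodLam (pslope σ e) c lam} ⊆ ⋃ m, S m := by
    rintro x ⟨⟨h0, h1⟩, hx⟩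
    obtain ⟨m, hm⟩ := exists_nat_one_div_lt (show 0 < min x (1 - x) by
      exact lt_min h0 (by linarith))
    have hm' : 1 / ((m : ℝ) + 3) ≤ min x (1 - x) :=
      (one_div_le_one_div_of_le (by positivity) (by linarith)).trans hm.le
    obtain ⟨ha, hb⟩ := le_min_iff.1 hm'
    exact Set.mem_iUnion.2 ⟨m, ⟨ha, by linarith⟩, hx⟩
  refine (dimH_mono hsub).trans ?_
  rw [dimH_iUnion]
  refine iSup_le fun m => le_of_forall_gt fun d hd => ?_
  obtain ⟨q, hq0, hqd⟩ := ENNReal.lt_iff_exists_nnreal_btwn.1 hd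
  have hnull := window_null σ e c (η := 1 / ((m : ℝ) + 3)) (by positivity)
    (by rw [div_lt_div_iff₀ (by positivity) two_pos]; linarith [m.cast_nonneg (α := ℝ)])
    (s := (q : ℝ)) (by exact_mod_cast hq0)
  have hne : μH[(q : ℝ)] (S m) ≠ ∞ := by
    rw [show S m = _ from rfl, hnull]; simp
  exact (dimH_le_of_hausdorffMeasure_ne_top hne).trans_lt hqd

end

end Vale.Agent.P114.Trans
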