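import Vale.Agent.P114.Trans.Defs
import Vale.Agent.P114.RandomWalk

/-! # P114, transcendental slopes: polynomial coordinates -/

namespace Vale.Agent.P114.Trans

noncomputable section

open scoped Classical Polynomial Matrix
open Finset

variable {ι : Type} [Fintype ι] {k : ℕ} {K : Type} [Field K] {jm : Polynomial ℤ →+* K}

/-- Evaluation of a vector of polynomials in `K`. -/
def vmap (jm : Polynomial ℤ →+* K) (v : Fin k → Polynomial ℤ) : Fin k → K := fun a => jm (v a)

omit [Fintype ι] in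
theorem slope_map (r : ι → Polynomial ℤ) {n : ℕ} (w : Fin n → ι) :
    slope (fun i => jm (r i)) w = jm (slope r w) := by
  simp [slope, map_prod]

omit [Fintype ι] in
theorem trans_map (r : ι → Polynomial ℤ) (c : ι → Fin k → Polynomial ℤ) :
    ∀ {n : ℕ} (w : Fin n → ι),
      trans (fun i => jm (r i)) (fun i => vmap jm (c i)) w = vmap jm (trans r c w)
  | 0, w => funext fun a => by simp [trans, vmap]
  | n + 1, w => funext fun a => by
    rw [trans, trans, trans_map r c (Fin.tail w)]
    simp [vmap]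

omit [Fintype ι] in
theorem diff_map (hj : Function.Injective jm) (r : ι → Polynomial ℤ)
    (c : ι → Fin k → Polynomial ℤ) (n : ℕ) :
    Diff (fun i => jm (r i)) (fun i => vmap jm (c i)) n = vmap jm '' DiffP r c n := by
  ext d
  constructor
  · rintro ⟨v, w, hs, rfl⟩
    rw [slope_map, slope_map] at hs
    refine ⟨_, ⟨v, w, hj hs, rfl⟩, funext fun a => ?_⟩
    simp [trans_map, vmap]
  · rintro ⟨_, ⟨v, w, hs, rfl⟩, rfl⟩
    refine ⟨v, w, by rw [slope_map, slope_map, hs], funext fun a => ?_⟩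
    simp [trans_map, vmap]

omit [Fintype ι] in
/-- A matrix of differences and unit vectors comes from polynomials. -/
theorem rows_lift (hj : Function.Injective jm) (r : ι → Polynomial ℤ)
    (c : ι → Fin k → Polynomial ℤ) {S : Set (Fin k → K)} {n : ℕ}
    (hS : S ⊆ Diff (fun i => jm (r i)) (fun i => vmap jm (c i)) n)
    {B : Matrix (Fin k) (Fin k) K} (hB : ∀ a, B a ∈ S ∨ ∃ j, B a = Pi.single j 1) :
    ∃ BP : Matrix (Fin k) (Fin k) (Polynomial ℤ),
      (∀ a, BP a ∈ DiffP r c n ∨ ∃ j, BP a = Pi.single j 1) ∧ B = BP.map jm := by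
  have h : ∀ a, ∃ v : Fin k → Polynomial ℤ,
      (v ∈ DiffP r c n ∨ ∃ j, v = Pi.single j 1) ∧ B a = vmap jm v := by
    intro a
    rcases hB a with h | ⟨j, h⟩
    · obtain ⟨v, hv, hv'⟩ := (diff_map hj r c n) ▸ hS h
      exact ⟨v, Or.inl hv, hv'.symm⟩
    · refine ⟨Pi.single j 1, Or.inr ⟨j, rfl⟩, ?_⟩
      rw [h]
      funext b
      simp [vmap, Pi.single_apply, apply_ite jm]
  choose v hv hv' using h
  exact ⟨Matrix.of v, hv, Matrix.ext fun a b => congrFun (hv' a) b⟩

theorem natDegree_pslope (σ : ι → Bool) (e : ι → ℕ) (i : ι) :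
    (pslope σ e i).natDegree ≤ univ.sup e := by
  refine le_trans ?_ (le_sup (f := e) (mem_univ i))
  rw [pslope]
  split_ifs <;> simp

theorem natDegree_trans (r : ι → Polynomial ℤ) (c : ι → Fin k → Polynomial ℤ) {A d0 : ℕ}
    (hr : ∀ i, (r i).natDegree ≤ A) (hc : ∀ i a, (c i a).natDegree ≤ d0) :
    ∀ {n : ℕ} (w : Fin n → ι) (a : Fin k), (trans r c w a).natDegree ≤ A * n + d0
  | 0, w, a => by simp [trans]
  | n + 1, w, a => by
    rw [trans]
    simp only [Pi.add_apply, Pi.smul_apply, smul_eq_mul]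
    refine (Polynomial.natDegree_add_le _ _).trans (max_le ?_ ?_)
    · exact (hc _ _).trans (Nat.le_add_left _ _)
    · refine Polynomial.natDegree_mul_le.trans ?_
      refine (Nat.add_le_add (hr _) (natDegree_trans r c hr hc (Fin.tail w) a)).trans ?_
      rw [Nat.mul_succ]
      omega

theorem natDegree_diff (r : ι → Polynomial ℤ) (c : ι → Fin k → Polynomial ℤ) {A d0 : ℕ}
    (hr : ∀ i, (r i).natDegree ≤ A) (hc : ∀ i a, (c i a).natDegree ≤ d0) {n : ℕ}
    {d : Fin k → Polynomial ℤ} (hd : d ∈ DiffP r c n) (a : Fin k) :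
    (d a).natDegree ≤ A * n + d0 := by
  obtain ⟨v, w, -, rfl⟩ := hd
  exact (Polynomial.natDegree_sub_le _ _).trans
    (max_le (natDegree_trans r c hr hc v a) (natDegree_trans r c hr hc w a))

omit [Fintype ι] in
theorem natDegree_det {d : ℕ} (M : Matrix (Fin k) (Fin k) (Polynomial ℤ))
    (h : ∀ i j, (M i j).natDegree ≤ d) : M.det.natDegree ≤ k * d := by
  rw [Matrix.det_apply']
  refine Polynomial.natDegree_sum_le_of_forall_le _ _ fun σ _ => ?_
  refine Polynomial.natDegree_mul_le.trans ?_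
  rw [Polynomial.natDegree_intCast, zero_add]
  refine (Polynomial.natDegree_prod_le _ _).trans ((sum_le_sum fun i _ => h _ _).trans ?_)
  simp

omit [Fintype ι] in
theorem natDegree_adjugate {d : ℕ} (M : Matrix (Fin k) (Fin k) (Polynomial ℤ))
    (h : ∀ i j, (M i j).natDegree ≤ d) (i j : Fin k) :
    (M.adjugate i j).natDegree ≤ k * d := by
  rw [Matrix.adjugate_apply]
  refine natDegree_det _ fun a b => ?_
  rw [Matrix.updateRow_apply]
  split_ifs
  · rw [Pi.single_apply]; split_ifs <;> simp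
  · exact h a b

omit [Fintype ι] in
theorem abs_det_le (M : Matrix (Fin k) (Fin k) ℝ) {b : ℝ} (h : ∀ i j, |M i j| ≤ b) :
    |M.det| ≤ k.factorial * b ^ k := by
  rw [Matrix.det_apply']
  refine (abs_sum_le_sum_abs _ _).trans ((sum_le_sum (g := fun _ => b ^ k) fun σ _ => ?_).trans ?_)
  · rw [abs_mul, ← Int.cast_abs, Int.abs_eq_natAbs, Int.units_natAbs, Nat.cast_one, Int.cast_one,
      one_mul, abs_prod]
    exact (prod_le_prod (fun i _ => abs_nonneg _) fun i _ => h _ _).trans (by simp)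
  · simp [Fintype.card_perm]

omit [Fintype ι] in
theorem abs_adjugate_le (M : Matrix (Fin k) (Fin k) ℝ) {b : ℝ} (hb : 1 ≤ b)
    (h : ∀ i j, |M i j| ≤ b) (i j : Fin k) : |M.adjugate i j| ≤ k.factorial * b ^ k := by
  rw [Matrix.adjugate_apply]
  refine abs_det_le _ fun a c => ?_
  rw [Matrix.updateRow_apply]
  split_ifs
  · rw [Pi.single_apply]
    split_ifs
    · simpa using hb
    · simpa using le_trans zero_le_one hb
  · exact h a c

end

end Vale.Agent.P114.Trans
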