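import Vale.Agent.P114.Trans.Chain
import Vale.Agent.P114.Trans.Exceptional
import Vale.Agent.P114.Formula
import Mathlib.RingTheory.Localization.FractionRing
import Mathlib.RingTheory.Localization.Integer
import Mathlib.RingTheory.Localization.Integral
import Mathlib.RingTheory.Polynomial.Basic
import Mathlib.Algebra.Polynomial.Cardinal

/-! # P114, transcendental slopes: the exceptional set and the entropy formula -/

namespace Vale.Agent.P114.Trans

noncomputable section

open scoped Classical Polynomial Matrix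
open Finset Filter

/-- The transcendental parameters at which some minors are too small. -/
def excSet : Set ℝ :=
  ⋃ (N : ℕ) (k : ℕ) (σ : Fin N → Bool) (e : Fin N → ℕ) (cP : Fin N → Fin k → Polynomial ℤ),
    {lam | lam ∈ Set.Ioo (0 : ℝ) 1 ∧ Transcendental ℚ lam ∧ ¬ GoodLam (pslope σ e) cP lam}

theorem dimH_excSet : dimH excSet = 0 := by
  have : Countable (Polynomial ℤ) :=
    Cardinal.mk_le_aleph0_iff.1 (Polynomial.cardinalMk_le_max.trans (by simp))
  refine le_antisymm ?_ bot_le
  simp only [excSet, dimH_iUnion, iSup_le_iff]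
  intro N k σ e cP
  exact (dimH_mono fun x hx => by exact ⟨hx.1, hx.2.2⟩).trans (dimH_bad σ e cP).le

theorem mem_excSet {lam : ℝ} (h : lam ∈ excSet) :
    lam ∈ Set.Ioo (0 : ℝ) 1 ∧ Transcendental ℚ lam := by
  simp only [excSet, Set.mem_iUnion] at h
  obtain ⟨N, k, σ, e, cP, h1, h2, -⟩ := h
  exact ⟨h1, h2⟩

variable {ι : Type} [Fintype ι] {k : ℕ}

omit [Fintype ι] in
theorem trans_comp {α : Type} (f : ι → α) (r : α → Polynomial ℤ)
    (c : α → Fin k → Polynomial ℤ) :
    ∀ {n : ℕ} (w : Fin n → ι), trans (r ∘ f) (c ∘ f) w = trans r c (f ∘ w)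
  | 0, w => by simp [trans]
  | n + 1, w => by
    rw [trans, trans, trans_comp f r c (Fin.tail w)]
    rfl

/-- Outside the exceptional set the minors are never too small. -/
theorem good_of_not_mem {lam : ℝ} (h01 : lam ∈ Set.Ioo (0 : ℝ) 1) (ht : Transcendental ℚ lam)
    (hlam : lam ∉ excSet) (σ : ι → Bool) (e : ι → ℕ) (cP : ι → Fin k → Polynomial ℤ) :
    GoodLam (pslope σ e) cP lam := by
  set f := Fintype.equivFin ι
  have hG : GoodLam (pslope (σ ∘ f.symm) (e ∘ f.symm)) (cP ∘ f.symm) lam := by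
    by_contra hbad
    exact hlam (by
      simp only [excSet, Set.mem_iUnion]
      exact ⟨_, k, σ ∘ f.symm, e ∘ f.symm, cP ∘ f.symm, h01, ht, hbad⟩)
  obtain ⟨J, hJ, hb⟩ := hG
  refine ⟨J, hJ, fun n P hP hP0 => hb n P ?_ hP0⟩
  obtain ⟨B, hB, rfl⟩ := hP
  refine ⟨B, fun a => ?_, rfl⟩
  rcases hB a with h | h
  · obtain ⟨v, w, hs, hd⟩ := h
    have e0 : pslope (σ ∘ f.symm) (e ∘ f.symm) = pslope σ e ∘ f.symm := rfl
    have e1 : ∀ u : Fin n → ι, f.symm ∘ (f ∘ u) = u := fun u => funext fun i => by simp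
    refine Or.inl ⟨f ∘ v, f ∘ w, ?_, ?_⟩
    · rw [e0]
      simpa [slope] using hs
    · rw [e0, trans_comp, trans_comp, e1, e1, hd]
  · exact Or.inr h

/-- For a transcendental parameter outside the exceptional set, the entropy rate is reached. -/
theorem exists_dim_trans [Nonempty ι] {lam : ℝ} (h01 : lam ∈ Set.Ioo (0 : ℝ) 1)
    (htr : Transcendental ℚ lam) (hlam : lam ∉ excSet) {p r t : ι → ℝ} (hp : ∀ i, 0 < p i)
    (hp1 : ∑ i, p i = 1) (e : ι → ℕ) (he : ∀ i, 0 < e i) (hr : ∀ i, |r i| = lam ^ e i) :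
    ∃ a q T D : ℝ, Good p r t a q T ∧ Low p r t q D ∧
      min (lyap p r) (⨅ n : ℕ, ent (wt (n := n + 1) p) (fun w => (slope r w, trans r t w)) /
        ((n + 1 : ℕ) : ℝ)) ≤ D * lyap p r := by
  let g : Polynomial ℤ →+* ℝ := (Polynomial.aeval lam).toRingHom
  have hg : Function.Injective g := by
    have hz : Transcendental ℤ lam := fun h =>
      htr ((IsFractionRing.isAlgebraic_iff ℤ ℚ ℝ).1 h)
    exact transcendental_iff_injective.1 hz
  let K := FractionRing (Polynomial ℤ)
  let jm : Polynomial ℤ →+* K := algebraMap (Polynomial ℤ) K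
  have hjm : Function.Injective jm := IsFractionRing.injective (Polynomial ℤ) K
  let emb : K →+* ℝ := IsFractionRing.lift hg
  have hemb : ∀ P, emb (jm P) = Polynomial.aeval lam P := fun P => IsFractionRing.lift_algebraMap hg P
  let : Algebra K ℝ := emb.toAlgebra
  let σ : ι → Bool := fun i => decide (0 < r i)
  let rK : ι → K := fun i => jm (pslope σ e i)
  have hrK : (fun i => emb (rK i)) = r := funext fun i => by
    simp only [rK, hemb, pslope, σ]
    by_cases h : 0 < r i
    · simp [h, ← hr i, abs_of_pos h]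
    · simp [h, ← hr i, abs_of_nonpos (not_lt.1 h)]
  let S : Submodule K ℝ := Submodule.span K (Set.range t)
  have : FiniteDimensional K S := FiniteDimensional.span_of_finite K (Set.finite_range t)
  let B := Module.finBasis K S
  let tS : ι → S := fun i => ⟨t i, Submodule.subset_span ⟨i, rfl⟩⟩
  obtain ⟨b, hb⟩ := IsLocalization.exist_integer_multiples_of_finite
    (nonZeroDivisors (Polynomial ℤ)) (fun x : ι × Fin (Module.finrank K S) => B.repr (tS x.1) x.2)
  choose P hP using hb
  let cP : ι → Fin (Module.finrank K S) → Polynomial ℤ := fun i j => P (i, j)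
  let c : ι → Fin (Module.finrank K S) → K := fun i => vmap jm (cP i)
  have hb0 : emb (jm (b : Polynomial ℤ)) ≠ 0 :=
    fun h => nonZeroDivisors.ne_zero b.2 (hjm (emb.injective (by rw [h, map_zero, map_zero])))
  let τ : Fin (Module.finrank K S) → ℝ := fun j => (B j : ℝ) / emb (jm (b : Polynomial ℤ))
  have hdot : ∀ v : Fin (Module.finrank K S) → K,
      dotp emb v τ = ((∑ j, v j • B j : S) : ℝ) / emb (jm (b : Polynomial ℤ)) := by
    intro v
    rw [Submodule.coe_sum, sum_div]
    refine sum_congr rfl fun j _ => ?_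
    simp only [Submodule.coe_smul, Algebra.smul_def, τ]
    rw [mul_div_assoc]
    rfl
  have htF : (fun i => dotp emb (c i) τ) = t := funext fun i => by
    have e0 : ∀ j, c i j = jm (b : Polynomial ℤ) * B.repr (tS i) j := fun j => by
      refine (hP (i, j)).trans ?_
      rw [Algebra.smul_def]
    rw [hdot, show ∑ j, c i j • B j = jm (b : Polynomial ℤ) • tS i by
      conv_rhs => rw [← B.sum_repr (tS i), smul_sum]
      simp only [e0, mul_smul]]
    rw [Submodule.coe_smul, Algebra.smul_def]
    exact mul_div_cancel_left₀ _ hb0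
  have hτ : ∀ v : Fin (Module.finrank K S) → K, dotp emb v τ = 0 → v = 0 := by
    intro v hv
    rw [hdot, div_eq_zero_iff] at hv
    have := hv.resolve_right hb0
    rw [Submodule.coe_eq_zero] at this
    exact funext fun j => Fintype.linearIndependent_iff.1 B.linearIndependent v this j
  obtain ⟨J, hJ, hgood⟩ := good_of_not_mem h01 htr hlam σ e cP
  have hsys : Sys emb rK c σ e cP jm J :=
    ⟨hjm, rfl, rfl, he, hJ, fun n Q hQ hQ0 => by rw [hemb]; exact hgood n Q hQ hQ0⟩
  obtain ⟨a, q, T, D, G, hlow, hmain⟩ := entropy_dim_trans hsys hp hp1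
    (fun i h => by
      have h1 := congrFun hrK i
      rw [h, map_zero] at h1
      have h2 := hr i
      rw [← h1, abs_zero] at h2
      exact (pow_pos h01.1 (e i)).ne h2)
    (fun i => by
      rw [congrFun hrK i, hr i]
      exact pow_lt_one₀ h01.1.le h01.2 (he i).ne')
    hτ
  rw [hrK, htF] at G hlow
  rw [hrK] at hmain
  refine ⟨a, q, T, D, G, hlow, le_trans (min_le_min le_rfl (le_of_eq ?_)) hmain⟩
  refine iInf_congr fun n => ?_
  congr 1
  refine cent_congr_left (wt_nonneg fun i => (hp i).le) fun v w _ => ?_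
  simp only [cls, Prod.mk.injEq, Submodule.Quotient.eq, Submodule.mem_bot, sub_eq_zero]
  have hs : ∀ u : Fin (n + 1) → ι, slope r u = emb (slope rK u) := fun u => by
    rw [← slope_emb, hrK]
  have ht : ∀ u : Fin (n + 1) → ι, trans r t u = dotp emb (trans rK c u) τ := fun u => by
    rw [← trans_dotp, hrK, htF]
  rw [hs, hs, ht, ht, emb.injective.eq_iff]
  refine and_congr_right fun _ => ⟨fun h => ?_, fun h => by rw [h]⟩
  exact sub_eq_zero.1 (hτ _ (by rw [dotp_sub, h, sub_self]))

end

end Vale.Agent.P114.Trans
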