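import Vale.Agent.P114.Trans.Lift
import Vale.Agent.P114.Induct

/-! # P114, transcendental slopes: perturbations and formal functionals -/

namespace Vale.Agent.P114.Trans

noncomputable section

open scoped Classical Polynomial Matrix
open Finset Filter

variable {ι : Type} [Fintype ι] {k : ℕ} {K : Type} [Field K]

/-- The span of the differences which are tiny at `τ`, at the scale `exp (-Q W n)`. -/
def Small2 (emb : K →+* ℝ) (r : ι → K) (c : ι → Fin k → K) (τ : Fin k → ℝ) (Q : ℝ) (n : ℕ) :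
    Submodule K (Fin k → K) :=
  Submodule.span K {d | d ∈ Diff r c n ∧ |dotp emb d τ| ≤ Real.exp (-(Q * W n))}

theorem W_pos (n : ℕ) : 0 < W n :=
  mul_pos (by positivity) (Real.log_pos (by linarith [(Nat.cast_nonneg n : (0 : ℝ) ≤ n)]))

theorem W_ge (n : ℕ) : ((n : ℝ) + 1) * Real.log 2 ≤ W n :=
  mul_le_mul_of_nonneg_left (Real.log_le_log (by norm_num)
    (by linarith [(Nat.cast_nonneg n : (0 : ℝ) ≤ n)])) (by positivity)

theorem W_mono {m n : ℕ} (h : m ≤ n) : W m ≤ W n := by
  have h' : (m : ℝ) ≤ n := by exact_mod_cast h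
  refine mul_le_mul (by linarith) (Real.log_le_log (by positivity) (by linarith))
    (Real.log_nonneg (by linarith [(Nat.cast_nonneg m : (0 : ℝ) ≤ m)])) (by positivity)

/-- The data of a family with slopes `± lam ^ e` in coordinates over `K`. -/
structure Sys (emb : K →+* ℝ) (r : ι → K) (c : ι → Fin k → K) (σ : ι → Bool) (e : ι → ℕ)
    (cP : ι → Fin k → Polynomial ℤ) (jm : Polynomial ℤ →+* K) (J : ℝ) : Prop where
  inj : Function.Injective jm
  r_eq : r = fun i => jm (pslope σ e i)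
  c_eq : c = fun i => vmap jm (cP i)
  e_pos : ∀ i, 0 < e i
  J_nonneg : 0 ≤ J
  good : ∀ n : ℕ, ∀ P ∈ Minor (pslope σ e) cP n, P ≠ 0 → Real.exp (-(J * W n)) ≤ |emb (jm P)|

variable {emb : K →+* ℝ} {r : ι → K} {c : ι → Fin k → K} {σ : ι → Bool} {e : ι → ℕ}
  {cP : ι → Fin k → Polynomial ℤ} {jm : Polynomial ℤ →+* K} {J : ℝ} {p : ι → ℝ} {τ : Fin k → ℝ}
  {a q T : ℝ}

/-- A bound for the real entries of all rows. -/
def rowB (emb : K →+* ℝ) (r : ι → K) (c : ι → Fin k → K) (q : ℝ) : ℝ :=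
  2 * |coordB emb r c q| + 1

/-- The constant of the Cramer bounds. -/
def cramer (emb : K →+* ℝ) (r : ι → K) (c : ι → Fin k → K) (q : ℝ) : ℝ :=
  ((k : ℝ) + 1) ^ 2 * k.factorial * rowB emb r c q ^ (k + 1)

theorem one_le_rowB : 1 ≤ rowB emb r c q := by
  rw [rowB]; linarith [abs_nonneg (coordB emb r c q)]

theorem diff_entry_le (G : Good p (fun i => emb (r i)) (fun i => dotp emb (c i) τ) a q T) {n : ℕ}
    {d : Fin k → K} (hd : d ∈ Diff r c n) (j : Fin k) : |emb (d j)| ≤ rowB emb r c q := by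
  obtain ⟨v, w, -, rfl⟩ := hd
  rw [Pi.sub_apply, map_sub, rowB]
  have h1 := coord_le G v j
  have h2 := coord_le G w j
  linarith [abs_sub (emb (trans r c v j)) (emb (trans r c w j)),
    le_abs_self (coordB emb r c q)]

theorem row_entry_le (G : Good p (fun i => emb (r i)) (fun i => dotp emb (c i) τ) a q T) {n : ℕ}
    {S : Set (Fin k → K)} (hS : S ⊆ Diff r c n) {B : Matrix (Fin k) (Fin k) K}
    (hB : ∀ i, B i ∈ S ∨ ∃ j, B i = Pi.single j 1) (i j : Fin k) :
    |emb (B i j)| ≤ rowB emb r c q := by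
  rcases hB i with h | ⟨j', h⟩
  · exact diff_entry_le G (hS h) j
  · rw [h, Pi.single_apply]
    split_ifs
    · simpa using one_le_rowB
    · simpa using le_trans zero_le_one one_le_rowB

omit [Fintype ι] in
theorem det_lower (S : Sys emb r c σ e cP jm J) {n : ℕ} {T' : Set (Fin k → K)}
    (hT : T' ⊆ Diff r c n) {B : Matrix (Fin k) (Fin k) K}
    (hB : ∀ i, B i ∈ T' ∨ ∃ j, B i = Pi.single j 1) (hdet : B.det ≠ 0) :
    Real.exp (-(J * W n)) ≤ |emb B.det| := by
  have hT' := hT
  rw [S.r_eq, S.c_eq] at hT'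
  obtain ⟨BP, hBP, rfl⟩ := rows_lift S.inj _ cP hT' hB
  rw [← RingHom.mapMatrix_apply, ← RingHom.map_det] at hdet ⊢
  exact S.good n _ ⟨BP, hBP, rfl⟩ fun h => hdet (by rw [h, map_zero])

theorem coef_le (G : Good p (fun i => emb (r i)) (fun i => dotp emb (c i) τ) a q T) {n : ℕ}
    {T' : Set (Fin k → K)} (hT : T' ⊆ Diff r c n) {B : Matrix (Fin k) (Fin k) K}
    (hB : ∀ i, B i ∈ T' ∨ ∃ j, B i = Pi.single j 1) {d : Fin k → K}
    (hd : ∀ j, |emb (d j)| ≤ rowB emb r c q) (i : Fin k) :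
    |emb ((d ᵥ* B.adjugate) i)| ≤ k * k.factorial * rowB emb r c q ^ (k + 1) := by
  set b := rowB emb r c q with hb
  have hb1 : 1 ≤ b := one_le_rowB
  simp only [Matrix.vecMul, dotProduct, map_sum, map_mul]
  refine (abs_sum_le_sum_abs _ _).trans ((sum_le_sum (g := fun _ => b * (k.factorial * b ^ k))
    fun j _ => ?_).trans (le_of_eq ?_))
  · rw [abs_mul]
    refine mul_le_mul (hd j) ?_ (abs_nonneg _) (le_trans zero_le_one hb1)
    have h := abs_adjugate_le (B.map emb) hb1 (fun x y => row_entry_le G hT hB x y) j i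
    rw [← RingHom.mapMatrix_apply, ← RingHom.map_adjugate] at h
    exact h
  · rw [sum_const, card_univ, Fintype.card_fin, nsmul_eq_mul, pow_succ]; ring

theorem small2_bound (S : Sys emb r c σ e cP jm J)
    (G : Good p (fun i => emb (r i)) (fun i => dotp emb (c i) τ) a q T) (Q : ℝ) {m n : ℕ}
    {l : Fin k → K} (hl : l ∈ Diff r c m) (hlS : l ∈ Small2 emb r c τ Q n) :
    |dotp emb l τ| ≤ cramer emb r c q * Real.exp (-((Q - J) * W n)) := by
  set T' := {d | d ∈ Diff r c n ∧ |dotp emb d τ| ≤ Real.exp (-(Q * W n))}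
  obtain ⟨B, hdet, hrows, hspan, -⟩ := exists_rows T'
  have hl' : l ∈ Submodule.span K {v | v ∈ T' ∧ ∃ i, B i = v} := by rw [← hspan]; exact hlS
  have hT : T' ⊆ Diff r c n := fun d hd => hd.1
  set C1 := (k : ℝ) * k.factorial * rowB emb r c q ^ (k + 1)
  have hC1 : 0 ≤ C1 := by
    have : 0 ≤ rowB emb r c q := le_trans zero_le_one one_le_rowB
    positivity
  have hterm : ∀ i, |emb ((l ᵥ* B.adjugate) i) * dotp emb (B i) τ| ≤
      C1 * Real.exp (-(Q * W n)) := by
    intro i
    by_cases hi : B i ∈ T'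
    · rw [abs_mul]
      exact mul_le_mul (coef_le G hT hrows (fun j => diff_entry_le G hl j) i) hi.2 (abs_nonneg _) hC1
    · rw [coef_eq_zero B hl' hi, map_zero, zero_mul, abs_zero]; positivity
  have h1 : |emb B.det * dotp emb l τ| ≤ k * (C1 * Real.exp (-(Q * W n))) := by
    rw [det_dotp]
    refine ((abs_sum_le_sum_abs _ _).trans (sum_le_sum fun i _ => hterm i)).trans (le_of_eq ?_)
    rw [sum_const, card_univ, Fintype.card_fin, nsmul_eq_mul]
  have h2 := det_lower S hT hrows hdet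
  rw [abs_mul] at h1
  have h3 : (k : ℝ) * C1 ≤ cramer emb r c q := by
    have : 0 ≤ rowB emb r c q := le_trans zero_le_one one_le_rowB
    rw [cramer]
    simp only [C1]
    rw [← mul_assoc, ← mul_assoc]
    refine mul_le_mul_of_nonneg_right (mul_le_mul_of_nonneg_right ?_ (Nat.cast_nonneg _))
      (by positivity)
    have := (Nat.cast_nonneg k : (0 : ℝ) ≤ k)
    nlinarith
  have h4 : Real.exp (-((Q - J) * W n)) = Real.exp (J * W n) * Real.exp (-(Q * W n)) := by
    rw [← Real.exp_add]; ring_nf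
  rw [h4]
  calc |dotp emb l τ| = Real.exp (J * W n) * (Real.exp (-(J * W n)) * |dotp emb l τ|) := by
        rw [← mul_assoc, ← Real.exp_add, add_neg_cancel, Real.exp_zero, one_mul]
    _ ≤ Real.exp (J * W n) * (k * (C1 * Real.exp (-(Q * W n)))) :=
        mul_le_mul_of_nonneg_left ((mul_le_mul_of_nonneg_right h2 (abs_nonneg _)).trans h1)
          (Real.exp_nonneg _)
    _ ≤ _ := by
        rw [← mul_assoc (k : ℝ), mul_left_comm]
        exact mul_le_mul_of_nonneg_right h3 (by positivity)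

/-- The degree step of the formal functional. -/
def degD (k : ℕ) (e : ι → ℕ) (cP : ι → Fin k → Polynomial ℤ) : ℕ :=
  (k + 1) * (univ.sup e + univ.sup (fun i => univ.sup fun j => (cP i j).natDegree) + 1)

/-- The formal functional: the cofactor coordinates outside `s`, put at separated degrees. -/
def phiF (s : Set (Fin k)) (BP : Matrix (Fin k) (Fin k) (Polynomial ℤ)) (D : ℕ) :
    (Fin k → Polynomial ℤ) →ₗ[Polynomial ℤ] Polynomial ℤ where
  toFun v := ∑ i, if i ∈ s then 0 else (v ᵥ* BP.adjugate) i * Polynomial.X ^ (D * ((i : ℕ) + 1))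
  map_add' u v := by
    rw [← sum_add_distrib]
    refine sum_congr rfl fun i _ => ?_
    split_ifs <;> simp [Matrix.add_vecMul, add_mul]
  map_smul' a v := by
    simp only [smul_eq_mul, RingHom.id_apply, mul_sum]
    refine sum_congr rfl fun i _ => ?_
    split_ifs <;> simp [Matrix.smul_vecMul, mul_assoc]

theorem phiF_apply (s : Set (Fin k)) (BP : Matrix (Fin k) (Fin k) (Polynomial ℤ)) (D : ℕ)
    (v : Fin k → Polynomial ℤ) : phiF s BP D v =
      ∑ i, if i ∈ s then 0 else (v ᵥ* BP.adjugate) i * Polynomial.X ^ (D * ((i : ℕ) + 1)) := rfl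

theorem phiF_sep (s : Set (Fin k)) (BP : Matrix (Fin k) (Fin k) (Polynomial ℤ)) {D : ℕ}
    {v : Fin k → Polynomial ℤ} (hD : ∀ i, ((v ᵥ* BP.adjugate) i).natDegree < D) :
    (phiF s BP D v).natDegree ≤ D + D * k ∧
      (phiF s BP D v = 0 → ∀ i, i ∉ s → (v ᵥ* BP.adjugate) i = 0) := by
  set co := v ᵥ* BP.adjugate
  refine ⟨?_, fun h0 i0 hi0 => Polynomial.ext fun x => ?_⟩
  · rw [phiF_apply]
    refine Polynomial.natDegree_sum_le_of_forall_le _ _ fun i _ => ?_
    split_ifs
    · simp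
    refine Polynomial.natDegree_mul_le.trans (Nat.add_le_add (hD i).le ?_)
    rw [Polynomial.natDegree_X_pow]
    exact Nat.mul_le_mul_left _ (Nat.succ_le_of_lt i.isLt)
  rcases lt_or_ge x D with hx | hx
  swap
  · rw [Polynomial.coeff_zero]
    exact Polynomial.coeff_eq_zero_of_natDegree_lt (lt_of_lt_of_le (hD i0) hx)
  have h' := congrArg (fun P => Polynomial.coeff P (x + D * ((i0 : ℕ) + 1))) h0
  simp only [phiF_apply, Polynomial.finsetSum_coeff, Polynomial.coeff_zero] at h'
  rw [sum_eq_single i0 (fun i _ hi => ?_) (by simp), if_neg hi0,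
    Polynomial.coeff_mul_X_pow] at h'
  · rw [h', Polynomial.coeff_zero]
  · split_ifs
    · simp
    rw [Polynomial.coeff_mul_X_pow']
    split_ifs with hle
    · refine Polynomial.coeff_eq_zero_of_natDegree_lt (lt_of_lt_of_le (hD i) ?_)
      have hne' : (i : ℕ) ≠ i0 := fun h => hi (Fin.ext h)
      rcases lt_or_gt_of_ne hne' with hlt | hlt
      · have : D * ((i : ℕ) + 1) + D ≤ D * ((i0 : ℕ) + 1) := by
          rw [← Nat.mul_succ]; exact Nat.mul_le_mul_left _ (by omega)
        omega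
      · have : D * ((i0 : ℕ) + 1) + D ≤ D * ((i : ℕ) + 1) := by
          rw [← Nat.mul_succ]; exact Nat.mul_le_mul_left _ (by omega)
        omega
    · rfl

theorem co_natDegree (σ : ι → Bool) (e : ι → ℕ) (cP : ι → Fin k → Polynomial ℤ) {m : ℕ}
    {BP : Matrix (Fin k) (Fin k) (Polynomial ℤ)}
    (hBP : ∀ i, BP i ∈ DiffP (pslope σ e) cP (m + 1) ∨ ∃ j, BP i = Pi.single j 1)
    {d : Fin k → Polynomial ℤ} (hd : d ∈ DiffP (pslope σ e) cP m) (i : Fin k) :
    ((d ᵥ* BP.adjugate) i).natDegree < degD k e cP * (m + 1) := by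
  set A := univ.sup e with hA
  set d0 := univ.sup (fun i => univ.sup fun j => (cP i j).natDegree) with hd0
  have hc : ∀ i j, (cP i j).natDegree ≤ d0 := fun i j =>
    le_trans (le_sup (f := fun j => (cP i j).natDegree) (mem_univ j))
      (le_sup (f := fun i => univ.sup fun j => (cP i j).natDegree) (mem_univ i))
  have hBd : ∀ i j, (BP i j).natDegree ≤ A * (m + 1) + d0 := by
    intro i j
    rcases hBP i with h | ⟨j', h⟩
    · exact natDegree_diff _ cP (natDegree_pslope σ e) hc h j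
    · rw [h, Pi.single_apply]; split_ifs <;> simp
  simp only [Matrix.vecMul, dotProduct]
  refine lt_of_le_of_lt (Polynomial.natDegree_sum_le_of_forall_le (n := (k + 1) *
    (A * (m + 1) + d0)) _ _ fun j _ => ?_) ?_
  · refine Polynomial.natDegree_mul_le.trans ?_
    have h1 : (d j).natDegree ≤ A * m + d0 :=
      natDegree_diff _ cP (natDegree_pslope σ e) hc hd j
    have h2 := natDegree_adjugate BP hBd j i
    have : A * m ≤ A * (m + 1) := Nat.mul_le_mul_left _ (by omega)
    rw [add_mul, one_mul]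
    omega
  · rw [degD, ← hA, ← hd0, mul_assoc]
    refine Nat.mul_lt_mul_of_pos_left ?_ (Nat.succ_pos k)
    rw [add_mul, add_mul, one_mul]
    have : d0 ≤ d0 * (m + 1) := Nat.le_mul_of_pos_right _ (by omega)
    omega

theorem perturb2 (S : Sys emb r c σ e cP jm J)
    (G : Good p (fun i => emb (r i)) (fun i => dotp emb (c i) τ) a q T)
    (L : Submodule K (Fin k → K)) (m : ℕ)
    (hL : L = Submodule.span K (Diff r c (m + 1) ∩ ↑L)) (ξ : ℝ) (hξ0 : 0 ≤ ξ)
    (hξ : ∀ l ∈ Diff r c (m + 1), l ∈ L → |dotp emb l τ| ≤ ξ) :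
    ∃ g : Fin k → ℝ, (∀ l ∈ L, dotp emb l g = 0) ∧
      (∀ i, |g i - τ i| ≤ cramer emb r c q * (Real.exp (J * W (m + 1)) * ξ)) ∧
      ∃ φ : (Fin k → Polynomial ℤ) →ₗ[Polynomial ℤ] Polynomial ℤ,
        (∀ v, vmap jm v ∈ L → φ v = 0) ∧
        ∀ d ∈ DiffP (pslope σ e) cP m, (φ d).natDegree < (k + 2) * degD k e cP * (m + 1) ∧
          (φ d = 0 → vmap jm d ∈ L) := by
  set T' := Diff r c (m + 1) ∩ (↑L : Set (Fin k → K))
  obtain ⟨B, hdet, hrows, hspan, -⟩ := exists_rows T'
  rw [← hL] at hspan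
  have hT : T' ⊆ Diff r c (m + 1) := Set.inter_subset_left
  have hT' := hT
  rw [S.r_eq, S.c_eq] at hT'
  obtain ⟨BP, hBP, hBB⟩ := rows_lift S.inj _ cP hT' hrows
  set Br := B.map emb with hBr
  have hdetr : Br.det = emb B.det := by
    rw [hBr, ← RingHom.mapMatrix_apply, ← RingHom.map_det]
  have hadj : Br.adjugate = B.adjugate.map emb := by
    rw [hBr, ← RingHom.mapMatrix_apply, ← RingHom.map_adjugate, RingHom.mapMatrix_apply]
  have hdet0 : Br.det ≠ 0 := by rw [hdetr]; simpa using hdet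
  let η : Fin k → ℝ := fun i => if B i ∈ T' then 0 else dotp emb (B i) τ
  set g : Fin k → ℝ := Br.det⁻¹ • (Br.adjugate *ᵥ η) with hg
  have hBg : Br *ᵥ g = η := by
    rw [hg, Matrix.mulVec_smul, Matrix.mulVec_mulVec, Matrix.mul_adjugate, Matrix.smul_mulVec,
      Matrix.one_mulVec, inv_smul_smul₀ hdet0]
  have hrow : ∀ i, dotp emb (B i) g = η i := fun i => by
    rw [← congrFun hBg i]; simp [dotp, Matrix.mulVec, dotProduct, Br]
  set D := degD k e cP * (m + 1) with hD
  have hco : ∀ v i, jm ((v ᵥ* BP.adjugate) i) = (vmap jm v ᵥ* B.adjugate) i := by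
    intro v i
    rw [hBB, ← RingHom.mapMatrix_apply, ← RingHom.map_adjugate, RingHom.mapMatrix_apply]
    simp [Matrix.vecMul, dotProduct, vmap]
  refine ⟨g, fun l hl => ?_, fun i => ?_, phiF {i | B i ∈ T'} BP D, fun v hv => ?_,
    fun d hd => ?_⟩
  · rw [hspan] at hl
    induction hl using Submodule.span_induction with
    | mem x hx =>
      obtain ⟨hxS, i, rfl⟩ := hx
      rw [hrow]; simp [η, hxS]
    | zero => simp [dotp]
    | add x y _ _ hx hy =>
      simp only [dotp, Pi.add_apply, map_add, add_mul, sum_add_distrib] at hx hy ⊢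
      rw [hx, hy, add_zero]
    | smul s x _ hx =>
      simp only [dotp, Pi.smul_apply, smul_eq_mul, map_mul, mul_assoc, ← mul_sum] at hx ⊢
      rw [hx, mul_zero]
  · set u : Fin k → ℝ := η - Br *ᵥ τ with hu
    have h1 : g - τ = Br.det⁻¹ • (Br.adjugate *ᵥ u) := by
      rw [hu, Matrix.mulVec_sub, Matrix.mulVec_mulVec, Matrix.adjugate_mul, Matrix.smul_mulVec,
        Matrix.one_mulVec, smul_sub, inv_smul_smul₀ hdet0, ← hg]
    have hu1 : ∀ i, |u i| ≤ ξ := by
      intro i
      have e1 : (Br *ᵥ τ) i = dotp emb (B i) τ := by simp [dotp, Matrix.mulVec, dotProduct, Br]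
      simp only [hu, Pi.sub_apply, e1, η]
      by_cases hi : B i ∈ T'
      · rw [if_pos hi, zero_sub, abs_neg]; exact hξ _ hi.1 hi.2
      · rw [if_neg hi, sub_self, abs_zero]; exact hξ0
    have hb1 : 1 ≤ rowB emb r c q := one_le_rowB
    have h2 : |(Br.adjugate *ᵥ u) i| ≤ k * (k.factorial * rowB emb r c q ^ k * ξ) := by
      simp only [Matrix.mulVec, dotProduct]
      refine (abs_sum_le_sum_abs _ _).trans ((sum_le_sum fun j _ => ?_).trans_eq (by
        rw [sum_const, card_univ, Fintype.card_fin, nsmul_eq_mul]))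
      rw [abs_mul]
      exact mul_le_mul (abs_adjugate_le Br hb1 (fun x y => row_entry_le G hT hrows x y) i j)
        (hu1 j) (abs_nonneg _) (by positivity)
    have h3 := det_lower S hT hrows hdet
    rw [← hdetr] at h3
    have hd0 : 0 < |Br.det| := abs_pos.2 hdet0
    have h4 : |Br.det⁻¹| ≤ Real.exp (J * W (m + 1)) := by
      rw [abs_inv, inv_le_comm₀ hd0 (Real.exp_pos _), ← Real.exp_neg]
      exact h3
    have h5 := congrFun h1 i
    simp only [Pi.sub_apply, Pi.smul_apply, smul_eq_mul] at h5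
    rw [h5, abs_mul]
    refine (mul_le_mul h4 h2 (abs_nonneg _) (Real.exp_nonneg _)).trans ?_
    rw [mul_left_comm (cramer emb r c q)]
    refine mul_le_mul_of_nonneg_left ?_ (Real.exp_nonneg _)
    rw [cramer, ← mul_assoc, ← mul_assoc]
    refine mul_le_mul_of_nonneg_right (mul_le_mul (mul_le_mul_of_nonneg_right ?_ (Nat.cast_nonneg _))
      (pow_le_pow_right₀ hb1 (Nat.le_succ k)) (by positivity) (by positivity)) hξ0
    have := (Nat.cast_nonneg k : (0 : ℝ) ≤ k)
    nlinarith
  · rw [phiF_apply]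
    refine sum_eq_zero fun i _ => ?_
    split_ifs with hi
    · rfl
    rw [hspan] at hv
    have : jm ((v ᵥ* BP.adjugate) i) = 0 := by rw [hco]; exact coef_eq_zero B hv hi
    rw [S.inj (this.trans (map_zero jm).symm), zero_mul]
  · obtain ⟨h1, h2⟩ := phiF_sep {i | B i ∈ T'} BP (D := D)
      (fun i => co_natDegree σ e cP hBP hd i)
    refine ⟨?_, fun h0 => ?_⟩
    · have h4 : 0 < D := by rw [hD, degD]; positivity
      have h5 : (k + 2) * degD k e cP * (m + 1) = D + D * k + D := by rw [hD]; ring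
      omega
    · by_contra hdL
      refine hdL ?_
      rw [show vmap jm d = B.det⁻¹ • (B.det • vmap jm d) by rw [inv_smul_smul₀ hdet],
        det_smul_eq]
      refine L.smul_mem _ (Submodule.sum_mem _ fun i _ => ?_)
      by_cases hi : B i ∈ T'
      · exact L.smul_mem _ hi.2
      · rw [← hco, h2 h0 i hi]; simp

end

end Vale.Agent.P114.Trans
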